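import Vale.Agent.P235.H105.Hop
import Vale.Agent.P235.H536.MergeFace
import Vale.Agent.P235.H206.SurfFinal

/-!
# Surfaces: face hops and the genus
-/

set_option linter.all false
set_option autoImplicit false

namespace Vale.Agent.P235

open SimpleGraph Finset H536 H206

attribute [local instance] finite_dart

/-- (MERGE), by helper536 -/
theorem mergeStmt : MergeStmt := by
  intro V _ G σ fst cyc S hS hne hz X hX hdis hcl
  obtain ⟨f, hf⟩ := H536.merge_face fst cyc hS hz hX hdis (fun s hs x hx hsx => by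
    by_contra h
    exact hx (hcl s hs x hsx h)) hne
  exact ⟨f, fun d hd ⟨e, he, heX⟩ => hf d hd ⟨e, he, fun h => Set.disjoint_left.1 hdis h heX⟩⟩

section iso

variable {V W : Type} {F : SimpleGraph V} {F' : SimpleGraph W}

theorem pathDist_hom_le (φ : F →g F') {ℓ' : Sym2 W → ℝ} (hℓ' : ∀ e ∈ F'.edgeSet, 0 < ℓ' e)
    (hc : F.Connected) (x y : V) :
    pathDist F' ℓ' (φ x) (φ y) ≤ pathDist F (fun e => ℓ' (e.map φ)) x y := by
  have : Nonempty (F.Walk x y) := hc.preconnected x y
  refine le_ciInf fun w => ?_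
  refine (pathDist_le hℓ' (w.map φ)).trans (le_of_eq ?_)
  rw [SimpleGraph.Walk.edges_map, List.map_map]
  rfl

theorem DistortionLE.iso (φ : F ≃g F') (hc : F.Connected) {C : ℝ} (h : DistortionLE F C) :
    DistortionLE F' C := by
  intro ℓ' hℓ'
  have hpos : ∀ e ∈ F.edgeSet, 0 < ℓ' (e.map φ) := by
    intro e
    induction e using Sym2.ind with
    | _ x y => exact fun he => hℓ' _ (φ.map_adj_iff.2 he)
  obtain ⟨Ω, m, μ, f, hf⟩ := h (fun e => ℓ' (e.map φ)) hpos
  refine ⟨Ω, m, μ, fun x => f (φ.symm x), fun x y => ?_⟩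
  have h1 := pathDist_hom_le φ.toHom hℓ' hc (φ.symm x) (φ.symm y)
  have h2 := pathDist_hom_le φ.symm.toHom hpos (φ.connected_iff.1 hc) x y
  have e1 : (fun e : Sym2 W => ℓ' ((e.map φ.symm.toHom).map φ)) = ℓ' := by
    funext e
    induction e using Sym2.ind with
    | _ x y =>
      show ℓ' s(φ (φ.symm x), φ (φ.symm y)) = _
      rw [φ.apply_symm_apply, φ.apply_symm_apply]
  rw [e1] at h2
  have e2 : φ.toHom (φ.symm x) = x := φ.apply_symm_apply x
  have e3 : φ.toHom (φ.symm y) = y := φ.apply_symm_apply y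
  rw [e2, e3] at h1
  have h3 : pathDist F' ℓ' x y = pathDist F (fun e => ℓ' (e.map φ)) (φ.symm x) (φ.symm y) :=
    le_antisymm h1 h2
  rw [h3]
  exact hf _ _

/-- an induced subgraph of an induced subgraph -/
noncomputable def induceIso {G : SimpleGraph V} {S : Set V} (T : Set S) :
    (G.induce S).induce T ≃g G.induce (Subtype.val '' T) where
  toEquiv := Equiv.Set.image Subtype.val T Subtype.val_injective
  map_rel_iff' := Iff.rfl

end iso

/-- the part of a plane map near one face, by face rounds -/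
theorem hop_pointed {C : ℝ} (hC : 0 < C) (k : ℕ) : ∀ (V : Type) [Finite V] (G : SimpleGraph V)
    (_ : G.Connected) (σ : Equiv.Perm G.Dart) (_ : PlaneMap G σ) (a : G.Dart)
    (_ : ∀ T : Set V, (∀ v ∈ T, v ∉ hop σ a k) → (G.induce T).Connected →
      DistortionLE (G.induce T) C)
    (ℓ : Sym2 V → ℝ) (_ : ∀ e ∈ G.edgeSet, 0 < ℓ e) (H : V → ℝ) (_ : ∀ v, 0 < H v)
    (_ : ∀ u v, G.Adj u v → |H u - H v| ≤ ℓ s(u, v)),
    Pointed G ℓ H (96 * C + 112 + 2 * ((k + 1 : ℕ) : ℝ)) := by
  classical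
  induction k with
  | zero =>
    intro V _ G hc σ hσ a h ℓ hℓ H hH hHl
    have hs : SurfMap 0 G σ := ⟨hσ.fst, hσ.cyc, by rw [add_zero]; exact hσ.euler.ge⟩
    refine pointed_mono hℓ hH (le_of_eq ?_) (pointed_step_surf hc hℓ hH hHl hs a
      (K := 96 * C + 112) (by positivity) fun u hu H' hH' hHl' =>
        pointed_leaf hC (comp_connected hu) (induce_pos hℓ _) hH' hHl'
          (h _ (fun v hv => ReachOff.right hv) (comp_connected hu)))
    norm_num
  | succ k ih =>
    intro V _ G hc σ hσ a h ℓ hℓ H hH hHl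
    have hs : SurfMap 0 G σ := ⟨hσ.fst, hσ.cyc, by rw [add_zero]; exact hσ.euler.ge⟩
    have hk0 : (0 : ℝ) ≤ ((k + 1 : ℕ) : ℝ) := Nat.cast_nonneg _
    refine pointed_mono hℓ hH (le_of_eq ?_) (pointed_step_surf hc hℓ hH hHl hs a
      (K := 96 * C + 112 + 2 * ((k + 1 : ℕ) : ℝ)) (by positivity) fun u hu H' hH' hHl' => ?_)
    · push_cast
      ring
    have hK := comp_connected (G := G) hu
    by_cases hne : Nonempty (G.induce (compSet G (onFace σ a) u)).Dart
    swap
    · have := subsingleton_of_no_dart hK hne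
      exact pointed_mono (induce_pos hℓ _) hH' (by linarith)
        (pointed_leaf hC hK (induce_pos hℓ _) hH' hHl' (distortion_single hK C))
    have hz : ∀ (_ : Fintype G.Dart) (_ : DecidableEq V) (z : G.Dart → ZMod 2),
      (∀ d : G.Dart, z d.symm = z d) →
      (∀ d : G.Dart, z d ≠ 0 → d.fst ∈ compSet G (onFace σ a) u) →
      (∀ v, ∑ d : G.Dart, (if d.fst = v then z d else 0) = 0) →
      ∃ u : G.Dart → ZMod 2, (∀ d, u (faceNext σ d) = u d) ∧ ∀ d, z d = u d + u d.symm :=
      fun i1 i2 z h1 _ h2 => cycStmt V G σ hc hσ i1 i2 z h1 h2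
    have hcl : ∀ x ∈ compSet G (onFace σ a) u, ∀ b, G.Adj x b → b ∉ onFace σ a →
        b ∈ compSet G (onFace σ a) u := fun x hx b hb hb' => comp_closed hx hb hb'
    obtain ⟨f, hf⟩ := mergeStmt V G σ hσ.fst hσ.cyc _ hK hne hz _ (onFace_connected hσ.fst a)
      (Set.disjoint_left.2 fun x hx => ReachOff.right hx) hcl
    have hpl : PlaneMap (G.induce (compSet G (onFace σ a) u)) (indRot σ _) := by
      refine SurfMap.plane hK ⟨indRot_fst hσ.fst, fun a b hab => ?_, ?_⟩
      · exact retPerm_sameCycle σ upDart_injective (hσ.cyc _ _ (congrArg Subtype.val hab))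
      · rw [add_zero]
        exact induced_euler hK hne hz
    refine ih _ _ hK _ hpl f (fun T hT hTc => ?_) _ (induce_pos hℓ _) H' hH' hHl'
    have h1 : (G.induce (Subtype.val '' T)).Connected := (induceIso T).connected_iff.1 hTc
    refine DistortionLE.iso (induceIso T).symm h1 (h _ ?_ h1)
    rintro _ ⟨x, hx, rfl⟩ hh
    exact hT x hx (hop_ind' hσ.fst hcl hf k x.1 x.2 hh)

/-- one round which cuts a map of Euler genus `g` into plane maps, with a given root -/
theorem genus_step_root {V : Type} {G : SimpleGraph V} {ℓ : Sym2 V → ℝ} [Finite V]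
    (hc : G.Connected) (hℓ : ∀ e ∈ G.edgeSet, 0 < ℓ e) {H : V → ℝ} (hH : ∀ v, 0 < H v)
    (hHl : ∀ u v, G.Adj u v → |H u - H v| ≤ ℓ s(u, v)) {g : ℕ} {σ : Equiv.Perm G.Dart}
    (hσ : SurfMap g G σ) {K : ℝ} (hK : 0 ≤ K) (r : V)
    (ih : ∀ X : Set V, r ∈ X → (G.induce X).Connected → ∀ v ∉ X,
      (∀ (_ : Fintype G.Dart) (_ : DecidableEq V) (z : G.Dart → ZMod 2),
        (∀ d : G.Dart, z d.symm = z d) → (∀ d : G.Dart, z d ≠ 0 → d.fst ∈ compSet G X v) →
        (∀ v, ∑ d : G.Dart, (if d.fst = v then z d else 0) = 0) →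
        ∃ u : G.Dart → ZMod 2, (∀ d, u (faceNext σ d) = u d) ∧ ∀ d, z d = u d + u d.symm) →
      ∀ H' : compSet G X v → ℝ, (∀ v, 0 < H' v) →
      (∀ a b, (G.induce (compSet G X v)).Adj a b → |H' a - H' b| ≤ ℓ s(a.1, b.1)) →
      Pointed (G.induce (compSet G X v)) (fun e => ℓ (e.map Subtype.val)) H' K) :
    Pointed G ℓ H (K + 100 * ((Nat.log 2 (2 * g + 1) + 1 : ℕ) : ℝ)) := by
  classical
  have hfV := Fintype.ofFinite V
  have hd := pathDist_isMet hc hℓ
  choose p hp using fun x => exists_geodesic hc hℓ r x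
  obtain ⟨W, hW, hcut⟩ := exists_cut hc hσ p
  let W' : Finset V := insert r W
  have hW' : W'.card ≤ 2 * g + 1 := (Finset.card_insert_le _ _).trans (by omega)
  have hpos : 0 < W'.card := Finset.card_pos.2 ⟨r, Finset.mem_insert_self _ _⟩
  let e : Fin W'.card ≃ W' := W'.equivFin.symm
  let L : Fin W'.card → Set V := fun i => {x | x ∈ (p (e i).1).support}
  have hcover : ∀ v ∈ W, ∀ x ∈ (p v).support, x ∈ ⋃ i, L i := by
    intro v hv x hx
    refine Set.mem_iUnion.2 ⟨e.symm ⟨v, Finset.mem_insert_of_mem hv⟩, ?_⟩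
    show x ∈ (p (e (e.symm _)).1).support
    rw [Equiv.apply_symm_apply]
    exact hx
  have hr : r ∈ ⋃ i, L i := Set.mem_iUnion.2 ⟨⟨0, hpos⟩, (p _).start_mem_support⟩
  have hX : (G.induce (⋃ i, L i)).Connected := by
    have key : ∀ {x y : V} (q : G.Walk x y) (hq : ∀ z ∈ q.support, z ∈ ⋃ i, L i),
        (G.induce (⋃ i, L i)).Reachable ⟨x, hq x q.start_mem_support⟩
          ⟨y, hq y q.end_mem_support⟩ := by
      intro x y q
      induction q with
      | nil => intro _; exact SimpleGraph.Reachable.refl _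
      | @cons a b c hab q ih =>
        intro hq
        have h1 : ∀ z ∈ q.support, z ∈ ⋃ i, L i := fun z hz => hq z (by
          rw [SimpleGraph.Walk.support_cons]
          exact List.mem_cons_of_mem _ hz)
        have h2 : (G.induce (⋃ i, L i)).Adj ⟨a, hq a (SimpleGraph.Walk.start_mem_support _)⟩
          ⟨b, h1 b q.start_mem_support⟩ := hab
        exact h2.reachable.trans (ih h1)
    have h3 : ∀ x : (⋃ i, L i : Set V), (G.induce (⋃ i, L i)).Reachable ⟨r, hr⟩ x := by
      rintro ⟨x, hx⟩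
      obtain ⟨i, hi⟩ := Set.mem_iUnion.1 hx
      have hi' : x ∈ (p (e i).1).support := hi
      exact key ((p (e i).1).takeUntil x hi') fun z hz =>
        Set.mem_iUnion.2 ⟨i, SimpleGraph.Walk.support_takeUntil_subset _ hi' hz⟩
    rw [SimpleGraph.connected_iff]
    exact ⟨fun x y => (h3 x).symm.trans (h3 y), ⟨⟨r, hr⟩⟩⟩
  refine pointed_step_lanes (fun {V} _ {d} hsym hnn {I} _ _ D h1 h2 =>
      H105.lanes_fam hsym hnn D h1 h2) hc hℓ hH hHl hpos hW' (L := L)
    (fun i => ⟨r, (p (e i).1).start_mem_support⟩) (u := fun x => pathDist G ℓ r x) ?_ ?_ hK ?_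
  · intro a b
    have t1 := hd.tri r a b
    have t2 := hd.tri r b a
    rw [hd.symm b a] at t2
    rw [abs_le]; constructor <;> linarith
  · intro i a ha b hb
    exact geodesic_line hc hℓ (p (e i).1) (hp _) ha hb
  · intro v hv H' hH' hHl'
    refine ih _ hr hX v hv ?_ H' hH' hHl'
    intro _ _ z hz1 hz2 hz3
    let z' : G.edgeSet → ZMod 2 := fun e => z (rep e)
    have hz' : ∀ d, z' (eOf d) = z d := by
      intro d
      rcases eOf_eq (eOf_rep (eOf d)) with h1 | h1
      · show z (rep (eOf d)) = _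
        rw [h1]
      · show z (rep (eOf d)) = _
        rw [h1, hz1]
    obtain ⟨s, hs⟩ := hcut z' (by
      funext x
      have h3 := hz3 x
      rw [← Finset.sum_filter] at h3
      rw [Pi.zero_apply, ← h3]
      exact Finset.sum_congr (by ext d; simp) (fun d _ => hz' d)) (by
      intro d hd w hw hmem
      rw [hz'] at hd
      exact (ReachOff.right (hz2 d hd)) (hcover w hw _ hmem))
    refine ⟨fun d => s ⟦d⟧, fun d => ?_, fun d => ?_⟩
    · show s ⟦σ d.symm⟧ = s ⟦d⟧
      rw [face_eq]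
    · rw [← hz', hs, cb_apply]

/-- **Face hops and the genus.** Let `σ` be a rotation system of Euler genus at most `g`. If all
plane connected induced subgraphs which have no vertex within `k` face hops of one face have
`c₁ ≤ C`, then `c₁(G) ≤ O(C + k + log g)`. -/
theorem comb_distortion (g k : ℕ) {C : ℝ} (hC : 1 ≤ C) (V : Type) [Finite V] (G : SimpleGraph V)
    (hc : G.Connected) (σ : Equiv.Perm G.Dart) (hσ : SurfMap g G σ) (a : G.Dart)
    (h : ∀ S : Set V, (∀ v ∈ S, v ∉ hop σ a k) → (G.induce S).Connected →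
      (∃ τ, SurfMap 0 (G.induce S) τ) → DistortionLE (G.induce S) C) :
    DistortionLE G (10000000 * (C + k + Real.log (g + 2))) := by
  classical
  intro ℓ hℓ
  have hd := pathDist_isMet hc hℓ
  have hC0 : 0 < C := by linarith
  have hk0 : (0 : ℝ) ≤ k := Nat.cast_nonneg k
  obtain ⟨Ω, m, μ, f, hf⟩ := pointed_embeds
    (K := 96 * C + 112 + 2 * ((k + 1 : ℕ) : ℝ) + 100 * ((Nat.log 2 (2 * g + 1) + 1 : ℕ) : ℝ))
    (by positivity) hc hℓ
    (fun H hH hHl => genus_step_root hc hℓ hH hHl hσ (by positivity) a.fst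
      fun X hr hX v hv hz H' hH' hHl' => by
        have hK := comp_connected (G := G) hv
        by_cases hne : Nonempty (G.induce (compSet G X v)).Dart
        swap
        · have := subsingleton_of_no_dart hK hne
          exact pointed_mono (induce_pos hℓ _) hH' (by
            have : (0 : ℝ) ≤ ((k + 1 : ℕ) : ℝ) := Nat.cast_nonneg _
            linarith)
            (pointed_leaf hC0 hK (induce_pos hℓ _) hH' hHl' (distortion_single hK C))
        have hcl : ∀ x ∈ compSet G X v, ∀ b, G.Adj x b → b ∉ X → b ∈ compSet G X v :=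
          fun x hx b hb hb' => comp_closed hx hb hb'
        obtain ⟨f, hf⟩ := mergeStmt V G σ hσ.fst hσ.cyc _ hK hne hz _ hX
          (Set.disjoint_left.2 fun x hx => ReachOff.right hx) hcl
        have hpl : PlaneMap (G.induce (compSet G X v)) (indRot σ _) := by
          refine SurfMap.plane hK ⟨indRot_fst hσ.fst, fun a b hab => ?_, ?_⟩
          · exact retPerm_sameCycle σ upDart_injective (hσ.cyc _ _ (congrArg Subtype.val hab))
          · rw [add_zero]
            exact induced_euler hK hne hz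
        refine hop_pointed hC0 k _ _ hK _ hpl f (fun T hT hTc => ?_) _ (induce_pos hℓ _) H' hH' hHl'
        have h1 : (G.induce (Subtype.val '' T)).Connected := (induceIso T).connected_iff.1 hTc
        refine DistortionLE.iso (induceIso T).symm h1 ?_
        by_cases hne' : Nonempty (G.induce (Subtype.val '' T)).Dart
        swap
        · have := subsingleton_of_no_dart h1 hne'
          exact distortion_single h1 C
        refine h _ ?_ h1 (induced_surf hσ.fst hσ.cyc h1 hne' fun i1 i2 z hz1 hz2 hz3 =>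
          hz i1 i2 z hz1 (fun d hd => ?_) hz3)
        · rintro _ ⟨x, hx, rfl⟩ hh
          exact hT x hx (hop_ind hσ.fst hcl hf
            ⟨a, Equiv.Perm.SameCycle.refl _ _, hr⟩ k x.1 x.2 hh)
        · obtain ⟨x, _, hx⟩ := hz2 d hd
          rw [← hx]
          exact x.2)
  refine ⟨Ω, m, μ, f, fun x y => ⟨(hf x y).1, (hf x y).2.trans
    (mul_le_mul_of_nonneg_right ?_ (hd.nonneg x y))⟩⟩
  have h1 := log_add_two (2 * g + 1)
  have h2 : Real.log (((2 * g + 1 : ℕ) : ℝ) + 2) ≤ 2 * Real.log (g + 2) := by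
    have hg : (0 : ℝ) ≤ g := Nat.cast_nonneg g
    rw [← Real.log_rpow (by linarith)]
    apply Real.log_le_log (by positivity)
    push_cast
    norm_num
    nlinarith
  have h3 : 0 ≤ Real.log ((g : ℝ) + 2) := Real.log_nonneg (by
    have hg : (0 : ℝ) ≤ g := Nat.cast_nonneg g
    linarith)
  have h4 : ((k + 1 : ℕ) : ℝ) = k + 1 := by push_cast; ring
  rw [h4]
  linarith

end Vale.Agent.P235
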