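import Vale.Agent.P235.Comp.Final

/-!
# Gluing along edges for classes with an edge-exact embedding
-/

namespace Vale.Agent.P235

/-- `G` has nonexpansive `L₁` embeddings which are exact on one prescribed edge and contract
distances at most by the factor `c`, for all metrics generated by `G`. -/
def EdgeExact {V : Type} (G : SimpleGraph V) (c : ℝ) : Prop :=
  ∀ ρ : V → V → ℝ, IsMet ρ → Gen G ρ → ∀ s t, G.Adj s t →
    ∃ F : V → V → ℝ, IsL1 F ∧ F s t = ρ s t ∧ (∀ x y, c * ρ x y ≤ F x y) ∧
      ∀ x y, F x y ≤ ρ x y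

theorem EdgeExact.mono {V : Type} {G : SimpleGraph V} {c c' : ℝ} (h : EdgeExact G c)
    (hc : c' ≤ c) : EdgeExact G c' := by
  intro ρ hρ hG s t hst
  obtain ⟨F, h1, h2, h3, h4⟩ := h ρ hρ hG s t hst
  exact ⟨F, h1, h2, fun x y => (mul_le_mul_of_nonneg_right hc (hρ.nonneg x y)).trans (h3 x y), h4⟩

theorem LineLip.edgeExact {V : Type} [Finite V] {G : SimpleGraph V} {c : ℝ} (h : LineLip G c) :
    EdgeExact G c := by
  intro ρ hρ hG s t hst
  obtain ⟨ι, _, w, g, hw, hw1, hg, hlow⟩ := h ρ hρ hG
  refine ⟨fun x y => ∑ i, w i * max |ρ x s - ρ y s| |g i x - g i y|, ?_, ?_, ?_, ?_⟩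
  · apply IsL1.sum
    intro i _
    exact (isL1_max (fun x => ρ x s) (g i)).smul (hw i)
  · show ∑ i, w i * max |ρ s s - ρ t s| |g i s - g i t| = ρ s t
    have h1 : ∀ i, max |ρ s s - ρ t s| |g i s - g i t| = ρ s t := by
      intro i
      rw [hρ.self, zero_sub, abs_neg, abs_of_nonneg (hρ.nonneg t s), hρ.symm t s]
      exact max_eq_left (hg i s t)
    simp only [h1]
    rw [← Finset.sum_mul, hw1, one_mul]
  · intro x y
    refine (hlow x y).trans ?_
    apply Finset.sum_le_sum
    intro i _
    exact mul_le_mul_of_nonneg_left (le_max_right _ _) (hw i)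
  · intro x y
    calc ∑ i, w i * max |ρ x s - ρ y s| |g i x - g i y| ≤ ∑ i, w i * ρ x y := by
          apply Finset.sum_le_sum
          intro i _
          exact mul_le_mul_of_nonneg_left (max_le (abs_dist_sub hρ x y s) (hg i x y)) (hw i)
      _ = ρ x y := by rw [← Finset.sum_mul, hw1, one_mul]

/-- the local step at a prescribed value on the edge `s t` -/
theorem piece2 {V : Type} [Finite V] {G : SimpleGraph V} {c c0 : ℝ} (hc : 0 < c) (hc1 : c ≤ 1)
    (hc0 : c0 = c / 120) (hLL : EdgeExact G c) {d : V → V → ℝ} (hd : IsMet d) (hG : Gen G d)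
    {s t : V} (hst : G.Adj s t) {D : ℝ} (hD1 : c0 * d s t ≤ D) (hD2 : D ≤ d s t) :
    ∃ ν : V → V → ℝ, IsL1 ν ∧ ν s t = D ∧ (∀ x y, c0 * d x y ≤ ν x y) ∧
      (∀ x y, ν x y ≤ d x y) ∧
      (∀ z w, (1 / 3) * min (d z s) (d z t) ≤
        ν z s + ν z t + (ν w s + ν w t) / 2 - D / 2 - ν z w) := by
  have hΔ : 0 < d s t := hd.pos s t hst.ne
  have hc0' : 0 < c0 := by rw [hc0]; positivity
  have hD : 0 < D := (mul_pos hc0' hΔ).trans_le hD1
  set ρ := short d s t D with hρ
  have hρM : IsMet ρ := short_isMet hd hD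
  have hρG : Gen G ρ := short_gen hd hG hst
  have hρst : ρ s t = D := short_st hd hD hD2
  have hρts : ρ t s = D := by rw [hρM.symm]; exact hρst
  obtain ⟨F, LF, RF, lowF, upF⟩ := hLL ρ hρM hρG s t hst
  set ν1 : V → V → ℝ := fun x y => max |ρ x s - ρ y s| |ρ x t - ρ y t| with hν1
  set νa : V → V → ℝ := fun x y => |ρ x s - ρ y s| with hνa
  set ν2 : V → V → ℝ := fun x y => (3 / 4) * νa x y + (1 / 4) * F x y with hν2
  set ψ := psi d s t D with hψ
  set ν3 : V → V → ℝ := fun x y => |ψ x - ψ y| with hν3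
  have L1 : IsL1 ν1 := isL1_max _ _
  have La : IsL1 νa := isL1_line _
  have L2 : IsL1 ν2 := (La.smul (by norm_num)).add (LF.smul (by norm_num))
  have L3 : IsL1 ν3 := isL1_line ψ
  have U1 : ∀ x y, ν1 x y ≤ ρ x y := by
    intro x y
    exact max_le (abs_dist_sub hρM x y s) (abs_dist_sub hρM x y t)
  have Ua : ∀ x y, νa x y ≤ ρ x y := fun x y => abs_dist_sub hρM x y s
  have U2 : ∀ x y, ν2 x y ≤ ρ x y := by
    intro x y
    show (3 / 4) * νa x y + (1 / 4) * F x y ≤ ρ x y
    linarith only [Ua x y, upF x y]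
  have U3 : ∀ x y, ν3 x y ≤ ρ x y := psi_lip hd hD hD2
  have R1 : ν1 s t = D := by
    rw [hν1]
    show max |ρ s s - ρ t s| |ρ s t - ρ t t| = D
    rw [hρM.self, hρM.self, hρst, hρts, zero_sub, sub_zero, abs_neg, abs_of_pos hD, max_self]
  have Ra : νa s t = D := by
    show |ρ s s - ρ t s| = D
    rw [hρM.self, hρts, zero_sub, abs_neg, abs_of_pos hD]
  have R2 : ν2 s t = D := by
    show (3 / 4) * νa s t + (1 / 4) * F s t = D
    rw [Ra, RF, hρst]; ring
  have R3 : ν3 s t = D := by
    show |psi d s t D s - psi d s t D t| = D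
    rw [psi_s hd hD hD2, psi_t hd hD hD2, zero_sub, abs_neg, abs_of_pos hD]
  have F1 : ∀ z, ν1 z s = ρ z s := by
    intro z
    show max |ρ z s - ρ s s| |ρ z t - ρ s t| = ρ z s
    rw [hρM.self, sub_zero, abs_of_nonneg (hρM.nonneg z s), max_eq_left]
    exact abs_dist_sub hρM z s t
  have F1' : ∀ z, ν1 z t = ρ z t := by
    intro z
    show max |ρ z s - ρ t s| |ρ z t - ρ t t| = ρ z t
    rw [hρM.self, sub_zero, abs_of_nonneg (hρM.nonneg z t), max_eq_right]
    exact abs_dist_sub hρM z t s
  have c01 : c0 ≤ 1 / 120 := by rw [hc0]; linarith only [hc1]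
  have key : ∀ x y, d x s + D + d t y < d x y / 10 →
      c0 * d x y ≤ (1 / 3) * ν1 x y + (1 / 3) * ν2 x y + (1 / 3) * ν3 x y := by
    intro x y hxy
    have t1 := hd.tri x s y
    have t2 := hd.tri s t y
    have t3 : d s t ≤ d x s + d x t := by
      have := hd.tri s x t
      rw [hd.symm s x] at this; exact this
    have t4 : d s t ≤ d y s + d t y := by
      have := hd.tri s y t
      rw [hd.symm s y, hd.symm y t] at this; exact this
    have n1 := hd.nonneg x s
    have n2 := hd.nonneg t y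
    have r1 : ρ x s = d x s := by
      rw [hρ, short_self_s hd hD, min_eq_left]; linarith only [hD, hxy, t1, t2, t3, n1, n2]
    have r2 : ρ y s = d t y + D := by
      rw [hρ, short_self_s hd hD, hd.symm y t, min_eq_right]; linarith only [hD, hxy, t1, t2, t4, n1, n2]
    have r3 : ρ x t = d x s + D := by
      rw [hρ, short_self_t hd hD, min_eq_right]; linarith only [hD, hxy, t1, t2, t3, n1, n2]
    have r4 : ρ y t = d t y := by
      rw [hρ, short_self_t hd hD, hd.symm y t, min_eq_left]; linarith only [hD, hxy, t1, t2, t4, n1, n2]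
    obtain ⟨a, ha⟩ : ∃ a, a = d x s := ⟨_, rfl⟩
    obtain ⟨b, hb⟩ : ∃ b, b = d t y := ⟨_, rfl⟩
    have a1 : a + D - b ≤ ν1 x y := by
      refine le_trans ?_ (le_max_right _ _)
      rw [r3, r4, ha, hb]; exact le_abs_self _
    have a1' : b + D - a ≤ ν1 x y := by
      refine le_trans ?_ (le_max_left _ _)
      rw [r1, r2, ha, hb]
      have := neg_abs_le (d x s - (d t y + D))
      linarith only [this]
    have a2 : b + D - a ≤ νa x y := by
      show b + D - a ≤ |ρ x s - ρ y s|
      rw [r1, r2, ha, hb]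
      have := neg_abs_le (d x s - (d t y + D))
      linarith only [this]
    have a2' : D - a - b ≤ F x y := by
      have e1 := LF.tri s x t
      have e2 := LF.tri x y t
      have e3 := LF.symm s x
      have e4 := upF x s
      have e5 := upF y t
      rw [r1] at e4
      rw [r4] at e5
      rw [RF, hρst] at e1
      rw [ha, hb]
      linarith only [e1, e2, e3, e4, e5]
    have a2'' : 0 ≤ F x y := LF.nonneg x y
    have p1 : ψ x = -(d x s) := by
      rw [hψ]
      unfold psi
      rw [if_pos (by linarith only [hD, hxy, t1, t2, n1, n2]), min_eq_left (by linarith only [hD, hxy, t1, t2, n1, n2] : d x s ≤ d s t / 8), max_eq_left]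
      refine (min_le_right _ _).trans ?_
      linarith only [hD, hxy, t1, t2, t3, n1, n2]
    have p2 : ψ y = D + d t y := by
      rw [hψ]
      unfold psi
      rw [if_pos (by linarith only [hD, hxy, t1, t2, n1, n2]), hd.symm y t,
        min_eq_left (by linarith only [hD, hxy, t1, t2, n1, n2] : D + d t y ≤ D + 2 * (d s t / 8) - d t y), max_eq_right]
      have : 0 ≤ min (d y s) (d s t / 8) := le_min (hd.nonneg y s) (by linarith only [hD, hxy, t1, t2, n1, n2])
      linarith only [hD, n2, this]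
    have a3 : a + D + b ≤ ν3 x y := by
      show _ ≤ |ψ x - ψ y|
      rw [p1, p2, ha, hb]
      have := neg_abs_le (-(d x s) - (D + d t y))
      linarith only [this]
    have h1 : d x y ≤ d s t + (a + b) := by rw [ha, hb]; linarith only [t1, t2]
    have hab : 0 ≤ a + b := by rw [ha, hb]; linarith only [n1, n2]
    have hna : 0 ≤ a := by rw [ha]; exact n1
    have hnb : 0 ≤ b := by rw [hb]; exact n2
    have h2 : c0 * d x y ≤ D + (1 / 120) * (a + b) := by
      calc c0 * d x y ≤ c0 * (d s t + (a + b)) := mul_le_mul_of_nonneg_left h1 hc0'.le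
        _ = c0 * d s t + c0 * (a + b) := by ring
        _ ≤ D + (1 / 120) * (a + b) := by
            have := mul_le_mul_of_nonneg_right c01 hab
            linarith only [this, hD1]
    have e2 : ν2 x y = (3 / 4) * νa x y + (1 / 4) * F x y := rfl
    rw [e2]
    rcases le_total a b with hle | hle
    · linarith only [h2, a1', a2, a2', a3, hle, hna, hnb]
    · linarith only [h2, a1, a2, a2', a3, hle, hna, hnb]
  refine ⟨fun x y => (1 / 3) * ν1 x y + (1 / 3) * ν2 x y + (1 / 3) * ν3 x y, ?_, ?_, ?_, ?_, ?_⟩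
  · exact ((L1.smul (by norm_num)).add (L2.smul (by norm_num))).add (L3.smul (by norm_num))
  · show (1 / 3) * ν1 s t + (1 / 3) * ν2 s t + (1 / 3) * ν3 s t = D
    rw [R1, R2, R3]; ring
  · intro x y
    show c0 * d x y ≤ (1 / 3) * ν1 x y + (1 / 3) * ν2 x y + (1 / 3) * ν3 x y
    by_cases h : d x y / 10 ≤ ρ x y
    · have e1 := lowF x y
      have e2 := L1.nonneg x y
      have e3 := L3.nonneg x y
      have e4 : c * (d x y / 10) ≤ c * ρ x y := mul_le_mul_of_nonneg_left h hc.le
      have e5 : ν2 x y = (3 / 4) * νa x y + (1 / 4) * F x y := rfl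
      have e6 := La.nonneg x y
      rw [hc0, e5]
      linarith only [e1, e2, e3, e4, e6]
    · push Not at h
      have hdn := hd.nonneg x y
      rw [hρ] at h
      unfold short at h
      rcases min_lt_iff.mp h with h | h
      · linarith only [hdn, h]
      · rcases min_lt_iff.mp h with h | h
        · exact key x y h
        · have := key y x (by rw [hd.symm y s, hd.symm t x, hd.symm y x]; linarith only [h])
          rw [L1.symm x y, L2.symm x y, L3.symm x y, hd.symm x y]
          exact this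
  · intro x y
    show (1 / 3) * ν1 x y + (1 / 3) * ν2 x y + (1 / 3) * ν3 x y ≤ d x y
    have u1 := U1 x y
    have u2 := U2 x y
    have u3 := U3 x y
    have u4 : ρ x y ≤ d x y := short_le _ _ _ _ _ _
    linarith only [u1, u2, u3, u4]
  · intro z w
    show (1 / 3) * min (d z s) (d z t) ≤
        ((1 / 3) * ν1 z s + (1 / 3) * ν2 z s + (1 / 3) * ν3 z s) +
        ((1 / 3) * ν1 z t + (1 / 3) * ν2 z t + (1 / 3) * ν3 z t) +
        (((1 / 3) * ν1 w s + (1 / 3) * ν2 w s + (1 / 3) * ν3 w s) +
          ((1 / 3) * ν1 w t + (1 / 3) * ν2 w t + (1 / 3) * ν3 w t)) / 2 - D / 2 -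
        ((1 / 3) * ν1 z w + (1 / 3) * ν2 z w + (1 / 3) * ν3 z w)
    have P2 : 0 ≤ ν2 z s + ν2 z t + (ν2 w s + ν2 w t) / 2 - D / 2 - ν2 z w := by
      apply phi_nonneg
      · rw [← R2]; exact L2.Tri s t z
      · have := L2.Tri z w s
        rw [L2.symm z s, L2.symm w s]; exact this
      · have := L2.Tri z w t
        rw [L2.symm z t, L2.symm w t]; exact this
    have P3 : 0 ≤ ν3 z s + ν3 z t + (ν3 w s + ν3 w t) / 2 - D / 2 - ν3 z w := by
      apply phi_nonneg
      · rw [← R3]; exact L3.Tri s t z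
      · have := L3.Tri z w s
        rw [L3.symm z s, L3.symm w s]; exact this
      · have := L3.Tri z w t
        rw [L3.symm z t, L3.symm w t]; exact this
    have P1 : min (d z s) (d z t) ≤
        ν1 z s + ν1 z t + (ν1 w s + ν1 w t) / 2 - D / 2 - ν1 z w := by
      have T : ∀ z, Tri D (ρ z s) (ρ z t) := by
        intro z
        have := L1.Tri s t z
        rw [R1, F1, F1'] at this
        exact this
      have := phi_plane (T z) (T w)
      rw [F1, F1', F1, F1']
      refine le_trans ?_ this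
      apply le_min
      · rw [hρ, short_self_s hd hD]
        exact le_min (min_le_left _ _) ((min_le_right _ _).trans (by linarith only [hD]))
      · rw [hρ, short_self_t hd hD]
        exact le_min (min_le_right _ _) ((min_le_left _ _).trans (by linarith only [hD]))
    linarith only [P1, P2, P3]

theorem base_step2 {V : Type} [Finite V] {G : SimpleGraph V} {c c0 K1 : ℝ} (hc : 0 < c)
    (hc1 : c ≤ 1) (hc0 : c0 = c / 120) (hK : K1 = 4 / c0) (hLL : EdgeExact G c)
    {d : V → V → ℝ} (hd : IsMet d) (hG : Gen G d) {s t : V} (hst : G.Adj s t) {D : ℝ}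
    (hD1 : c0 * d s t ≤ D) (hD2 : D ≤ d s t) :
    ∃ F : V → V → ℝ, IsL1 F ∧ F s t = D ∧ EmbOn Set.univ G d c0 K1 s t F := by
  have hc0' : 0 < c0 := by rw [hc0]; positivity
  have hc03 : c0 ≤ 1 / 3 := by rw [hc0]; linarith only [hc1]
  have hD : 0 < D := (mul_pos hc0' (hd.pos s t hst.ne)).trans_le hD1
  have hK1c : K1 * c0 = 4 := by rw [hK]; field_simp
  have hK1 : 0 < K1 := by rw [hK]; positivity
  obtain ⟨F, hF, hFst, hlow, hup, hΦ⟩ := piece2 hc hc1 hc0 hLL hd hG hst hD1 hD2
  refine ⟨F, hF, hFst, ?_⟩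
  have triF : ∀ x y z, Tri (F x y) (F x z) (F y z) := by
    intro x y z
    have := hF.Tri x y z
    rw [hF.symm z x, hF.symm z y] at this
    exact this
  -- the chain step for all pairs
  have hstep : ∀ K, K1 ≤ K → ∀ a b τa τb, Good K (F s t) a b τa τb → ∀ u v,
      min (τa + d s u) (τb + d t u) ≤ K * pot (F u v) (comp (F s t) a b (F u s) (F u t))
      (comp (F s t) a b (F v s) (F v t)) := by
    intro K hKK a b τa τb hg u v
    rw [hFst] at hg ⊢
    have h1 := hΦ u v
    rw [hd.symm u s, hd.symm u t] at h1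
    have T1 := hF.Tri s t u
    have T2 := hF.Tri s t v
    rw [hFst] at T1 T2
    refine step hc0' hc03 (by rw [← hK]; exact hKK) hD hg T1 T2 (triF u v s) (triF u v t)
      ?_ ?_ ?_ ?_ h1
    · rw [hd.symm s u]; exact hlow u s
    · rw [hd.symm t u]; exact hlow u t
    · rw [hd.symm s u]; exact hup u s
    · rw [hd.symm t u]; exact hup u t
  have hDF : 0 < F s t := by rw [hFst]; exact hD
  have hpt : ∀ K, K1 ≤ K → ∀ x u, d x u ≤ K * F x u := by
    intro K hKK x u
    have h1 := hlow x u
    have h2 := hF.nonneg x u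
    have h3 := hd.nonneg x u
    have h4 : d x u ≤ K1 * F x u := by
      have : K1 * (c0 * d x u) ≤ K1 * F x u := mul_le_mul_of_nonneg_left h1 hK1.le
      rw [← mul_assoc, hK1c] at this
      linarith only [h3, this]
    exact h4.trans (mul_le_mul_of_nonneg_right hKK h2)
  constructor
  · intro u _ v _ _; exact hlow u v
  · intro u _ v _ _; exact hup u v
  · intro K hKK a b τa τb hg u _ v _ _
    exact hstep K hKK a b τa τb hg u v
  · intro K hKK a b τa τb hg u _
    refine (hstep K hKK a b τa τb hg u s).trans ?_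
    have hT : Tri (F u s) (comp (F s t) a b (F u s) (F u t)) (comp (F s t) a b (F s s) (F s t)) :=
      comp_tri hDF hg.1 (triF u s s) (triF u s t)
    have := mul_le_mul_of_nonneg_left (pot_le hT) (hK1.le.trans hKK)
    linarith only [this]
  · intro p _ q _ hpq hp' hq' δp δq hT hR u _ v _ _
    have hDpq : 0 < F p q := (mul_pos hc0' (hd.pos p q hpq.ne)).trans_le (hlow p q)
    have hpot : ∀ a b, Tri (F p q) a b → a ≤ pot (F p q) a b := fun a b h => pot_ge h
    have hG : Good K1 (F p q) (F u p) (F u q) (d u p) (d u q) := by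
      refine ⟨hF.Tri p q u, ?_, ?_⟩
      · exact (hpt K1 le_rfl u p).trans
          (mul_le_mul_of_nonneg_left (pot_ge (hF.Tri p q u)) hK1.le)
      · exact (hpt K1 le_rfl u q).trans
          (mul_le_mul_of_nonneg_left (pot_ge (hF.Tri p q u).swap) hK1.le)
    have g := hR _ _ _ _ hG
    rw [comp_comm hDpq] at g
    have hT2 : Tri (F u v) (comp (F p q) hp' hq' (F u p) (F u q))
        (comp (F p q) hp' hq' (F v p) (F v q)) := comp_tri hDpq hT (triF u v p) (triF u v q)
    have := mul_le_mul_of_nonneg_left (pot_ge hT2) (by linarith only [hK1] : 0 ≤ 5 * K1)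
    refine le_trans ?_ (g.trans this)
    rw [hd.symm p u, hd.symm q u, add_comm δp, add_comm δq]
  · intro x _ u _ v _ _
    refine (hpt (5 * K1) (by linarith only [hK1]) x u).trans ?_
    apply mul_le_mul_of_nonneg_left (pot_ge _) (by linarith only [hK1])
    exact hF.Tri u v x
  · intro x _ u _
    exact hpt (5 * (5 * K1)) (by linarith only [hK1]) x u

end Vale.Agent.P235
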