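import Vale.Agent.P235.H536.PlaneDefs

namespace Vale.Agent.P235

/-- The vertices within `n` face hops of the face of the dart `d`: `hop σ d 0` is the set of the
vertices on this face, and `hop σ d (n + 1)` is the set of the vertices on the faces which contain
a vertex of `hop σ d n`. -/
def hop {V : Type} {G : SimpleGraph V} (σ : Equiv.Perm G.Dart) (d : G.Dart) : ℕ → Set V
  | 0 => onFace σ d
  | n + 1 => {v | ∃ w ∈ hop σ d n, ∃ d' : G.Dart, v ∈ onFace σ d' ∧ w ∈ onFace σ d'}

end Vale.Agent.P235
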