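import Vale.Agent.P235.H105.PlaneCycle
import Vale.Agent.P235.H536.PlanarPeel

namespace Vale.Agent.P235

/-- block (A): cycles modulo two of a plane map are sums of face boundaries -/
theorem cycStmt : H536.CycStmt := by
  intro V _ G σ hc hσ _ _ z hz hv
  classical
  have := Fintype.ofFinite V
  refine plane_cycle' hc hσ z hz fun v => ?_
  rw [Finset.sum_filter]
  exact hv v

/-- **`k` rounds of deleting the vertices on the boundary of one face of a plane map of every
component leave components with `c₁ ≤ C`: `c₁(G) ≤ 3328000 (C + k)`.** -/
theorem planar_distortion (k : ℕ) {C : ℝ} (hC : 1 ≤ C) (V : Type) [Finite V] (G : SimpleGraph V)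
    (hc : G.Connected) (h : PlanarPeel C k G) : DistortionLE G (3328000 * (C + k)) :=
  H536.planar_distortion_of cycStmt k hC V G hc h

end Vale.Agent.P235
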