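import Vale.Agent.P235.H105.Induced
import Vale.Agent.P235.H105.HopDefs
import Vale.Agent.P235.H105.PlaneFinal
import Vale.Agent.P235.H206.Plane
import Vale.Agent.P235.Comp.Core

/-!
# Face hops under induced rotation systems
-/

set_option linter.all false
set_option autoImplicit false

namespace Vale.Agent.P235

open SimpleGraph

attribute [local instance] finite_dart

section hops

variable {V : Type} {G : SimpleGraph V} {σ : Equiv.Perm G.Dart}

theorem faceNext_fst (fst : ∀ d, (σ d).fst = d.fst) (d : G.Dart) :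
    (faceNext σ d).fst = d.snd := by
  rw [faceNext_apply, fst]
  rfl

theorem onFace_of_hop {a : G.Dart} {n : ℕ} {v : V} (h : v ∈ hop σ a n) :
    ∃ e : G.Dart, v ∈ onFace σ e := by
  cases n with
  | zero => exact ⟨a, h⟩
  | succ n =>
    obtain ⟨w, _, e, he, _⟩ := h
    exact ⟨e, he⟩

theorem hop_succ {a : G.Dart} {n : ℕ} {v : V} (h : v ∈ hop σ a n) : v ∈ hop σ a (n + 1) := by
  obtain ⟨e, he⟩ := onFace_of_hop h
  exact ⟨v, h, e, he, he⟩

theorem hop_mono {a : G.Dart} {m n : ℕ} (hmn : m ≤ n) {v : V} (h : v ∈ hop σ a m) :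
    v ∈ hop σ a n := by
  induction hmn with
  | refl => exact h
  | step _ ih => exact hop_succ ih

variable [Finite V] {S X : Set V}

theorem exists_pow_face {a b : G.Dart} (h : (faceNext σ).SameCycle a b) :
    ∃ n : ℕ, (faceNext σ ^ n) a = b := by
  obtain ⟨n, _, hn⟩ := h.exists_pow_eq'
  exact ⟨n, hn⟩

/-- a face which meets the component `S` and avoids `X` stays a face -/
theorem face_in (fst : ∀ d, (σ d).fst = d.fst)
    (hS : ∀ a ∈ S, ∀ b, G.Adj a b → b ∉ X → b ∈ S) (d : G.Dart) (hd : d.fst ∈ S)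
    (hX : ∀ e, (faceNext σ).SameCycle d e → e.fst ∉ X) (n : ℕ) :
    ∃ a b : (G.induce S).Dart, upDart a = d ∧ upDart b = (faceNext σ ^ n) d ∧
      (faceNext (indRot σ S)).SameCycle a b := by
  have hr : ∀ e, (faceNext σ).SameCycle d e → e.fst ∈ S →
      e ∈ Set.range (upDart (G := G) (S := S)) := by
    intro e he heS
    rw [mem_range_upDart]
    refine ⟨heS, hS _ heS _ e.adj ?_⟩
    have h1 := hX (faceNext σ e) (Equiv.Perm.sameCycle_apply_right.2 he)
    rwa [faceNext_fst fst] at h1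
  induction n with
  | zero =>
    obtain ⟨a, ha⟩ := hr d (Equiv.Perm.SameCycle.refl _ _) hd
    exact ⟨a, a, ha, ha, Equiv.Perm.SameCycle.refl _ _⟩
  | succ n ih =>
    obtain ⟨a, b, ha, hb, hab⟩ := ih
    have h1 : (faceNext σ).SameCycle d ((faceNext σ ^ (n + 1)) d) :=
      ⟨((n + 1 : ℕ) : ℤ), by rw [zpow_natCast]⟩
    have h2 : (faceNext σ ^ (n + 1)) d = σ (upDart b.symm) := by
      rw [pow_succ', Equiv.Perm.mul_apply, ← hb, faceNext_apply, upDart_symm]
    have h3 : (σ (upDart b.symm)).fst ∈ S := by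
      rw [fst, upDart_fst]
      exact b.symm.fst.2
    have h4 := hr _ h1 (by rw [h2]; exact h3)
    rw [h2] at h4 h1
    have h5 : retTime σ (upDart (G := G) (S := S)) b.symm = 1 := by
      have h6 := retTime_min σ (upDart (G := G) (S := S)) b.symm one_pos (by rw [pow_one]; exact h4)
      have h7 := retTime_pos σ (upDart (G := G) (S := S)) b.symm
      omega
    refine ⟨a, faceNext (indRot σ S) b, ha, ?_, Equiv.Perm.sameCycle_apply_right.2 hab⟩
    rw [faceNext_apply, upDart_indRot, h5, pow_one, h2]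

theorem same_face (fst : ∀ d, (σ d).fst = d.fst)
    (hS : ∀ a ∈ S, ∀ b, G.Adj a b → b ∉ X → b ∈ S) {d' : G.Dart} {v w : V}
    (hv : v ∈ onFace σ d') (hw : w ∈ onFace σ d') (hvS : v ∈ S)
    (hX : ∀ e, (faceNext σ).SameCycle d' e → e.fst ∉ X) :
    ∃ (hwS : w ∈ S) (a : (G.induce S).Dart), (⟨v, hvS⟩ : S) ∈ onFace (indRot σ S) a ∧
      (⟨w, hwS⟩ : S) ∈ onFace (indRot σ S) a := by
  obtain ⟨d, hd, rfl⟩ := hv
  obtain ⟨e, he, rfl⟩ := hw
  obtain ⟨n, hn⟩ := exists_pow_face (hd.symm.trans he)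
  obtain ⟨a, b, ha, hb, hab⟩ := face_in fst hS d hvS
    (fun e' he' => hX e' (hd.trans he')) n
  rw [hn] at hb
  have h1 : a.fst.1 = d.fst := by rw [← upDart_fst, ha]
  have h2 : b.fst.1 = e.fst := by rw [← upDart_fst, hb]
  have hwS : e.fst ∈ S := by rw [← h2]; exact b.fst.2
  exact ⟨hwS, a, ⟨a, Equiv.Perm.SameCycle.refl _ _, Subtype.ext h1⟩, ⟨b, hab, Subtype.ext h2⟩⟩

/-- if the face `a` touches `X` then vertices within `n` hops of it are within `n` hops of the
merged face `f` -/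
theorem hop_ind (fst : ∀ d, (σ d).fst = d.fst)
    (hS : ∀ a ∈ S, ∀ b, G.Adj a b → b ∉ X → b ∈ S) {f : (G.induce S).Dart}
    (hf : ∀ (d : G.Dart) (hd : d.fst ∈ S), (∃ e, (faceNext σ).SameCycle d e ∧ e.fst ∈ X) →
      (⟨d.fst, hd⟩ : S) ∈ onFace (indRot σ S) f) {a : G.Dart}
    (ha : ∃ e, (faceNext σ).SameCycle a e ∧ e.fst ∈ X) (n : ℕ) :
    ∀ (v : V) (hv : v ∈ S), v ∈ hop σ a n → (⟨v, hv⟩ : S) ∈ hop (indRot σ S) f n := by
  induction n with
  | zero =>
    rintro v hv ⟨d, hd, rfl⟩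
    obtain ⟨e, he, heX⟩ := ha
    exact hf d hv ⟨e, hd.symm.trans he, heX⟩
  | succ n ih =>
    rintro v hv ⟨w, hw, d', hvd, hwd⟩
    by_cases ht : ∃ e, (faceNext σ).SameCycle d' e ∧ e.fst ∈ X
    · obtain ⟨e, he, heX⟩ := ht
      obtain ⟨d, hd, rfl⟩ := hvd
      exact hop_mono (Nat.zero_le _) (show _ ∈ hop (indRot σ S) f 0 from
        hf d hv ⟨e, hd.symm.trans he, heX⟩)
    · push Not at ht
      obtain ⟨hwS, b, h1, h2⟩ := same_face fst hS hvd hwd hv ht
      exact ⟨⟨w, hwS⟩, ih w hwS hw, b, h1, h2⟩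

/-- if `X` is the set of the vertices of the face `a` then vertices within `n + 1` hops of it are
within `n` hops of the merged face `f` -/
theorem hop_ind' (fst : ∀ d, (σ d).fst = d.fst) {a : G.Dart}
    (hS : ∀ x ∈ S, ∀ b, G.Adj x b → b ∉ onFace σ a → b ∈ S) {f : (G.induce S).Dart}
    (hf : ∀ (d : G.Dart) (hd : d.fst ∈ S),
      (∃ e, (faceNext σ).SameCycle d e ∧ e.fst ∈ onFace σ a) →
      (⟨d.fst, hd⟩ : S) ∈ onFace (indRot σ S) f) (n : ℕ) :
    ∀ (v : V) (hv : v ∈ S), v ∈ hop σ a (n + 1) → (⟨v, hv⟩ : S) ∈ hop (indRot σ S) f n := by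
  have touch : ∀ (d' : G.Dart) (v : V) (hv : v ∈ S), v ∈ onFace σ d' →
      (∃ e, (faceNext σ).SameCycle d' e ∧ e.fst ∈ onFace σ a) →
      (⟨v, hv⟩ : S) ∈ onFace (indRot σ S) f := by
    rintro d' v hv ⟨d, hd, rfl⟩ ⟨e, he, heX⟩
    exact hf d hv ⟨e, hd.symm.trans he, heX⟩
  induction n with
  | zero =>
    rintro v hv ⟨w, hw, d', hvd, hwd⟩
    obtain ⟨e, he, rfl⟩ := hwd
    exact touch d' v hv hvd ⟨e, he, hw⟩
  | succ n ih =>
    rintro v hv ⟨w, hw, d', hvd, hwd⟩
    by_cases ht : ∃ e, (faceNext σ).SameCycle d' e ∧ e.fst ∈ onFace σ a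
    · exact hop_mono (Nat.zero_le _) (show _ ∈ hop (indRot σ S) f 0 from touch d' v hv hvd ht)
    · push Not at ht
      obtain ⟨hwS, b, h1, h2⟩ := same_face fst hS hvd hwd hv ht
      exact ⟨⟨w, hwS⟩, ih w hwS hw, b, h1, h2⟩

omit [Finite V] in
theorem comp_closed {u x b : V} (hx : x ∈ compSet G X u) (h : G.Adj x b) (hb : b ∉ X) :
    b ∈ compSet G X u :=
  ReachOff.trans hx (ReachOff.adj (ReachOff.right hx) hb h)

/-- the vertices on a face induce a connected subgraph -/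
theorem onFace_connected (fst : ∀ d, (σ d).fst = d.fst) (a : G.Dart) :
    (G.induce (onFace σ a)).Connected := by
  have h0 : a.fst ∈ onFace σ a := ⟨a, Equiv.Perm.SameCycle.refl _ _, rfl⟩
  have hm : ∀ n : ℕ, ((faceNext σ ^ n) a).fst ∈ onFace σ a := fun n =>
    ⟨_, ⟨(n : ℤ), by rw [zpow_natCast]⟩, rfl⟩
  have key : ∀ n : ℕ, (G.induce (onFace σ a)).Reachable ⟨a.fst, h0⟩
      ⟨((faceNext σ ^ n) a).fst, hm n⟩ := by
    intro n
    induction n with
    | zero => exact SimpleGraph.Reachable.refl _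
    | succ n ih =>
      refine ih.trans (SimpleGraph.Adj.reachable ?_)
      have h1 : ((faceNext σ ^ (n + 1)) a).fst = ((faceNext σ ^ n) a).snd := by
        rw [pow_succ', Equiv.Perm.mul_apply, faceNext_fst fst]
      show G.Adj ((faceNext σ ^ n) a).fst ((faceNext σ ^ (n + 1)) a).fst
      rw [h1]
      exact ((faceNext σ ^ n) a).adj
  rw [SimpleGraph.connected_iff]
  refine ⟨?_, ⟨⟨a.fst, h0⟩⟩⟩
  have h2 : ∀ x : onFace σ a, (G.induce (onFace σ a)).Reachable ⟨a.fst, h0⟩ x := by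
    rintro ⟨x, e, he, rfl⟩
    obtain ⟨n, rfl⟩ := exists_pow_face he
    exact key n
  exact fun x y => (h2 x).symm.trans (h2 y)

end hops

/-- the other half of Euler's formula: a map of Euler genus `0` is plane -/
theorem SurfMap.plane {V : Type} [Finite V] {G : SimpleGraph V} (hc : G.Connected)
    {σ : Equiv.Perm G.Dart} (hσ : SurfMap 0 G σ) : PlaneMap G σ := by
  classical
  have := Fintype.ofFinite V
  have : Fintype G.Dart := Fintype.ofFinite _
  refine ⟨hσ.fst, hσ.cyc, ?_⟩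
  have : Finite G.edgeSet := Finite.of_surjective (fun d : G.Dart => H206.eOf d) H206.exists_dart
  have : Fintype G.edgeSet := Fintype.ofFinite _
  have : Fintype (Faces G σ) := Fintype.ofFinite _
  have h1 := H206.finrank_ker_cb hc hσ.cyc
  have h2 := H206.finrank_range_bd hc
  have h3 := LinearMap.finrank_range_add_finrank_ker (H206.cb σ)
  have h4 := LinearMap.finrank_range_add_finrank_ker (H206.bd G)
  rw [Module.finrank_fintype_fun_eq_card] at h3 h4
  have h5 := hσ.euler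
  have h6 : Nat.card (Quotient (Equiv.Perm.SameCycle.setoid (faceNext σ))) =
    Fintype.card (Faces G σ) := Nat.card_eq_fintype_card (α := Faces G σ)
  rw [h6] at h5 ⊢
  rw [Nat.card_eq_fintype_card, Nat.card_eq_fintype_card] at h5 ⊢
  have hle : LinearMap.range (H206.cb σ) ≤ LinearMap.ker (H206.bd G) := by
    rintro _ ⟨s, rfl⟩
    exact H206.bd_cb hσ.fst s
  have h7 := Submodule.finrank_mono hle
  omega

/-- (MERGE) -/
def MergeStmt : Prop := ∀ (V : Type) [Finite V] (G : SimpleGraph V) (σ : Equiv.Perm G.Dart),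
  (∀ d, (σ d).fst = d.fst) → (∀ d d' : G.Dart, d.fst = d'.fst → σ.SameCycle d d') →
  ∀ S : Set V, (G.induce S).Connected → Nonempty (G.induce S).Dart →
  (∀ (_ : Fintype G.Dart) (_ : DecidableEq V) (z : G.Dart → ZMod 2),
      (∀ d : G.Dart, z d.symm = z d) → (∀ d : G.Dart, z d ≠ 0 → d.fst ∈ S) →
      (∀ v, ∑ d : G.Dart, (if d.fst = v then z d else 0) = 0) →
      ∃ u : G.Dart → ZMod 2, (∀ d, u (faceNext σ d) = u d) ∧ ∀ d, z d = u d + u d.symm) →
  ∀ X : Set V, (G.induce X).Connected → Disjoint S X →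
    (∀ a ∈ S, ∀ b, G.Adj a b → b ∉ X → b ∈ S) →
    ∃ f : (G.induce S).Dart, ∀ (d : G.Dart) (hd : d.fst ∈ S),
      (∃ e, (faceNext σ).SameCycle d e ∧ e.fst ∈ X) →
      (⟨d.fst, hd⟩ : S) ∈ onFace (indRot σ S) f

/-- a single vertex -/
theorem distortion_single {V : Type} [Finite V] [Subsingleton V] {G : SimpleGraph V}
    (hc : G.Connected) (C : ℝ) : DistortionLE G C := by
  intro ℓ hℓ
  refine ⟨PUnit, ⊤, 0, fun _ => 0, fun x y => ?_⟩
  have h1 : pathDist G ℓ x y = 0 := by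
    rw [Subsingleton.elim y x]
    exact (pathDist_isMet hc hℓ).self x
  rw [h1]
  simp

/-- (PEEL): a plane map all of whose vertices are within `k` hops of one face is used up by `k + 1`
face rounds -/
theorem peel_hop (hM : MergeStmt) (C : ℝ) (k : ℕ) : ∀ (V : Type) [Finite V] (G : SimpleGraph V)
    (_ : G.Connected) (σ : Equiv.Perm G.Dart) (_ : PlaneMap G σ) (a : G.Dart)
    (_ : ∀ v, v ∈ hop σ a k), PlanarPeel C (k + 1) G := by
  classical
  induction k with
  | zero =>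
    intro V _ G hc σ hσ a h
    exact PlanarPeel.face σ a hσ fun u hu => absurd (h u) hu
  | succ k ih =>
    intro V _ G hc σ hσ a h
    refine PlanarPeel.face σ a hσ fun u hu => ?_
    have hK := comp_connected (G := G) hu
    by_cases hne : Nonempty (G.induce (compSet G (onFace σ a) u)).Dart
    swap
    · have : Subsingleton (compSet G (onFace σ a) u) := by
        refine ⟨fun x y => ?_⟩
        by_contra hxy
        obtain ⟨p⟩ := hK.preconnected x y
        cases p with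
        | nil => exact hxy rfl
        | cons h1 _ => exact hne ⟨⟨(_, _), h1⟩⟩
      exact PlanarPeel.leaf (distortion_single hK C)
    have hz : ∀ (_ : Fintype G.Dart) (_ : DecidableEq V) (z : G.Dart → ZMod 2),
      (∀ d : G.Dart, z d.symm = z d) →
      (∀ d : G.Dart, z d ≠ 0 → d.fst ∈ compSet G (onFace σ a) u) →
      (∀ v, ∑ d : G.Dart, (if d.fst = v then z d else 0) = 0) →
      ∃ u : G.Dart → ZMod 2, (∀ d, u (faceNext σ d) = u d) ∧ ∀ d, z d = u d + u d.symm :=
      fun i1 i2 z h1 _ h2 => cycStmt V G σ hc hσ i1 i2 z h1 h2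
    have hcl : ∀ x ∈ compSet G (onFace σ a) u, ∀ b, G.Adj x b → b ∉ onFace σ a →
        b ∈ compSet G (onFace σ a) u := fun x hx b hb hb' => comp_closed hx hb hb'
    obtain ⟨f, hf⟩ := hM V G σ hσ.fst hσ.cyc _ hK hne hz _ (onFace_connected hσ.fst a)
      (Set.disjoint_left.2 fun x hx => ReachOff.right hx) hcl
    have hpl : PlaneMap (G.induce (compSet G (onFace σ a) u)) (indRot σ _) := by
      refine SurfMap.plane hK ⟨indRot_fst hσ.fst, fun a b hab => ?_, ?_⟩
      · exact retPerm_sameCycle σ upDart_injective (hσ.cyc _ _ (congrArg Subtype.val hab))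
      · rw [add_zero]
        exact induced_euler hK hne hz
    exact ih _ _ hK _ hpl f fun v => hop_ind' hσ.fst hcl hf k v.1 v.2 (h v.1)

end Vale.Agent.P235
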