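import Mathlib.GroupTheory.Perm.Cycle.Basic
import Mathlib.GroupTheory.OrderOfElement

/-!
# The first return permutation
-/

set_option linter.unusedSectionVars false

namespace Vale.Agent.P235

section ret

variable {α β : Type} [Finite α] [Finite β] (σ : Equiv.Perm α) (ι : β → α)

theorem exists_ret (b : β) : ∃ k, 0 < k ∧ (σ ^ k) (ι b) ∈ Set.range ι :=
  ⟨orderOf σ, orderOf_pos σ, by rw [pow_orderOf_eq_one]; exact ⟨b, rfl⟩⟩

open Classical in
/-- the first return time -/
noncomputable def retTime (b : β) : ℕ := Nat.find (exists_ret σ ι b)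

theorem retTime_pos (b : β) : 0 < retTime σ ι b := by
  classical
  exact (Nat.find_spec (exists_ret σ ι b)).1

theorem retTime_mem (b : β) : (σ ^ retTime σ ι b) (ι b) ∈ Set.range ι := by
  classical
  exact (Nat.find_spec (exists_ret σ ι b)).2

theorem retTime_min (b : β) {k : ℕ} (h0 : 0 < k) (hk : (σ ^ k) (ι b) ∈ Set.range ι) :
    retTime σ ι b ≤ k := by
  classical
  exact Nat.find_min' (exists_ret σ ι b) ⟨h0, hk⟩

/-- the first return -/
noncomputable def retFun (b : β) : β := Classical.choose (retTime_mem σ ι b)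

theorem retFun_spec (b : β) : ι (retFun σ ι b) = (σ ^ retTime σ ι b) (ι b) :=
  Classical.choose_spec (retTime_mem σ ι b)

theorem retFun_injective {ι : β → α} (hι : Function.Injective ι) :
    Function.Injective (retFun σ ι) := by
  have key : ∀ a b : β, retTime σ ι a ≤ retTime σ ι b → retFun σ ι a = retFun σ ι b → a = b := by
    intro a b hle hab
    have h1 : (σ ^ retTime σ ι a) (ι a) = (σ ^ retTime σ ι b) (ι b) := by
      rw [← retFun_spec, ← retFun_spec, hab]
    obtain ⟨m, hm⟩ := Nat.exists_eq_add_of_le hle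
    rw [hm, pow_add, Equiv.Perm.mul_apply] at h1
    have h2 := (σ ^ retTime σ ι a).injective h1
    rcases Nat.eq_zero_or_pos m with h0 | h0
    · rw [h0, pow_zero] at h2
      exact hι h2
    · have h3 := retTime_min σ ι b h0 ⟨a, h2⟩
      have h4 := retTime_pos σ ι a
      omega
  intro a b hab
  rcases le_total (retTime σ ι a) (retTime σ ι b) with h | h
  · exact key a b h hab
  · exact (key b a h hab.symm).symm

/-- the first return permutation -/
noncomputable def retPerm {ι : β → α} (hι : Function.Injective ι) : Equiv.Perm β :=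
  Equiv.ofBijective (retFun σ ι) (Finite.injective_iff_bijective.1 (retFun_injective σ hι))

theorem retPerm_apply {ι : β → α} (hι : Function.Injective ι) (b : β) :
    ι (retPerm σ hι b) = (σ ^ retTime σ ι b) (ι b) := retFun_spec σ ι b

theorem retPerm_sameCycle {ι : β → α} (hι : Function.Injective ι) {a b : β}
    (h : σ.SameCycle (ι a) (ι b)) : (retPerm σ hι).SameCycle a b := by
  obtain ⟨n, hn⟩ : ∃ n : ℕ, (σ ^ n) (ι a) = ι b := by
    obtain ⟨n, _, hn⟩ := h.exists_pow_eq'
    exact ⟨n, hn⟩
  induction n using Nat.strong_induction_on generalizing a with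
  | _ n ih =>
    rcases Nat.eq_zero_or_pos n with h0 | h0
    · rw [h0, pow_zero] at hn
      rw [hι hn]
    · have h1 := retTime_min σ ι a h0 ⟨b, hn.symm⟩
      obtain ⟨m, hm⟩ := Nat.exists_eq_add_of_le h1
      have h2 := retTime_pos σ ι a
      have h3 : (σ ^ m) (ι (retPerm σ hι a)) = ι b := by
        rw [retPerm_apply σ hι, ← Equiv.Perm.mul_apply, ← pow_add, ← hn, hm, add_comm]
      have h4 := ih m (by omega) ⟨m, by rw [zpow_natCast]; exact h3⟩ h3
      exact Equiv.Perm.sameCycle_apply_left.1 h4

end ret

end Vale.Agent.P235
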