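import Vale.Agent.P235.H105.PlaneCycle
import Vale.Agent.P235.H105.Ret
import Vale.Agent.P235.H206.SurfDefs

/-!
# Components off a separating set of a surface map are planar
-/

set_option linter.unusedSectionVars false

namespace Vale.Agent.P235

open Finset SimpleGraph Module

section dims

variable {V : Type} {G : SimpleGraph V}

theorem le_finrank_symSub [Finite V] : Nat.card G.edgeSet ≤ finrank (ZMod 2) (symSub G) := by
  classical
  have := Fintype.ofFinite V
  let L : (G.edgeSet → ZMod 2) →ₗ[ZMod 2] symSub G :=
    { toFun := fun f => ⟨fun d => f ⟨d.edge, d.edge_mem⟩, fun d => by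
        have h : (⟨d.symm.edge, d.symm.edge_mem⟩ : G.edgeSet) = ⟨d.edge, d.edge_mem⟩ :=
          Subtype.ext (Dart.edge_symm d)
        show f _ = f _
        rw [h]⟩
      map_add' := fun _ _ => rfl
      map_smul' := fun _ _ => rfl }
  have hL : Function.Injective L := by
    rw [← LinearMap.ker_eq_bot, LinearMap.ker_eq_bot']
    intro f hf
    ext e
    obtain ⟨d, hd⟩ := exists_dart e
    have h1 : f ⟨d.edge, d.edge_mem⟩ = 0 := congrFun (congrArg Subtype.val hf) d
    have h2 : (⟨d.edge, d.edge_mem⟩ : G.edgeSet) = e := Subtype.ext hd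
    rwa [h2] at h1
  have h := LinearMap.finrank_le_finrank_of_injective hL
  rwa [finrank_fintype_fun_eq_card, ← Nat.card_eq_fintype_card] at h

variable [Fintype V] [DecidableEq V] [Fintype G.Dart]

theorem range_bdV_lt [Nonempty V] [DecidableEq G.Dart] :
    finrank (ZMod 2) (LinearMap.range (bdV G)) + 1 ≤ Fintype.card V := by
  let s : (V → ZMod 2) →ₗ[ZMod 2] ZMod 2 :=
    { toFun := fun f => ∑ v, f v
      map_add' := fun _ _ => Finset.sum_add_distrib
      map_smul' := fun c f => (Finset.mul_sum _ _ _).symm }
  have h1 : LinearMap.range (bdV G) ≤ LinearMap.ker s := by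
    rintro _ ⟨z, rfl⟩
    rw [LinearMap.mem_ker]
    show ∑ v, ∑ d : G.Dart with d.fst = v, z.1 d = 0
    rw [Finset.sum_fiberwise]
    refine Finset.sum_involution (fun d _ => d.symm) ?_ ?_ ?_ ?_
    · intro d _
      rw [z.2 d, CharTwo.add_self_eq_zero]
    · intro d _ _ h
      exact d.symm_ne h
    · intro d _
      exact Finset.mem_univ _
    · intro d _
      exact d.symm_symm
  have h2 : LinearMap.ker s ≠ ⊤ := by
    intro h
    obtain ⟨v0⟩ := ‹Nonempty V›
    have h3 : (Pi.single v0 1 : V → ZMod 2) ∈ LinearMap.ker s := by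
      rw [h]
      exact Submodule.mem_top
    rw [LinearMap.mem_ker] at h3
    have h4 : ∑ v, (Pi.single v0 1 : V → ZMod 2) v = 0 := h3
    rw [Finset.sum_pi_single'] at h4
    simp at h4
  have h3 := Submodule.finrank_mono h1
  have h4 := Submodule.finrank_lt h2
  rw [finrank_fintype_fun_eq_card] at h4
  omega

end dims

/-- the dart of `G` under a dart of an induced subgraph -/
def upDart {V : Type} {G : SimpleGraph V} {S : Set V} (a : (G.induce S).Dart) : G.Dart :=
  ⟨(a.fst.1, a.snd.1), a.adj⟩

section up

variable {V : Type} {G : SimpleGraph V} {S : Set V}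

theorem upDart_fst (a : (G.induce S).Dart) : (upDart a).fst = a.fst.1 := rfl

theorem upDart_snd (a : (G.induce S).Dart) : (upDart a).snd = a.snd.1 := rfl

theorem upDart_symm (a : (G.induce S).Dart) : upDart a.symm = (upDart a).symm := rfl

theorem upDart_injective : Function.Injective (upDart (G := G) (S := S)) := by
  intro a b h
  have h1 : a.fst.1 = b.fst.1 := congrArg (fun d : G.Dart => d.fst) h
  have h2 : a.snd.1 = b.snd.1 := congrArg (fun d : G.Dart => d.snd) h
  exact Dart.ext _ _ (Prod.ext (Subtype.ext h1) (Subtype.ext h2))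

theorem mem_range_upDart (d : G.Dart) :
    d ∈ Set.range (upDart (G := G) (S := S)) ↔ d.fst ∈ S ∧ d.snd ∈ S := by
  constructor
  · rintro ⟨a, rfl⟩
    exact ⟨a.fst.2, a.snd.2⟩
  · rintro ⟨h1, h2⟩
    exact ⟨⟨(⟨d.fst, h1⟩, ⟨d.snd, h2⟩), d.adj⟩, rfl⟩

end up

section first

variable {V : Type} [Finite V] {G : SimpleGraph V}

theorem finite_dart : Finite G.Dart := by
  classical
  have := Fintype.ofFinite V
  infer_instance

attribute [local instance] finite_dart

theorem pow_fst {σ : Equiv.Perm G.Dart} (fst : ∀ d, (σ d).fst = d.fst) (n : ℕ) (d : G.Dart) :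
    ((σ ^ n) d).fst = d.fst := by
  induction n with
  | zero => rfl
  | succ n ih => rw [pow_succ', Equiv.Perm.mul_apply, fst, ih]

variable {S : Set V}

/-- the rotation system induced on a vertex set -/
noncomputable def indRot (σ : Equiv.Perm G.Dart) (S : Set V) : Equiv.Perm (G.induce S).Dart :=
  retPerm σ (upDart_injective (G := G) (S := S))

theorem upDart_indRot (σ : Equiv.Perm G.Dart) (a : (G.induce S).Dart) :
    upDart (indRot σ S a) = (σ ^ retTime σ (upDart (G := G) (S := S)) a) (upDart a) :=
  retPerm_apply σ upDart_injective a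

theorem indRot_const {σ : Equiv.Perm G.Dart} {K : Type} {u : G.Dart → K}
    (hu : ∀ d, u (faceNext σ d) = u d)
    (hout : ∀ d : G.Dart, d ∉ Set.range (upDart (G := G) (S := S)) → u d.symm = u d)
    (a : (G.induce S).Dart) : u (upDart (indRot σ S a)) = u (upDart a).symm := by
  have h1 : ∀ d : G.Dart, u (σ d) = u d.symm := fun d => by
    have h := hu d.symm
    rwa [faceNext_apply, Dart.symm_symm] at h
  have key : ∀ j : ℕ, j < retTime σ (upDart (G := G) (S := S)) a →
      u ((σ ^ (j + 1)) (upDart a)) = u (upDart a).symm := by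
    intro j
    induction j with
    | zero =>
      intro _
      rw [zero_add, pow_one, h1]
    | succ j ih =>
      intro hj
      rw [pow_succ', Equiv.Perm.mul_apply, h1, hout, ih (by omega)]
      intro hr
      have := retTime_min σ (upDart (G := G) (S := S)) a (Nat.succ_pos j) hr
      omega
  have h2 := retTime_pos σ (upDart (G := G) (S := S)) a
  obtain ⟨m, hm⟩ := Nat.exists_eq_succ_of_ne_zero h2.ne'
  have h3 := key m (by omega)
  rw [upDart_indRot, hm]
  exact h3

end first

/-- **Euler's formula from homology**: if every cycle modulo two of a connected graph is a sum of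
face boundaries of a rotation system then `V - E + F ≥ 2`. -/
theorem euler_of_cycles {V : Type} [Fintype V] [DecidableEq V] {G : SimpleGraph V}
    [Fintype G.Dart] [DecidableEq G.Dart] [Nonempty V] (hne : Nonempty G.Dart)
    {σ : Equiv.Perm G.Dart} (h : ∀ z : G.Dart → ZMod 2, (∀ d : G.Dart, z d.symm = z d) →
      (∀ v, ∑ d with d.fst = v, z d = 0) →
      ∃ u : G.Dart → ZMod 2, (∀ d, u (faceNext σ d) = u d) ∧ ∀ d, z d = u d + u d.symm) :
    Nat.card G.edgeSet + 2 ≤
      Nat.card V + Nat.card (Quotient (Equiv.Perm.SameCycle.setoid (faceNext σ))) := by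
  classical
  set F := Quotient (Equiv.Perm.SameCycle.setoid (faceNext σ)) with hFdef
  have : Fintype F := Fintype.ofFinite F
  let D : (F → ZMod 2) →ₗ[ZMod 2] symSub G :=
    { toFun := fun u => ⟨fun d => u (Quotient.mk _ d) + u (Quotient.mk _ d.symm), fun d => by
        show u (Quotient.mk _ d.symm) + u (Quotient.mk _ d.symm.symm) = _
        rw [Dart.symm_symm, add_comm]⟩
      map_add' := fun u v => by
        ext d
        show (u _ + v _) + (u _ + v _) = (u _ + u _) + (v _ + v _)
        ring
      map_smul' := fun c u => by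
        ext d
        show c * u _ + c * u _ = c * (u _ + u _)
        ring }
  have h1 : LinearMap.ker (bdV G) ≤ LinearMap.range D := by
    intro z hz
    rw [LinearMap.mem_ker] at hz
    obtain ⟨u, hu, hzu⟩ := h z.1 z.2 fun v => congrFun hz v
    have hs : ∀ (n : ℤ) (d : G.Dart), u ((faceNext σ ^ n) d) = u d := by
      intro n
      induction n using Int.induction_on with
      | zero => intro d; rfl
      | succ n ih =>
        intro d
        rw [zpow_add_one, Equiv.Perm.mul_apply, ih, hu]
      | pred n ih =>
        intro d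
        have h3 := hu ((faceNext σ)⁻¹ d)
        rw [show faceNext σ ((faceNext σ)⁻¹ d) = d from Equiv.apply_symm_apply _ _] at h3
        rw [zpow_sub_one, Equiv.Perm.mul_apply, ih, ← h3]
    refine ⟨fun f => Quotient.lift u (fun a b hab => ?_) f, ?_⟩
    · obtain ⟨n, hn⟩ := hab
      rw [← hn, hs]
    · ext d
      exact (hzu d).symm
  have h2 : 1 ≤ finrank (ZMod 2) (LinearMap.ker D) := by
    rw [Submodule.one_le_finrank_iff]
    intro hb
    have h3 : (fun _ => 1 : F → ZMod 2) ∈ LinearMap.ker D := by
      rw [LinearMap.mem_ker]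
      ext d
      show (1 : ZMod 2) + 1 = 0
      exact CharTwo.add_self_eq_zero _
    rw [hb, Submodule.mem_bot] at h3
    obtain ⟨d⟩ := hne
    have h4 := congrFun h3 (Quotient.mk _ d)
    exact one_ne_zero h4
  have r1 := LinearMap.finrank_range_add_finrank_ker (bdV G)
  have r2 := le_finrank_symSub (G := G)
  have r3 := range_bdV_lt (G := G)
  have r4 := LinearMap.finrank_range_add_finrank_ker D
  have r5 := Submodule.finrank_mono h1
  rw [finrank_fintype_fun_eq_card] at r4
  rw [Nat.card_eq_fintype_card (α := V), Nat.card_eq_fintype_card (α := F)]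
  omega

section main

variable {V : Type} {G : SimpleGraph V} {S : Set V}

attribute [local instance] finite_dart

open Classical in
/-- extension by zero -/
noncomputable def extDart (z : (G.induce S).Dart → ZMod 2) (d : G.Dart) : ZMod 2 :=
  if h : d.fst ∈ S ∧ d.snd ∈ S then z ⟨(⟨d.fst, h.1⟩, ⟨d.snd, h.2⟩), d.adj⟩ else 0

theorem extDart_up (z : (G.induce S).Dart → ZMod 2) (a : (G.induce S).Dart) :
    extDart z (upDart a) = z a := dif_pos ⟨a.fst.2, a.snd.2⟩

theorem extDart_out (z : (G.induce S).Dart → ZMod 2) {d : G.Dart}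
    (h : d ∉ Set.range (upDart (G := G) (S := S))) : extDart z d = 0 := by
  rw [mem_range_upDart] at h
  exact dif_neg h

/-- If the cycles modulo two of `G` supported in the vertex set `S` are sums of face boundaries of
a rotation system of `G`, then the induced rotation system of `G[S]` is plane. -/
theorem induced_euler [Finite V] {σ : Equiv.Perm G.Dart}
    (hS : (G.induce S).Connected) (hne : Nonempty (G.induce S).Dart)
    (hz : ∀ (_ : Fintype G.Dart) (_ : DecidableEq V) (z : G.Dart → ZMod 2),
      (∀ d : G.Dart, z d.symm = z d) → (∀ d : G.Dart, z d ≠ 0 → d.fst ∈ S) →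
      (∀ v, ∑ d : G.Dart, (if d.fst = v then z d else 0) = 0) →
      ∃ u : G.Dart → ZMod 2, (∀ d, u (faceNext σ d) = u d) ∧ ∀ d, z d = u d + u d.symm) :
    Nat.card (G.induce S).edgeSet + 2 ≤
      Nat.card S + Nat.card (Quotient (Equiv.Perm.SameCycle.setoid (faceNext (indRot σ S)))) := by
  classical
  have := Fintype.ofFinite V
  have := Fintype.ofFinite G.Dart
  have := Fintype.ofFinite (G.induce S).Dart
  have hV : Nonempty S := hS.nonempty
  refine euler_of_cycles hne fun z' hz' hv' => ?_
  have h1 : ∀ v, ∑ d : G.Dart, (if d.fst = v then extDart z' d else 0) = 0 := by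
    intro v
    have h2 : ∑ a : (G.induce S).Dart, (if a.fst.1 = v then z' a else 0) =
        ∑ d : G.Dart, (if d.fst = v then extDart z' d else 0) := by
      refine Finset.sum_of_injOn upDart upDart_injective.injOn
        (fun _ _ => Finset.mem_coe.2 (Finset.mem_univ _)) ?_ ?_
      · intro d _ hd
        rw [Finset.coe_univ, Set.image_univ] at hd
        rw [extDart_out z' hd, ite_self]
      · intro a _
        rw [extDart_up, upDart_fst]
    rw [← h2]
    by_cases hv : v ∈ S
    · refine Eq.trans ?_ (hv' ⟨v, hv⟩)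
      rw [Finset.sum_filter]
      refine Finset.sum_congr rfl fun a _ => ?_
      have h3 : (a.fst.1 = v) = (a.fst = ⟨v, hv⟩) :=
        propext ⟨fun h => Subtype.ext h, fun h => congrArg Subtype.val h⟩
      simp only [h3]
    · refine Finset.sum_eq_zero fun a _ => if_neg ?_
      rintro rfl
      exact hv a.fst.2
  obtain ⟨u, hu, hzu⟩ := hz inferInstance inferInstance (extDart z') (fun d => by
      by_cases h : d ∈ Set.range (upDart (G := G) (S := S))
      · obtain ⟨a, rfl⟩ := h
        rw [← upDart_symm, extDart_up, extDart_up, hz']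
      · have h2 : d.symm ∉ Set.range (upDart (G := G) (S := S)) := by
          rw [mem_range_upDart] at h ⊢
          exact fun h3 => h ⟨h3.2, h3.1⟩
        rw [extDart_out _ h, extDart_out _ h2]) (fun d hd => by
      by_contra h
      refine hd (extDart_out _ ?_)
      rw [mem_range_upDart]
      exact fun h3 => h h3.1) h1
  refine ⟨fun a => u (upDart a), fun a => ?_, fun a => ?_⟩
  · show u (upDart (indRot σ S a.symm)) = _
    rw [indRot_const hu (fun d hd => ?_), upDart_symm, Dart.symm_symm]
    have h2 := hzu d
    rw [extDart_out _ hd] at h2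
    exact (CharTwo.add_eq_zero.1 h2.symm).symm
  · show z' a = u (upDart a) + u (upDart a).symm
    rw [← hzu, extDart_up]

theorem indRot_fst [Finite V] {σ : Equiv.Perm G.Dart} (fst : ∀ d, (σ d).fst = d.fst)
    (a : (G.induce S).Dart) : (indRot σ S a).fst = a.fst := by
  refine Subtype.ext ?_
  rw [← upDart_fst, upDart_indRot, pow_fst fst, upDart_fst]

/-- If the cycles modulo two of `G` supported in the vertex set `S` are sums of face boundaries of
a rotation system of `G`, then `G[S]` has a plane rotation system. -/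
theorem induced_surf [Finite V] {σ : Equiv.Perm G.Dart}
    (fst : ∀ d, (σ d).fst = d.fst) (cyc : ∀ d d' : G.Dart, d.fst = d'.fst → σ.SameCycle d d')
    (hS : (G.induce S).Connected) (hne : Nonempty (G.induce S).Dart)
    (hz : ∀ (_ : Fintype G.Dart) (_ : DecidableEq V) (z : G.Dart → ZMod 2),
      (∀ d : G.Dart, z d.symm = z d) → (∀ d : G.Dart, z d ≠ 0 → d.fst ∈ S) →
      (∀ v, ∑ d : G.Dart, (if d.fst = v then z d else 0) = 0) →
      ∃ u : G.Dart → ZMod 2, (∀ d, u (faceNext σ d) = u d) ∧ ∀ d, z d = u d + u d.symm) :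
    ∃ σ' : Equiv.Perm (G.induce S).Dart, SurfMap 0 (G.induce S) σ' := by
  refine ⟨indRot σ S, indRot_fst fst, fun a b hab => ?_, ?_⟩
  · exact retPerm_sameCycle σ upDart_injective (cyc _ _ (congrArg Subtype.val hab))
  · rw [add_zero]
    exact induced_euler hS hne hz

end main

end Vale.Agent.P235
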