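import Vale.Agent.P235.H873.Apex

/-!
Bourgain's argument for a finite family of lanes: a finite family of functions `D i`, each of them
`1`-Lipschitz, in place of the distances to the points of a set.
-/

set_option linter.all false
set_option autoImplicit false

open Finset

namespace Vale.Agent.P235.H105

open Vale.Agent.P235 Vale.Agent.P235.H873

section Lanes

variable {V I : Type}

/-- the distance to the nearest lane of `S` -/
noncomputable def dL (D : I → V → ℝ) (S : Finset I) (u : V) : ℝ := by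
  classical
  exact if h : S.Nonempty then S.inf' h (fun s => D s u) else 0

theorem dL_lip {d : V → V → ℝ} (hsym : ∀ x y, d x y = d y x) (hnn : ∀ x y, 0 ≤ d x y)
    {D : I → V → ℝ} (hDl : ∀ i x y, |D i x - D i y| ≤ d x y) (S : Finset I) (u v : V) :
    |dL D S u - dL D S v| ≤ d u v := by
  classical
  have key : ∀ u v, dL D S u ≤ d u v + dL D S v := by
    intro u v
    unfold dL
    by_cases h : S.Nonempty
    · rw [dif_pos h, dif_pos h]
      obtain ⟨s, hs, hs'⟩ := Finset.exists_mem_eq_inf' h (fun s => D s v)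
      rw [hs']
      have h1 := le_of_abs_le (hDl s u v)
      exact (Finset.inf'_le _ hs).trans (by linarith)
    · rw [dif_neg h, dif_neg h]
      linarith [hnn u v]
  rw [abs_le]
  constructor
  · have := key v u
    rw [hsym v u] at this
    linarith
  · have := key u v
    linarith

theorem dL_le {D : I → V → ℝ} {S : Finset I} {s : I} (hs : s ∈ S) (u : V) : dL D S u ≤ D s u := by
  classical
  unfold dL
  rw [dif_pos ⟨s, hs⟩]
  exact Finset.inf'_le _ hs

theorem lt_dL {D : I → V → ℝ} {S : Finset I} (h : S.Nonempty) {u : V} {t : ℝ}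
    (ht : ∀ s ∈ S, t < D s u) : t < dL D S u := by
  classical
  unfold dL
  rw [dif_pos h, Finset.lt_inf'_iff]
  exact ht

/-- the main inequality -/
theorem lanes_sum [Fintype I] (D : I → V → ℝ) (x y : V) (R E : ℝ) (hx : ∃ i, D i x ≤ E)
    (hy : ∃ i, D i y ≤ E) (hR : ∀ i, R ≤ max (D i x) (D i y)) :
    R - E ≤ 12 * ∑ i ∈ Finset.Icc 1 (Nat.log 2 (Finset.univ : Finset I).card + 1) ×ˢ
      (Finset.univ : Finset I).powerset,
      wt (Finset.univ : Finset I) i.2 (1 / 2 ^ i.1) * |dL D i.2 x - dL D i.2 y| := by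
  classical
  obtain ⟨X, hX⟩ : ∃ X : Finset I, X = Finset.univ := ⟨_, rfl⟩
  rw [← hX]
  have hmX : ∀ s, s ∈ X := fun s => by rw [hX]; exact Finset.mem_univ s
  obtain ⟨m, hm⟩ : ∃ m, m = Nat.log 2 X.card + 1 := ⟨_, rfl⟩
  obtain ⟨p, hp⟩ : ∃ p : ℕ → ℝ, p = fun j => 1 / 2 ^ j := ⟨_, rfl⟩
  have hp0 : ∀ j, 0 ≤ p j := fun j => by rw [hp]; positivity
  have hp1 : ∀ j, p j ≤ 1 := fun j => by
    rw [hp]
    show (1 : ℝ) / 2 ^ j ≤ 1
    rw [div_le_one (by positivity)]
    exact one_le_pow₀ (by norm_num)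
  have hw : ∀ i : ℕ × Finset I, 0 ≤ wt X i.2 (p i.1) := fun i => wt_nonneg X _ (hp0 _) (hp1 _)
  have goal : R - E ≤ 12 * ∑ i ∈ Finset.Icc 1 m ×ˢ X.powerset,
      wt X i.2 (p i.1) * |dL D i.2 x - dL D i.2 y| := by
    by_cases hlt : E < R
    swap
    · push Not at hlt
      have : 0 ≤ ∑ i ∈ Finset.Icc 1 m ×ˢ X.powerset,
        wt X i.2 (p i.1) * |dL D i.2 x - dL D i.2 y| :=
        Finset.sum_nonneg fun i _ => mul_nonneg (hw i) (abs_nonneg _)
      linarith
    have key := sep_sum (Finset.Icc 1 m ×ˢ X.powerset) (fun i : ℕ × Finset I => wt X i.2 (p i.1))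
      (fun i => dL D i.2 x) (fun i => dL D i.2 y) (fun i _ => hw i) (c := 1 / 12)
      (r := E) (τ := R) hlt.le ?_
    · linarith
    intro t ht1 ht2
    -- closed balls
    obtain ⟨A, hA⟩ : ∃ A : V → Finset I, A = fun u => X.filter fun s => D s u ≤ t := ⟨_, rfl⟩
    have hAX : ∀ u, A u ⊆ X := fun u => by rw [hA]; exact Finset.filter_subset _ _
    have hmemA : ∀ u s, s ∈ A u ↔ s ∈ X ∧ D s u ≤ t := fun u s => by rw [hA]; simp
    have hAne : ∀ u, (∃ i, D i u ≤ E) → 1 ≤ (A u).card := by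
      intro u hu
      obtain ⟨s, hs'⟩ := hu
      exact Finset.card_pos.2 ⟨s, (hmemA u s).2 ⟨hmX s, hs'.trans ht1⟩⟩
    -- the main step for an ordered pair
    have main : ∀ u v, (∀ i, R ≤ max (D i u) (D i v)) → 1 ≤ (A u).card →
        (A u).card ≤ (A v).card →
        ∃ j ∈ Finset.Icc 1 m, 1 / 12 ≤ ∑ S ∈ X.powerset.filter
          (fun S => Disjoint S (A u) ∧ ¬ Disjoint S (A v)), wt X S (p j) := by
      intro u v huv h1 h2
      refine ⟨Nat.log 2 (A u).card + 1, ?_, ?_⟩
      · rw [Finset.mem_Icc, hm]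
        refine ⟨Nat.le_add_left _ _, Nat.add_le_add_right ?_ 1⟩
        exact Nat.log_mono_right (Finset.card_le_card (hAX u))
      · have hdisj : Disjoint (A u) (A v) := by
          rw [Finset.disjoint_left]
          intro s hs hs'
          have h3 := ((hmemA u s).1 hs).2
          have h4 := ((hmemA v s).1 hs').2
          have h5 := (huv s).trans (max_le h3 h4)
          linarith
        rw [prob_avoid_hit (hAX u) (hAX v) hdisj, hp]
        refine num_bound (Nat.le_add_left _ _) ?_ ?_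
        · exact Nat.lt_pow_succ_log_self (by norm_num) _
        · rw [Nat.add_sub_cancel]
          exact (Nat.pow_log_le_self 2 (by omega)).trans h2
    -- conclusion from the ordered pair
    have fin : ∀ u v, (∀ S : Finset I, min (dL D S u) (dL D S v) = min (dL D S x) (dL D S y) ∧
        max (dL D S u) (dL D S v) = max (dL D S x) (dL D S y)) →
        (∀ i, R ≤ max (D i u) (D i v)) →
        1 ≤ (A u).card → (A u).card ≤ (A v).card →
        1 / 12 ≤ ∑ i ∈ Finset.Icc 1 m ×ˢ X.powerset, wt X i.2 (p i.1) *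
          (if min (dL D i.2 x) (dL D i.2 y) ≤ t ∧ t < max (dL D i.2 x) (dL D i.2 y)
            then (1 : ℝ) else 0) := by
      intro u v hmm huv h1 h2
      obtain ⟨j, hj, hj'⟩ := main u v huv h1 h2
      refine hj'.trans ?_
      rw [Finset.sum_product]
      refine le_trans ?_ (Finset.single_le_sum (f := fun j => ∑ S ∈ X.powerset, wt X S (p j) *
          (if min (dL D S x) (dL D S y) ≤ t ∧ t < max (dL D S x) (dL D S y)
            then (1 : ℝ) else 0)) (fun i _ => Finset.sum_nonneg fun S _ =>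
              mul_nonneg (wt_nonneg X _ (hp0 _) (hp1 _)) (by split_ifs <;> norm_num)) hj)
      rw [Finset.sum_filter]
      refine Finset.sum_le_sum fun S hS => ?_
      split_ifs with h3 h4 h4
      · simp
      · exfalso
        apply h4
        obtain ⟨h5, h6⟩ := h3
        rw [Finset.not_disjoint_iff] at h6
        obtain ⟨s, hs, hs'⟩ := h6
        rw [← (hmm S).1, ← (hmm S).2]
        constructor
        · exact (min_le_right _ _).trans ((dL_le hs v).trans ((hmemA v s).1 hs').2)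
        · refine lt_of_lt_of_le (lt_dL ⟨s, hs⟩ fun s' hs'' => ?_) (le_max_left _ _)
          by_contra hcon
          push Not at hcon
          exact Finset.disjoint_left.1 h5 hs'' ((hmemA u s').2
            ⟨Finset.mem_powerset.1 hS hs'', hcon⟩)
      · rw [mul_one]; exact wt_nonneg X _ (hp0 _) (hp1 _)
      · simp
    rcases le_total (A x).card (A y).card with h | h
    · exact fin x y (fun S => ⟨rfl, rfl⟩) hR (hAne x hx) h
    · exact fin y x (fun S => ⟨min_comm _ _, max_comm _ _⟩)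
        (fun i => by rw [max_comm]; exact hR i) (hAne y hy) h
  rw [hm, hp] at goal
  exact goal

/-- Bourgain's functions for the lanes as a probability family of `1`-Lipschitz functions -/
theorem lanes_fam {V : Type} [Finite V] {d : V → V → ℝ} (hsym : ∀ x y, d x y = d y x)
    (hnn : ∀ x y, 0 ≤ d x y) {I : Type} [Fintype I] [Nonempty I] (D : I → V → ℝ)
    (hD0 : ∀ i x, 0 ≤ D i x) (hDl : ∀ i x y, |D i x - D i y| ≤ d x y) :
    ∃ (ι : Type) (_ : Fintype ι) (w : ι → ℝ) (g : ι → V → ℝ), (∀ i, 0 ≤ w i) ∧ ∑ i, w i = 1 ∧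
      (∀ i x y, |g i x - g i y| ≤ d x y) ∧
      ∀ x y R E, (∃ i, D i x ≤ E) → (∃ i, D i y ≤ E) → (∀ i, R ≤ max (D i x) (D i y)) →
        R - E ≤ 12 * ((Nat.log 2 (Fintype.card I) + 1 : ℕ) : ℝ) *
          ∑ i, w i * |g i x - g i y| := by
  classical
  obtain ⟨X, hX⟩ : ∃ X : Finset I, X = Finset.univ := ⟨_, rfl⟩
  obtain ⟨m, hm⟩ : ∃ m, m = Nat.log 2 (Fintype.card I) + 1 := ⟨_, rfl⟩
  have hmX : m = Nat.log 2 X.card + 1 := by rw [hm, hX, Finset.card_univ]
  have hm1 : (1 : ℝ) ≤ m := by rw [hm]; exact_mod_cast Nat.le_add_left 1 _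
  have hm0 : (0 : ℝ) < m := by linarith
  have hp0 : ∀ j : ℕ, (0 : ℝ) ≤ 1 / 2 ^ j := fun j => by positivity
  have hp1 : ∀ j : ℕ, (1 : ℝ) / 2 ^ j ≤ 1 := fun j => by
    rw [div_le_one (by positivity)]
    exact one_le_pow₀ (by norm_num)
  refine ⟨↥(Finset.Icc 1 m ×ˢ X.powerset), inferInstance,
    fun i => wt X i.1.2 (1 / 2 ^ i.1.1) / m, fun i => dL D i.1.2, fun i => ?_, ?_, fun i x y => ?_,
    fun x y R E hx hy hR => ?_⟩
  · exact div_nonneg (wt_nonneg X _ (hp0 _) (hp1 _)) hm0.le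
  · rw [Finset.sum_coe_sort (Finset.Icc 1 m ×ˢ X.powerset)
      (fun i : ℕ × Finset I => wt X i.2 (1 / 2 ^ i.1) / m), ← Finset.sum_div, Finset.sum_product]
    simp only [prob_total, Finset.sum_const, Nat.card_Icc, Nat.add_sub_cancel, nsmul_eq_mul, mul_one]
    exact div_self hm0.ne'
  · exact dL_lip hsym hnn hDl _ x y
  · have h := lanes_sum D x y R E hx hy hR
    rw [← hX, ← hmX] at h
    rw [← hm]
    rw [Finset.sum_coe_sort (Finset.Icc 1 m ×ˢ X.powerset)
      (fun i : ℕ × Finset I => wt X i.2 (1 / 2 ^ i.1) / m * |dL D i.2 x - dL D i.2 y|)]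
    have e : ∑ i ∈ Finset.Icc 1 m ×ˢ X.powerset,
        wt X i.2 (1 / 2 ^ i.1) / m * |dL D i.2 x - dL D i.2 y| =
        (∑ i ∈ Finset.Icc 1 m ×ˢ X.powerset,
          wt X i.2 (1 / 2 ^ i.1) * |dL D i.2 x - dL D i.2 y|) / m := by
      rw [Finset.sum_div]
      exact Finset.sum_congr rfl fun i _ => by ring
    rw [e, mul_assoc, mul_div_cancel₀ _ hm0.ne']
    exact h

end Lanes

end Vale.Agent.P235.H105
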