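import Vale.Agent.P235.H105.OnionDefs
import Vale.Agent.P235.H536.Round
import Vale.Agent.P235.H873.OS

/-!
# Rounds which remove shortest paths or crossless families: additive distortion
-/

namespace Vale.Agent.P235

open Finset

theorem onion_pointed {C : ℝ} (hC : 0 < C) {k : ℕ} {V : Type} {G : SimpleGraph V} {ℓ : Sym2 V → ℝ}
    (h : Onion C k G ℓ) : Finite V → G.Connected → (∀ e ∈ G.edgeSet, 0 < ℓ e) → ∀ H : V → ℝ,
      (∀ v, 0 < H v) → (∀ u v, G.Adj u v → |H u - H v| ≤ ℓ s(u, v)) →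
      Pointed G ℓ H (96 * C + 112 + 2 * k) := by
  induction h with
  | leaf hD =>
    intro _ hc hℓ H hH hHl
    have := pointed_leaf hC hc hℓ hH hHl hD
    simpa using this
  | @lift k V G ℓ _ ih =>
    intro hfin hc hℓ H hH hHl
    obtain ⟨σ, h1, h2, h3, h4, h5⟩ := ih hfin hc hℓ H hH hHl
    refine ⟨σ, h1, ?_, ?_, h4, h5⟩
    · intro u v huv
      refine (h2 u v huv).trans (mul_le_mul_of_nonneg_right ?_ (hℓ _ huv).le)
      push_cast
      linarith
    · intro v
      refine (h3 v).trans (mul_le_mul_of_nonneg_right ?_ (hH v).le)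
      push_cast
      linarith
  | @path k V G ℓ x y q hq _ ih =>
    intro hfin hc hℓ H hH hHl
    have := pointed_step hc hℓ hH hHl q hq (K := 96 * C + 112 + 2 * k) (by positivity)
      (fun u hu H' hH' hHl' => ih u hu inferInstance (comp_connected hu)
        (induce_pos hℓ _) H' hH' hHl')
    have e : (96 * C + 112 + 2 * (k : ℝ)) + 2 = 96 * C + 112 + 2 * ((k + 1 : ℕ) : ℝ) := by
      push_cast; ring
    rwa [e] at this
  | @face k V G ℓ n x hx _ ih =>
    intro hfin hc hℓ H hH hHl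
    obtain ⟨F, hF, hF1, hF2⟩ := os_map hc hℓ hx
    have := H536.pointed_step_set hc hℓ hH hHl (P := Set.range x) ⟨x 0, 0, rfl⟩ hF
      (fun u v huv => (hF1 u v).trans (pathDist_adj hℓ huv))
      (by rintro _ ⟨i, rfl⟩ _ ⟨j, rfl⟩; exact hF2 i j) (K := 96 * C + 112 + 2 * k) (by positivity)
      (fun u hu H' hH' hHl' => ih u hu inferInstance (comp_connected hu)
        (induce_pos hℓ _) H' hH' hHl')
    have e : (96 * C + 112 + 2 * (k : ℝ)) + 2 = 96 * C + 112 + 2 * ((k + 1 : ℕ) : ℝ) := by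
      push_cast; ring
    rwa [e] at this

/-- a pointed family with a large constant barrier gives an embedding -/
theorem embeds_of_pointed {K : ℝ} (hK : 0 < K) {V : Type} [Finite V] {G : SimpleGraph V}
    {ℓ : Sym2 V → ℝ} (hc : G.Connected) (hℓ : ∀ e ∈ G.edgeSet, 0 < ℓ e)
    (h : ∀ R : ℝ, 0 < R → Pointed G ℓ (fun _ => R) K) :
    EmbedsL1 (pathDist G ℓ) (16000 * K) := by
  have := Fintype.ofFinite V
  have hd := pathDist_isMet hc hℓ
  obtain ⟨R, hR0, hR⟩ : ∃ R : ℝ, 0 < R ∧ ∀ x y, pathDist G ℓ x y ≤ R := by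
    refine ⟨∑ x, ∑ y, pathDist G ℓ x y + 1, ?_, ?_⟩
    · have : 0 ≤ ∑ x, ∑ y, pathDist G ℓ x y :=
        Finset.sum_nonneg fun x _ => Finset.sum_nonneg fun y _ => hd.nonneg x y
      linarith
    intro x y
    have e1 : pathDist G ℓ x y ≤ ∑ y, pathDist G ℓ x y :=
      Finset.single_le_sum (f := fun y => pathDist G ℓ x y) (fun y _ => hd.nonneg x y)
        (Finset.mem_univ y)
    have e2 : ∑ y, pathDist G ℓ x y ≤ ∑ x, ∑ y, pathDist G ℓ x y :=
      Finset.single_le_sum (f := fun x => ∑ y, pathDist G ℓ x y)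
        (fun x _ => Finset.sum_nonneg fun y _ => hd.nonneg x y) (Finset.mem_univ x)
    linarith
  obtain ⟨σ, h1, h2, -, -, h5⟩ := h R hR0
  have hI := (h1.comap (some : V → Option V)).smul (by norm_num : (0 : ℝ) ≤ 16000)
  refine hI.embeds (fun x y => ?_) (fun x y => ?_)
  · have h6 := h5 x y (pathDist G ℓ x y / 8) (by linarith [hR x y, hd.nonneg x y])
      (by linarith [hR x y, hd.nonneg x y]) (by linarith)
    show pathDist G ℓ x y ≤ 16000 * σ (some x) (some y)
    linarith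
  · have h6 := pathDist_semi (G := G) (ℓ := ℓ) (ρ := fun x y => σ (some x) (some y)) hc hK
      (fun x => h1.self _) (fun x y z => h1.tri _ _ _) h2 x y
    show 16000 * σ (some x) (some y) ≤ _
    rw [mul_assoc]
    exact mul_le_mul_of_nonneg_left h6 (by norm_num)

theorem onion_embeds {C : ℝ} (hC : 0 < C) {k : ℕ} {V : Type} [Finite V] {G : SimpleGraph V}
    {ℓ : Sym2 V → ℝ} (hc : G.Connected) (hℓ : ∀ e ∈ G.edgeSet, 0 < ℓ e) (h : Onion C k G ℓ) :
    EmbedsL1 (pathDist G ℓ) (16000 * (96 * C + 112 + 2 * k)) :=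
  embeds_of_pointed (by positivity) hc hℓ fun R hR =>
    onion_pointed hC h inferInstance hc hℓ (fun _ => R) (fun _ => hR) fun u v huv => by
      rw [sub_self, abs_zero]; exact (hℓ _ huv).le

/-- **`k` rounds, each of which removes from every component a shortest path or a crossless family
of vertices, leave components with `c₁ ≤ C`: `c₁(G) ≤ 3328000 (k + C)`** -/
theorem onion_distortion (k : ℕ) {C : ℝ} (hC : 1 ≤ C) (V : Type) [Finite V] (G : SimpleGraph V)
    (hc : G.Connected) (h : ∀ ℓ : Sym2 V → ℝ, (∀ e ∈ G.edgeSet, 0 < ℓ e) → Onion C k G ℓ) :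
    DistortionLE G (3328000 * (k + C)) := by
  intro ℓ hℓ
  have hd := pathDist_isMet hc hℓ
  obtain ⟨Ω, m, μ, f, hf⟩ := onion_embeds (one_pos.trans_le hC) hc hℓ (h ℓ hℓ)
  refine ⟨Ω, m, μ, f, fun x y => ⟨(hf x y).1, (hf x y).2.trans
    (mul_le_mul_of_nonneg_right ?_ (hd.nonneg x y))⟩⟩
  have hk : (0 : ℝ) ≤ k := k.cast_nonneg
  linarith

theorem FacePeel.onion {C : ℝ} {k : ℕ} {V : Type} {G : SimpleGraph V} (h : FacePeel C k G) :
    ∀ ℓ : Sym2 V → ℝ, Onion C k G ℓ := by
  induction h with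
  | leaf hD => exact fun _ => Onion.leaf hD
  | lift _ ih => exact fun ℓ => Onion.lift (ih ℓ)
  | face x hx _ ih => exact fun ℓ => Onion.face x hx fun u hu => ih u hu _

/-- **`k` rounds of removing crossless families (outer-face vertices), leaves with `c₁ ≤ C`:
`c₁(G) ≤ 3328000 (k + C)`** -/
theorem facePeel_distortion (k : ℕ) {C : ℝ} (hC : 1 ≤ C) (V : Type) [Finite V]
    (G : SimpleGraph V) (hc : G.Connected) (h : FacePeel C k G) :
    DistortionLE G (3328000 * (k + C)) :=
  onion_distortion k hC V G hc fun ℓ _ => h.onion ℓ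

end Vale.Agent.P235
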