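import Vale.Agent.P235.H873.FaceDefs

namespace Vale.Agent.P235

/-- `Onion C k G ℓ`: at most `k` rounds leave components with `c₁ ≤ C`. One round removes from every
component either the vertices of a shortest path (`path`), or the vertices of a nonempty family `x`
which is `Crossless` in this component, for example the boundary of a face (`face`); different
components may use different kinds of rounds. `leaf`: `c₁ ≤ C`, no round. -/
inductive Onion (C : ℝ) : ℕ → ∀ {V : Type}, SimpleGraph V → (Sym2 V → ℝ) → Prop
  | leaf {V : Type} {G : SimpleGraph V} {ℓ : Sym2 V → ℝ} : DistortionLE G C → Onion C 0 G ℓ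
  | lift {k : ℕ} {V : Type} {G : SimpleGraph V} {ℓ : Sym2 V → ℝ} :
      Onion C k G ℓ → Onion C (k + 1) G ℓ
  | path {k : ℕ} {V : Type} {G : SimpleGraph V} {ℓ : Sym2 V → ℝ} {x y : V} (q : G.Walk x y) :
      (q.edges.map ℓ).sum = pathDist G ℓ x y →
      (∀ u ∉ q.support, Onion C k (G.induce (compSet G {v | v ∈ q.support} u))
        (fun e => ℓ (e.map Subtype.val))) → Onion C (k + 1) G ℓ
  | face {k : ℕ} {V : Type} {G : SimpleGraph V} {ℓ : Sym2 V → ℝ} {n : ℕ} (x : Fin (n + 1) → V) :
      Crossless G x →
      (∀ u ∉ Set.range x, Onion C k (G.induce (compSet G (Set.range x) u))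
        (fun e => ℓ (e.map Subtype.val))) → Onion C (k + 1) G ℓ

/-- `FacePeel C k G`: at most `k` rounds leave components with `c₁ ≤ C`; one round removes from
every component the vertices of a nonempty family `x` which is `Crossless` in this component, for
example the vertices on the boundary of the outer face. No edge lengths are involved. -/
inductive FacePeel (C : ℝ) : ℕ → ∀ {V : Type}, SimpleGraph V → Prop
  | leaf {V : Type} {G : SimpleGraph V} : DistortionLE G C → FacePeel C 0 G
  | lift {k : ℕ} {V : Type} {G : SimpleGraph V} : FacePeel C k G → FacePeel C (k + 1) G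
  | face {k : ℕ} {V : Type} {G : SimpleGraph V} {n : ℕ} (x : Fin (n + 1) → V) :
      Crossless G x →
      (∀ u ∉ Set.range x, FacePeel C k (G.induce (compSet G (Set.range x) u))) →
      FacePeel C (k + 1) G

end Vale.Agent.P235
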