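import Vale.Agent.P235.Comp.Final
import Vale.Agent.P235.H206.Defs

/-!
# Rounds of composition over an arbitrary class of graphs with bounded `c₁`
-/

namespace Vale.Agent.P235

theorem builtOver_bounded {P : ∀ (V : Type), SimpleGraph V → Prop} {C0 : ℝ}
    (hP : ∀ (V : Type) [Finite V] (G : SimpleGraph V), G.Connected → P V G → DistortionLE G C0)
    (w j : ℕ) :
    ∃ C : ℝ, ∀ (V : Type) [Finite V] (G : SimpleGraph V), G.Connected →
      BuiltOver P w j G → DistortionLE G C := by
  let c : ℕ → ℝ := fun j => Nat.rec (max 1 C0)
    (fun _ C => max (max (compK w C) (psK w C)) (1 + 2 * (96 * C + 112))) j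
  have hc0 : c 0 = max 1 C0 := rfl
  have hcs : ∀ j, c (j + 1) = max (max (compK w (c j)) (psK w (c j)))
      (1 + 2 * (96 * c j + 112)) := fun j => rfl
  have hc1 : ∀ j, 1 ≤ c j := by
    intro j
    induction j with
    | zero => exact le_max_left _ _
    | succ j ih =>
      exact ih.trans (by
        rw [hcs]
        exact (le_compK w ih).trans ((le_max_left _ _).trans (le_max_left _ _)))
  refine ⟨c j, fun V _ G hconn hG => ?_⟩
  revert hconn
  have key : ∀ {j : ℕ} {V : Type} {G : SimpleGraph V}, BuiltOver P w j G → Finite V →
      G.Connected → DistortionLE G (c j) := by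
    intro j V G hG
    induction hG with
    | base hG =>
      intro _ hconn
      exact (hP _ _ hconn hG).mono (le_max_right _ _)
    | @lift j V G hG ih =>
      intro hfin hconn
      exact (ih hfin hconn).mono ((le_compK w (hc1 j)).trans
        ((le_max_left _ _).trans (le_max_left _ _)))
    | @vertexSum j V G A B v hU hI hn hA hB ihA ihB =>
      intro hfin hconn
      have hcA := side_connected hconn hU hI hn
      have hcB : (G.induce B).Connected := side_connected hconn
        (by rw [Set.union_comm]; exact hU) (by rw [Set.inter_comm]; exact hI)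
        (fun a b ha hb h => hn b a hb ha h.symm)
      exact distortion_vertexSum (one_pos.trans_le (hc1 j)) hconn hU hI hn
        (ihA inferInstance hcA) (ihB inferInstance hcB)
    | @compose j V G X hX hw ht hk iht ihk =>
      intro hfin hconn
      exact (distortion_compose2 (hc1 j) hconn hX hw (iht inferInstance (torso_connected hconn hX))
        fun u hu => ihk u hu inferInstance (comp_connected hu)).mono
        ((le_max_left _ _).trans (le_max_left _ _))
    | @pathSum j n V G B hB hk ihk =>
      intro hfin hconn
      exact (distortion_pathSum (hc1 j) w V G hconn n B ⟨hB.cover, hB.edge, hB.conv⟩ hB.adh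
        fun i u hu => ihk i u hu inferInstance (comp_connected (by simpa using hu))).mono
        ((le_max_right _ _).trans (le_max_left _ _))
    | @path j V G Q hQ hk ihk =>
      intro hfin hconn
      refine (distortion_geodesic (one_pos.trans_le (hc1 j)) hconn fun ℓ hℓ => ?_).mono
        (le_max_right _ _)
      obtain ⟨x, y, q, hq, hQe⟩ := hQ ℓ hℓ
      refine ⟨x, y, q, hq, fun u hu => ?_⟩
      have hu' : u ∉ Q ℓ := by rw [hQe]; exact hu
      have h := ihk ℓ hℓ u hu' inferInstance (comp_connected hu')
      rw [hQe] at h
      exact h
  exact key hG inferInstance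

end Vale.Agent.P235
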