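import Vale.Agent.P235.Comp.Defs

namespace Vale.Agent.P235

/-- `Peel C k G ℓ`: starting from the graph `G` with edge lengths `ℓ`, at most `k` rounds, each of
which removes from every component a shortest path of that component, leave components with
`c₁ ≤ C`. `leaf`: a graph with `c₁ ≤ C` needs no round. `path`: `q` is a shortest path of `G`, and
every component of `G - q`, with the lengths of `G`, needs at most `k` further rounds. -/
inductive Peel (C : ℝ) : ℕ → ∀ {V : Type}, SimpleGraph V → (Sym2 V → ℝ) → Prop
  | leaf {V : Type} {G : SimpleGraph V} {ℓ : Sym2 V → ℝ} : DistortionLE G C → Peel C 0 G ℓ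
  | lift {k : ℕ} {V : Type} {G : SimpleGraph V} {ℓ : Sym2 V → ℝ} :
      Peel C k G ℓ → Peel C (k + 1) G ℓ
  | path {k : ℕ} {V : Type} {G : SimpleGraph V} {ℓ : Sym2 V → ℝ} {x y : V} (q : G.Walk x y) :
      (q.edges.map ℓ).sum = pathDist G ℓ x y →
      (∀ u ∉ q.support, Peel C k (G.induce (compSet G {v | v ∈ q.support} u))
        (fun e => ℓ (e.map Subtype.val))) → Peel C (k + 1) G ℓ

end Vale.Agent.P235
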