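import Vale.Agent.P235.Comp.PathSum
import Vale.Agent.P235.H105.PeelDefs

/-!
# Removal of shortest paths in `k` rounds: additive distortion
-/

namespace Vale.Agent.P235

open Finset

/-- a pointed `L₁` semimetric which is bounded by the edge lengths and by `H`, and separates the
pairs at distance at least `8 δ` on which `H ≥ δ` -/
def Pointed {V : Type} (G : SimpleGraph V) (ℓ : Sym2 V → ℝ) (H : V → ℝ) (K : ℝ) : Prop :=
  ∃ σ : Option V → Option V → ℝ, IsL1 σ ∧
    (∀ u v, G.Adj u v → σ (some u) (some v) ≤ K * ℓ s(u, v)) ∧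
    (∀ v, σ (some v) none ≤ K * H v) ∧ (∀ v, H v ≤ 2000 * σ (some v) none) ∧
    ∀ x y δ, δ ≤ H x → δ ≤ H y → 8 * δ ≤ pathDist G ℓ x y → δ ≤ 2000 * σ (some x) (some y)

section cone

variable {V : Type}

/-- the cone over a graph -/
def cone (G : SimpleGraph V) : SimpleGraph (Option V) where
  Adj a b := (∃ u v, a = some u ∧ b = some v ∧ G.Adj u v) ∨ (∃ u, a = some u ∧ b = none) ∨
    (∃ u, a = none ∧ b = some u)
  symm := ⟨by
    rintro a b (⟨u, v, rfl, rfl, h⟩ | ⟨u, rfl, rfl⟩ | ⟨u, rfl, rfl⟩)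
    · exact Or.inl ⟨v, u, rfl, rfl, h.symm⟩
    · exact Or.inr (Or.inr ⟨u, rfl, rfl⟩)
    · exact Or.inr (Or.inl ⟨u, rfl, rfl⟩)⟩
  loopless := ⟨by
    rintro a (⟨u, v, h1, h2, h⟩ | ⟨u, h1, h2⟩ | ⟨u, h1, h2⟩)
    · rw [h1] at h2
      exact h.ne (Option.some.inj h2)
    · rw [h1] at h2; exact absurd h2 (by simp)
    · rw [h1] at h2; exact absurd h2 (by simp)⟩

/-- lengths on the cone -/
noncomputable def coneLen (ℓ : Sym2 V → ℝ) (H : V → ℝ) : Sym2 (Option V) → ℝ :=
  Sym2.lift ⟨fun a b => a.elim (b.elim 0 H) (fun u => b.elim (H u) fun v => ℓ s(u, v)), by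
    intro a b
    cases a <;> cases b <;> simp [Sym2.eq_swap]⟩

@[simp] theorem coneLen_some (ℓ : Sym2 V → ℝ) (H : V → ℝ) (u v : V) :
    coneLen ℓ H s(some u, some v) = ℓ s(u, v) := rfl

@[simp] theorem coneLen_none (ℓ : Sym2 V → ℝ) (H : V → ℝ) (u : V) :
    coneLen ℓ H s(some u, none) = H u := rfl

@[simp] theorem coneLen_none' (ℓ : Sym2 V → ℝ) (H : V → ℝ) (u : V) :
    coneLen ℓ H s(none, some u) = H u := rfl

theorem cone_some {G : SimpleGraph V} {u v : V} : (cone G).Adj (some u) (some v) ↔ G.Adj u v := by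
  constructor
  · rintro (⟨a, b, h1, h2, h⟩ | ⟨a, h1, h2⟩ | ⟨a, h1, h2⟩)
    · rw [Option.some.inj h1, Option.some.inj h2]; exact h
    · exact absurd h2 (by simp)
    · exact absurd h1 (by simp)
  · exact fun h => Or.inl ⟨u, v, rfl, rfl, h⟩

theorem cone_none {G : SimpleGraph V} (u : V) : (cone G).Adj (some u) none :=
  Or.inr (Or.inl ⟨u, rfl, rfl⟩)

theorem cone_connected (G : SimpleGraph V) : (cone G).Connected := by
  rw [SimpleGraph.connected_iff]
  refine ⟨?_, ⟨none⟩⟩
  have key : ∀ a : Option V, (cone G).Reachable a none := by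
    intro a
    cases a with
    | none => exact SimpleGraph.Reachable.refl _
    | some u => exact (cone_none u).reachable
  intro a b
  exact (key a).trans (key b).symm

theorem coneLen_pos {G : SimpleGraph V} {ℓ : Sym2 V → ℝ} {H : V → ℝ}
    (hℓ : ∀ e ∈ G.edgeSet, 0 < ℓ e) (hH : ∀ v, 0 < H v) :
    ∀ e ∈ (cone G).edgeSet, 0 < coneLen ℓ H e := by
  intro e
  induction e using Sym2.ind with
  | _ a b =>
    intro he
    rw [SimpleGraph.mem_edgeSet] at he
    rcases he with ⟨u, v, rfl, rfl, h⟩ | ⟨u, rfl, rfl⟩ | ⟨u, rfl, rfl⟩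
    · rw [coneLen_some]; exact hℓ _ h
    · rw [coneLen_none]; exact hH u
    · rw [coneLen_none']; exact hH u

variable [Finite V] {G : SimpleGraph V} {ℓ : Sym2 V → ℝ} {H : V → ℝ}

omit [Finite V] in
theorem cone_lip {f : Option V → ℝ} (h1 : ∀ u v, G.Adj u v → |f (some u) - f (some v)| ≤ ℓ s(u, v))
    (h2 : ∀ u, |f (some u) - f none| ≤ H u) (a b : Option V) :
    |f a - f b| ≤ pathDist (cone G) (coneLen ℓ H) a b := by
  refine pathDist_gen (cone_connected G) ?_ a b
  rintro a b (⟨u, v, rfl, rfl, h⟩ | ⟨u, rfl, rfl⟩ | ⟨u, rfl, rfl⟩)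
  · rw [coneLen_some]; exact h1 u v h
  · rw [coneLen_none]; exact h2 u
  · rw [coneLen_none', abs_sub_comm]; exact h2 u

/-- leaves -/
theorem pointed_leaf {C : ℝ} (hC : 0 < C) (hc : G.Connected) (hℓ : ∀ e ∈ G.edgeSet, 0 < ℓ e)
    (hH : ∀ v, 0 < H v) (hHl : ∀ u v, G.Adj u v → |H u - H v| ≤ ℓ s(u, v))
    (hD : DistortionLE G C) : Pointed G ℓ H (96 * C + 112) := by
  classical
  have hcc := cone_connected G
  have hcℓ := coneLen_pos hℓ hH
  have hcd := pathDist_isMet hcc hcℓ
  have hd := pathDist_isMet hc hℓ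
  obtain ⟨ν, hν⟩ := exists_near (X := {(none : Option V)}) hcc hcℓ ⟨none, rfl⟩
  have hνn : ∀ a, ν a = none := fun a => hν.mem a
  obtain ⟨σ, hσI, hσu, hσl⟩ := comps_embed (X := {(none : Option V)}) hC hcc hcℓ hν (by
    intro a ha
    have hget : ∀ z : compSet (cone G) {(none : Option V)} a, ∃ v, z.1 = some v := by
      intro z
      have h1 : z.1 ∉ ({none} : Set (Option V)) := ReachOff.right z.2
      exact Option.ne_none_iff_exists'.1 h1
    choose f hf using hget
    refine hD.emb f ?_ ?_ hc (comp_connected ha)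
    · intro z z' h
      apply Subtype.ext
      rw [hf z, hf z', h]
    · intro z z' h
      have h1 : (cone G).Adj z.1 z'.1 := h
      rw [hf z, hf z', cone_some] at h1
      exact h1)
  have hK : 0 < 96 * C + 112 := by positivity
  have hd1 : ∀ v, H v ≤ pathDist (cone G) (coneLen ℓ H) (some v) none := by
    intro v
    have h := cone_lip (G := G) (ℓ := ℓ) (H := H) (f := fun a => a.elim 0 H) (fun u v h => hHl u v h)
      (fun u => by
        show |H u - 0| ≤ H u
        rw [sub_zero, abs_of_pos (hH u)]) (some v) none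
    have e : |(fun a : Option V => a.elim 0 H) (some v) - (fun a : Option V => a.elim 0 H) none| =
        H v := by
      show |H v - 0| = H v
      rw [sub_zero, abs_of_pos (hH v)]
    rw [e] at h
    exact h
  have hHl' : ∀ u v, |H u - H v| ≤ pathDist G ℓ u v := fun u v => pathDist_gen hc hHl u v
  have hd2 : ∀ x y, min (pathDist G ℓ x y) (H x + H y) ≤
      pathDist (cone G) (coneLen ℓ H) (some x) (some y) := by
    intro x y
    have h := cone_lip (G := G) (ℓ := ℓ) (H := H)
      (f := fun a => a.elim (H x) fun v => min (pathDist G ℓ x v) (H x + H v))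
      (fun u v huv => by
        show |min (pathDist G ℓ x u) (H x + H u) - min (pathDist G ℓ x v) (H x + H v)| ≤ _
        refine (abs_min_sub_min_le_max _ _ _ _).trans (max_le ?_ ?_)
        · have h1 := hd.tri x u v
          have h2 := hd.tri x v u
          rw [hd.symm v u] at h2
          have h3 := pathDist_adj hℓ huv
          rw [abs_le]; constructor <;> linarith
        · have e : H x + H u - (H x + H v) = H u - H v := by ring
          rw [e]; exact hHl u v huv)
      (fun u => by
        show |min (pathDist G ℓ x u) (H x + H u) - H x| ≤ H u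
        have h1 := (abs_le.1 (hHl' x u)).2
        have h2 := hH u
        rw [abs_le]
        constructor
        · have : H x - H u ≤ min (pathDist G ℓ x u) (H x + H u) := le_min h1 (by linarith)
          linarith
        · have := min_le_right (pathDist G ℓ x u) (H x + H u)
          linarith) (some x) (some y)
    have e : |(fun a : Option V => a.elim (H x) fun v => min (pathDist G ℓ x v) (H x + H v)) (some x)
        - (fun a : Option V => a.elim (H x) fun v => min (pathDist G ℓ x v) (H x + H v)) (some y)| =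
        min (pathDist G ℓ x y) (H x + H y) := by
      show |min (pathDist G ℓ x x) (H x + H x) - min (pathDist G ℓ x y) (H x + H y)| = _
      have h1 := hH x
      have h2 := hH y
      rw [hd.self, min_eq_left (by linarith), zero_sub, abs_neg,
        abs_of_nonneg (le_min (hd.nonneg _ _) (by linarith))]
    rw [e] at h
    exact h
  refine ⟨σ, hσI, ?_, ?_, ?_, ?_⟩
  · intro u v huv
    refine (hσu _ _).trans (mul_le_mul_of_nonneg_left ?_ hK.le)
    have h := pathDist_adj hcℓ (cone_some.2 huv)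
    rwa [coneLen_some] at h
  · intro v
    refine (hσu _ _).trans (mul_le_mul_of_nonneg_left ?_ hK.le)
    have h := pathDist_adj hcℓ (cone_none (G := G) v)
    rwa [coneLen_none] at h
  · intro v
    have h := hσl (some v) none
    rw [hνn, hνn, hcd.self, add_zero, min_self] at h
    have h1 := hd1 v
    have h2 := hσI.nonneg (some v) none
    linarith
  · intro x y δ hx hy hxy
    have h0 := hσI.nonneg (some x) (some y)
    rcases le_or_gt δ 0 with hδ | hδ
    · linarith
    have h := hσl (some x) (some y)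
    rw [hνn, hνn] at h
    have h1 := hd1 x
    have h2 := hd1 y
    have h3 := hd2 x y
    have h4 : 2 * δ ≤ min (pathDist G ℓ x y) (H x + H y) := le_min (by linarith) (by linarith)
    have h5 : 2 * δ ≤ min (pathDist (cone G) (coneLen ℓ H) (some x) (some y))
        (pathDist (cone G) (coneLen ℓ H) (some x) none +
          pathDist (cone G) (coneLen ℓ H) (some y) none) := le_min (by linarith) (by linarith)
    linarith

end cone

section step

variable {V : Type} {G : SimpleGraph V} {ℓ : Sym2 V → ℝ}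

/-- distances in a component are at least distances in the graph -/
theorem pathDist_comp_ge [Finite V] (hc : G.Connected) (hℓ : ∀ e ∈ G.edgeSet, 0 < ℓ e) {K : Set V}
    (hK : (G.induce K).Connected) (x y : K) :
    pathDist G ℓ x y ≤ pathDist (G.induce K) (fun e => ℓ (e.map Subtype.val)) x y := by
  have hd := pathDist_isMet hc hℓ
  have h := pathDist_semi (G := G.induce K) (ℓ := fun e => ℓ (e.map Subtype.val))
    (ρ := fun a b : K => pathDist G ℓ a b) (K := 1) hK one_pos (fun a => hd.self _)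
    (fun a b c => hd.tri _ _ _) (fun u v huv => by
      rw [one_mul]
      exact pathDist_adj hℓ (show G.Adj u.1 v.1 from huv)) x y
  rwa [one_mul] at h

theorem induce_pos (hℓ : ∀ e ∈ G.edgeSet, 0 < ℓ e) (K : Set V) :
    ∀ e ∈ (G.induce K).edgeSet, 0 < ℓ (e.map Subtype.val) := by
  intro e
  induction e using Sym2.ind with
  | _ a b =>
    intro he
    exact hℓ _ he

/-- the barrier function of a set -/
theorem exists_barrier [Finite V] (hℓ : ∀ e ∈ G.edgeSet, 0 < ℓ e) {H : V → ℝ} (hH : ∀ v, 0 < H v)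
    (hHl : ∀ u v, G.Adj u v → |H u - H v| ≤ ℓ s(u, v)) (P : Set V) :
    ∃ φ : V → ℝ, (∀ v, 0 ≤ φ v) ∧ (∀ v, φ v ≤ H v) ∧ (∀ v ∈ P, φ v = 0) ∧ (∀ v, v ∉ P → 0 < φ v) ∧
      (∀ u v, G.Adj u v → |φ u - φ v| ≤ ℓ s(u, v)) ∧
      ∀ x, φ x < H x → ∃ z ∈ P, ∀ f : V → ℝ, (∀ u v, G.Adj u v → |f u - f v| ≤ ℓ s(u, v)) →
        |f x - f z| ≤ φ x := by
  classical
  have hs : ∀ u v, (fun u v : V => ℓ s(u, v)) u v = (fun u v : V => ℓ s(u, v)) v u := by
    intro u v
    show ℓ s(u, v) = ℓ s(v, u)
    rw [Sym2.eq_swap]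
  have hp : ∀ u v, G.Adj u v → 0 < (fun u v : V => ℓ s(u, v)) u v := fun u v h => hℓ _ h
  obtain ⟨φ, hφb, hφl, hφt⟩ := barrier G (fun u v => ℓ s(u, v)) hs hp
    (fun v => if v ∈ P then 0 else H v)
  have hb0 : ∀ v, 0 ≤ (if v ∈ P then (0 : ℝ) else H v) := by
    intro v; split_ifs
    · exact le_rfl
    · exact (hH v).le
  have hφ0 : ∀ x, 0 ≤ φ x := by
    intro x
    obtain ⟨z, hz, hf⟩ := hφt x
    have := hf (fun _ => 0) (by intro u v huv; simpa only [sub_self, abs_zero] using (hp u v huv).le)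
    rw [sub_self, abs_zero] at this
    have h5 := hb0 z
    rw [← hz] at h5
    linarith only [this, h5]
  have hφP : ∀ x ∈ P, φ x = 0 := by
    intro x hx
    apply le_antisymm _ (hφ0 x)
    have := hφb x
    rwa [if_pos hx] at this
  refine ⟨φ, hφ0, ?_, hφP, ?_, hφl, ?_⟩
  · intro x
    refine (hφb x).trans ?_
    split_ifs
    · exact (hH x).le
    · exact le_rfl
  · intro v hvP
    obtain ⟨z, hz, hf⟩ := hφt v
    rcases (hb0 z).lt_or_eq with hbz | hbz
    · have h5 := hf (fun _ => 0) (by
        intro u v huv; simpa only [sub_self, abs_zero] using (hp u v huv).le)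
      rw [sub_self, abs_zero, hz] at h5
      linarith
    · have hvz : v ≠ z := by
        rintro rfl
        rw [if_neg hvP] at hbz
        linarith [hH v]
      obtain ⟨ε, hε, hεl⟩ : ∃ ε : ℝ, 0 < ε ∧ ∀ u v, G.Adj u v → ε ≤ ℓ s(u, v) := by
        rcases Set.eq_empty_or_nonempty {q : V × V | G.Adj q.1 q.2} with h | h
        · refine ⟨1, one_pos, fun u v huv => ?_⟩
          have : (u, v) ∈ {q : V × V | G.Adj q.1 q.2} := huv
          rw [h] at this
          exact absurd this (Set.notMem_empty _)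
        · obtain ⟨q, hq, hmin⟩ := Set.exists_min_image _ (fun q : V × V => ℓ s(q.1, q.2))
            (Set.toFinite _) h
          exact ⟨ℓ s(q.1, q.2), hp _ _ hq, fun u v huv => hmin (u, v) huv⟩
      have h5 := hf (fun x => if x = v then ε else 0) (by
        intro a b hab
        have h6 := hεl a b hab
        by_cases h1 : a = v <;> by_cases h2 : b = v <;> simp only [h1, h2, if_true, if_false]
        · rw [sub_self, abs_zero]; rw [h1, h2] at hab; exact absurd hab (G.loopless.irrefl v)
        · rw [sub_zero, abs_of_pos hε]; rw [h1] at h6; exact h6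
        · rw [zero_sub, abs_neg, abs_of_pos hε]; rw [h2] at h6; exact h6
        · rw [sub_self, abs_zero]; exact hε.le.trans h6)
      simp only [if_true] at h5
      rw [if_neg (Ne.symm hvz), sub_zero, abs_of_pos hε, hz, ← hbz] at h5
      linarith
  · intro x hx
    obtain ⟨z, hz, hf⟩ := hφt x
    by_cases hzP : z ∈ P
    · refine ⟨z, hzP, fun f hfa => ?_⟩
      have := hf f hfa
      rw [hφP z hzP] at this
      linarith only [this]
    · exfalso
      have h5 := hf H hHl
      rw [hz, if_neg hzP] at h5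
      have h6 := le_abs_self (H x - H z)
      linarith

/-- the two fans of a shortest path separate all pairs one of which is close to the path -/
theorem fans_separate [Finite V] (hc : G.Connected) (hℓ : ∀ e ∈ G.edgeSet, 0 < ℓ e) {H : V → ℝ}
    {x0 y0 : V} (q : G.Walk x0 y0)
    (hq : (q.edges.map ℓ).sum = pathDist G ℓ x0 y0) {ν : V → V}
    (hν : Near G ℓ {v | v ∈ q.support} ν) {x y z : V} {δ S1 S2 : ℝ} (hδ : 0 < δ)
    (hx : δ ≤ H x) (hy : δ ≤ H y) (hxy : 8 * δ ≤ pathDist G ℓ x y) (hz : z ∈ q.support)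
    (hxz : pathDist G ℓ x z < δ)
    (h1 : 1 / 2000 * min |pathDist G ℓ x0 x - pathDist G ℓ x0 y| (H x + H y) ≤ S1)
    (h2 : 1 / 2000 * min |pathDist G ℓ x (ν x) - pathDist G ℓ y (ν y)| (H x + H y) ≤ S2)
    (hS1 : 0 ≤ S1) (hS2 : 0 ≤ S2) : δ ≤ 2000 * (S1 + S2) := by
  have hd := pathDist_isMet hc hℓ
  have hsx : pathDist G ℓ x (ν x) < δ := (hν.le x z hz).trans_lt hxz
  have hsx0 := hd.nonneg x (ν x)
  by_cases hcase : δ ≤ |pathDist G ℓ x (ν x) - pathDist G ℓ y (ν y)|
  · have h3 : δ ≤ min |pathDist G ℓ x (ν x) - pathDist G ℓ y (ν y)| (H x + H y) :=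
      le_min hcase (by linarith)
    linarith
  · push Not at hcase
    have h3 := (abs_lt.1 hcase).1
    have hsy : pathDist G ℓ y (ν y) < 2 * δ := by linarith
    have hg := geodesic_line hc hℓ q hq hz (hν.mem y)
    have t1 := hd.tri x z y
    have t2 := hd.tri z (ν y) y
    have t3 := hd.symm (ν y) y
    have hzz : 5 * δ ≤ pathDist G ℓ z (ν y) := by linarith
    have u1 : |pathDist G ℓ x0 x - pathDist G ℓ x0 z| ≤ pathDist G ℓ x z := by
      have a1 := hd.tri x0 x z
      have a2 := hd.tri x0 z x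
      rw [hd.symm z x] at a2
      rw [abs_le]; constructor <;> linarith
    have u2 : |pathDist G ℓ x0 y - pathDist G ℓ x0 (ν y)| ≤ pathDist G ℓ y (ν y) := by
      have a1 := hd.tri x0 y (ν y)
      have a2 := hd.tri x0 (ν y) y
      rw [t3] at a2
      rw [abs_le]; constructor <;> linarith
    have u3 : |pathDist G ℓ x0 z - pathDist G ℓ x0 (ν y)| ≤
        |pathDist G ℓ x0 x - pathDist G ℓ x0 z| + |pathDist G ℓ x0 x - pathDist G ℓ x0 y| +
        |pathDist G ℓ x0 y - pathDist G ℓ x0 (ν y)| := by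
      have e : pathDist G ℓ x0 z - pathDist G ℓ x0 (ν y) =
          -(pathDist G ℓ x0 x - pathDist G ℓ x0 z) + (pathDist G ℓ x0 x - pathDist G ℓ x0 y) +
          (pathDist G ℓ x0 y - pathDist G ℓ x0 (ν y)) := by ring
      rw [e]
      refine (abs_add_three _ _ _).trans ?_
      rw [abs_neg]
    have h4 : 2 * δ ≤ |pathDist G ℓ x0 x - pathDist G ℓ x0 y| := by linarith
    have h5 : 2 * δ ≤ min |pathDist G ℓ x0 x - pathDist G ℓ x0 y| (H x + H y) :=
      le_min h4 (by linarith)
    linarith

/-- one round -/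
theorem pointed_step [Finite V] (hc : G.Connected) (hℓ : ∀ e ∈ G.edgeSet, 0 < ℓ e) {H : V → ℝ}
    (hH : ∀ v, 0 < H v) (hHl : ∀ u v, G.Adj u v → |H u - H v| ≤ ℓ s(u, v)) {x0 y0 : V}
    (q : G.Walk x0 y0) (hq : (q.edges.map ℓ).sum = pathDist G ℓ x0 y0) {K : ℝ} (hK : 0 ≤ K)
    (ih : ∀ u ∉ q.support, ∀ H' : compSet G {v | v ∈ q.support} u → ℝ, (∀ v, 0 < H' v) →
      (∀ a b, (G.induce (compSet G {v | v ∈ q.support} u)).Adj a b →
        |H' a - H' b| ≤ ℓ s(a.1, b.1)) →
      Pointed (G.induce (compSet G {v | v ∈ q.support} u)) (fun e => ℓ (e.map Subtype.val)) H' K) :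
    Pointed G ℓ H (K + 2) := by
  classical
  have := Fintype.ofFinite V
  have hd := pathDist_isMet hc hℓ
  set P : Set V := {v | v ∈ q.support} with hP
  obtain ⟨φ, hφ0, hφH, hφP, hφpos, hφl, hφn⟩ := exists_barrier hℓ hH hHl P
  obtain ⟨ν, hν⟩ := exists_near (X := P) hc hℓ ⟨x0, q.start_mem_support⟩
  have hH0 : ∀ v, 0 ≤ H v := fun v => (hH v).le
  obtain ⟨ι1, _, w1, g1, hw1, hs1, hb1, hm1, hl1, -, hn1⟩ := fan' fan (fun _ : V => ())
    (fun v => pathDist G ℓ x0 v) H hH0
  obtain ⟨ι2, _, w2, g2, hw2, hs2, hb2, hm2, hl2, -, -⟩ := fan' fan (fun _ : V => ())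
    (fun v => pathDist G ℓ v (ν v)) H hH0
  -- components
  let Q := Quotient (compSetoid G P)
  have : Fintype Q := Fintype.ofFinite Q
  have hQ : ∀ c : Q, Pointed (G.induce (compSet G P c.out.1)) (fun e => ℓ (e.map Subtype.val))
      (fun v => φ v.1) K := fun c => ih c.out.1 c.out.2 (fun v => φ v.1)
      (fun v => hφpos v.1 (ReachOff.right v.2)) (fun a b hab => hφl a.1 b.1 hab)
  choose r hrI hr1 hr2 hr3 hr4 using hQ
  have hmk : ∀ (v : V) (hv : v ∉ P), v ∈ compSet G P (⟦⟨v, hv⟩⟧ : Q).out.1 := by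
    intro v hv
    exact Quotient.mk_out (s := compSetoid G P) ⟨v, hv⟩
  have huniq : ∀ (c : Q) (v : V) (hv : v ∉ P), v ∈ compSet G P c.out.1 → c = ⟦⟨v, hv⟩⟧ := by
    intro c v hv h
    have h1 : (⟦c.out⟧ : Q) = ⟦⟨v, hv⟩⟧ := Quotient.sound h
    rwa [Quotient.out_eq] at h1
  have hrX : ∀ (c : Q) (v : V), v ∈ P → v ∉ compSet G P c.out.1 := fun c v hv h =>
    ReachOff.right h hv
  let e : ∀ c : Q, Option V → Option (compSet G P c.out.1) := fun c a =>
    a.elim none fun v => if h : v ∈ compSet G P c.out.1 then some ⟨v, h⟩ else none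
  have he0 : ∀ c, e c none = none := fun c => rfl
  have he1 : ∀ c v (h : v ∈ compSet G P c.out.1), e c (some v) = some ⟨v, h⟩ := by
    intro c v h
    exact dif_pos h
  have he2 : ∀ c v, v ∉ compSet G P c.out.1 → e c (some v) = none := by
    intro c v h
    exact dif_neg h
  let G1 : Option V → Option V → ℝ := fun a b => ∑ i, w1 i * |a.elim 0 (g1 i) - b.elim 0 (g1 i)|
  let G2 : Option V → Option V → ℝ := fun a b => ∑ i, w2 i * |a.elim 0 (g2 i) - b.elim 0 (g2 i)|
  let G3 : Option V → Option V → ℝ := fun a b => ∑ c : Q, r c (e c a) (e c b)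
  have hG1 : IsL1 G1 := IsL1.sum Finset.univ
    (fun i (a b : Option V) => w1 i * |a.elim 0 (g1 i) - b.elim 0 (g1 i)|)
    fun i _ => (isL1_line (fun a : Option V => a.elim 0 (g1 i))).smul (hw1 i)
  have hG2 : IsL1 G2 := IsL1.sum Finset.univ
    (fun i (a b : Option V) => w2 i * |a.elim 0 (g2 i) - b.elim 0 (g2 i)|)
    fun i _ => (isL1_line (fun a : Option V => a.elim 0 (g2 i))).smul (hw2 i)
  have hG3 : IsL1 G3 := IsL1.sum Finset.univ (fun c a b => r c (e c a) (e c b))
    fun c _ => (hrI c).comap (e c)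
  have hn1' : ∀ a b, 0 ≤ G1 a b := hG1.nonneg
  have hn2' : ∀ a b, 0 ≤ G2 a b := hG2.nonneg
  have hn3' : ∀ a b, 0 ≤ G3 a b := hG3.nonneg
  have hterm : ∀ (c : Q) a b, 0 ≤ r c (e c a) (e c b) := fun c a b => (hrI c).nonneg _ _
  have hsingle : ∀ (c : Q) a b, r c (e c a) (e c b) ≤ G3 a b := fun c a b =>
    Finset.single_le_sum (f := fun c => r c (e c a) (e c b)) (fun c _ => hterm c a b)
      (Finset.mem_univ c)
  refine ⟨fun a b => (G1 a b + G2 a b) + G3 a b, (hG1.add hG2).add hG3, ?_, ?_, ?_, ?_⟩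
  · -- edges
    intro u v huv
    have hl0 : 0 < ℓ s(u, v) := hℓ _ huv
    have hadj := pathDist_adj hℓ huv
    have f1 : G1 (some u) (some v) ≤ ℓ s(u, v) := by
      have : ∀ i ∈ Finset.univ, w1 i * |g1 i u - g1 i v| ≤ w1 i * ℓ s(u, v) := by
        intro i _
        apply mul_le_mul_of_nonneg_left _ (hw1 i)
        refine (hm1 i u v rfl).trans (max_le ?_ (hHl u v huv))
        have a1 := hd.tri x0 u v
        have a2 := hd.tri x0 v u
        rw [hd.symm v u] at a2
        rw [abs_le]; constructor <;> linarith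
      refine (Finset.sum_le_sum this).trans ?_
      rw [← Finset.sum_mul, hs1, one_mul]
    have f2 : G2 (some u) (some v) ≤ ℓ s(u, v) := by
      have : ∀ i ∈ Finset.univ, w2 i * |g2 i u - g2 i v| ≤ w2 i * ℓ s(u, v) := by
        intro i _
        apply mul_le_mul_of_nonneg_left _ (hw2 i)
        refine (hm2 i u v rfl).trans (max_le ?_ (hHl u v huv))
        have a1 := hν.lip hc hℓ u v
        have a2 := hν.lip hc hℓ v u
        rw [hd.symm v u] at a2
        rw [abs_le]; constructor <;> linarith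
      refine (Finset.sum_le_sum this).trans ?_
      rw [← Finset.sum_mul, hs2, one_mul]
    have hone : ∀ u v, u ∉ P → G.Adj u v → G3 (some u) (some v) ≤ K * ℓ s(u, v) := by
      intro u v hu huv
      have hsum : G3 (some u) (some v) = r ⟦⟨u, hu⟩⟧ (e _ (some u)) (e _ (some v)) := by
        refine Finset.sum_eq_single _ (fun c _ hc => ?_) (fun h => absurd (Finset.mem_univ _) h)
        have h1 : u ∉ compSet G P c.out.1 := fun h => hc (huniq c u hu h)
        have h2 : v ∉ compSet G P c.out.1 := fun h =>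
          h1 (ReachOff.trans h (ReachOff.adj (ReachOff.right h) hu huv.symm))
        rw [he2 c u h1, he2 c v h2]
        exact (hrI c).self _
      rw [hsum, he1 _ u (hmk u hu)]
      by_cases hv : v ∈ P
      · rw [he2 _ v (hrX _ v hv)]
        refine (hr2 _ _).trans (mul_le_mul_of_nonneg_left ?_ hK)
        have h1 := hφl u v huv
        rw [hφP v hv, sub_zero] at h1
        exact (le_abs_self _).trans h1
      · have hvK : v ∈ compSet G P (⟦⟨u, hu⟩⟧ : Q).out.1 :=
          ReachOff.trans (hmk u hu) (ReachOff.adj hu hv huv)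
        rw [he1 _ v hvK]
        exact hr1 _ _ _ huv
    have f3 : G3 (some u) (some v) ≤ K * ℓ s(u, v) := by
      by_cases hu : u ∈ P
      · by_cases hv : v ∈ P
        · have hz : G3 (some u) (some v) = 0 := Finset.sum_eq_zero fun c _ => by
            rw [he2 c u (hrX c u hu), he2 c v (hrX c v hv)]
            exact (hrI c).self _
          rw [hz]
          positivity
        · rw [hG3.symm, Sym2.eq_swap]
          exact hone v u hv huv.symm
      · exact hone u v hu huv
    show G1 (some u) (some v) + G2 (some u) (some v) + G3 (some u) (some v) ≤ _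
    linarith
  · -- upper bound at the base point
    intro v
    have f1 : G1 (some v) none ≤ H v := by
      have : ∀ i ∈ Finset.univ, w1 i * |g1 i v - 0| ≤ w1 i * H v := by
        intro i _
        apply mul_le_mul_of_nonneg_left _ (hw1 i)
        rw [sub_zero]; exact hb1 i v
      refine (Finset.sum_le_sum this).trans ?_
      rw [← Finset.sum_mul, hs1, one_mul]
    have f2 : G2 (some v) none ≤ H v := by
      have : ∀ i ∈ Finset.univ, w2 i * |g2 i v - 0| ≤ w2 i * H v := by
        intro i _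
        apply mul_le_mul_of_nonneg_left _ (hw2 i)
        rw [sub_zero]; exact hb2 i v
      refine (Finset.sum_le_sum this).trans ?_
      rw [← Finset.sum_mul, hs2, one_mul]
    have f3 : G3 (some v) none ≤ K * H v := by
      by_cases hv : v ∈ P
      · have hz : G3 (some v) none = 0 := Finset.sum_eq_zero fun c _ => by
          rw [he2 c v (hrX c v hv), he0]
          exact (hrI c).self _
        rw [hz]
        exact mul_nonneg hK (hH0 v)
      · have hsum : G3 (some v) none = r ⟦⟨v, hv⟩⟧ (e _ (some v)) (e _ none) := by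
          refine Finset.sum_eq_single _ (fun c _ hc => ?_) (fun h => absurd (Finset.mem_univ _) h)
          have h1 : v ∉ compSet G P c.out.1 := fun h => hc (huniq c v hv h)
          rw [he2 c v h1, he0]
          exact (hrI c).self _
        rw [hsum, he1 _ v (hmk v hv), he0]
        exact (hr2 _ _).trans (mul_le_mul_of_nonneg_left (hφH v) hK)
    show G1 (some v) none + G2 (some v) none + G3 (some v) none ≤ _
    linarith
  · -- lower bound at the base point
    intro v
    have f1 : 1 / 2000 * H v ≤ G1 (some v) none := by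
      refine (hn1 v).trans (le_of_eq ?_)
      refine Finset.sum_congr rfl fun i _ => ?_
      show _ = w1 i * |g1 i v - 0|
      rw [sub_zero]
    have := hn2' (some v) none
    have := hn3' (some v) none
    show H v ≤ 2000 * (G1 (some v) none + G2 (some v) none + G3 (some v) none)
    linarith
  · -- separation
    intro x y δ hx hy hxy
    show δ ≤ 2000 * (G1 (some x) (some y) + G2 (some x) (some y) + G3 (some x) (some y))
    have p1 := hn1' (some x) (some y)
    have p2 := hn2' (some x) (some y)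
    have p3 := hn3' (some x) (some y)
    rcases le_or_gt δ 0 with hδ | hδ
    · linarith
    have key : ∀ a b, δ ≤ H a → δ ≤ H b → 8 * δ ≤ pathDist G ℓ a b → φ a < δ →
        δ ≤ 2000 * (G1 (some a) (some b) + G2 (some a) (some b)) := by
      intro a b ha hb hab hφa
      obtain ⟨z, hz, hzf⟩ := hφn a (hφa.trans_le ha)
      have haz : pathDist G ℓ a z < δ := by
        have h1 := hzf (fun v => pathDist G ℓ v z) (fun u v huv => by
          have a1 := hd.tri u v z
          have a2 := hd.tri v u z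
          rw [hd.symm v u] at a2
          have a3 := pathDist_adj hℓ huv
          rw [abs_le]; constructor <;> linarith)
        rw [hd.self, sub_zero] at h1
        exact ((le_abs_self _).trans h1).trans_lt hφa
      exact fans_separate hc hℓ q hq hν hδ ha hb hab hz haz (hl1 a b rfl) (hl2 a b rfl)
        (hn1' (some a) (some b)) (hn2' (some a) (some b))
    by_cases hφx : δ ≤ φ x
    · by_cases hφy : δ ≤ φ y
      · have hxP : x ∉ P := fun h => by rw [hφP x h] at hφx; linarith
        have hyP : y ∉ P := fun h => by rw [hφP y h] at hφy; linarith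
        have h3 := hsingle ⟦⟨x, hxP⟩⟧ (some x) (some y)
        rw [he1 _ x (hmk x hxP)] at h3
        by_cases hyK : y ∈ compSet G P (⟦⟨x, hxP⟩⟧ : Q).out.1
        · rw [he1 _ y hyK] at h3
          have h4 := hr4 ⟦⟨x, hxP⟩⟧ ⟨x, hmk x hxP⟩ ⟨y, hyK⟩ δ hφx hφy
            (hxy.trans (pathDist_comp_ge hc hℓ (comp_connected (⟦⟨x, hxP⟩⟧ : Q).out.2)
              ⟨x, hmk x hxP⟩ ⟨y, hyK⟩))
          linarith
        · rw [he2 _ y hyK] at h3
          have h4 := hr3 ⟦⟨x, hxP⟩⟧ ⟨x, hmk x hxP⟩
          have h5 : φ x ≤ 2000 * r ⟦⟨x, hxP⟩⟧ (some ⟨x, hmk x hxP⟩) none := h4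
          linarith
      · push Not at hφy
        have h1 := key y x hy hx (by rw [hd.symm]; exact hxy) hφy
        rw [hG1.symm, hG2.symm] at h1
        linarith
    · push Not at hφx
      have h1 := key x y hx hy hxy hφx
      linarith

end step

section main

theorem peel_pointed {C : ℝ} (hC : 0 < C) {k : ℕ} {V : Type} {G : SimpleGraph V} {ℓ : Sym2 V → ℝ}
    (h : Peel C k G ℓ) : Finite V → G.Connected → (∀ e ∈ G.edgeSet, 0 < ℓ e) → ∀ H : V → ℝ,
      (∀ v, 0 < H v) → (∀ u v, G.Adj u v → |H u - H v| ≤ ℓ s(u, v)) →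
      Pointed G ℓ H (96 * C + 112 + 2 * k) := by
  induction h with
  | leaf hD =>
    intro _ hc hℓ H hH hHl
    have := pointed_leaf hC hc hℓ hH hHl hD
    simpa using this
  | @lift k V G ℓ _ ih =>
    intro hfin hc hℓ H hH hHl
    obtain ⟨σ, h1, h2, h3, h4, h5⟩ := ih hfin hc hℓ H hH hHl
    refine ⟨σ, h1, ?_, ?_, h4, h5⟩
    · intro u v huv
      refine (h2 u v huv).trans (mul_le_mul_of_nonneg_right ?_ (hℓ _ huv).le)
      push_cast
      linarith
    · intro v
      refine (h3 v).trans (mul_le_mul_of_nonneg_right ?_ (hH v).le)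
      push_cast
      linarith
  | @path k V G ℓ x y q hq _ ih =>
    intro hfin hc hℓ H hH hHl
    have := pointed_step hc hℓ hH hHl q hq (K := 96 * C + 112 + 2 * k) (by positivity)
      (fun u hu H' hH' hHl' => ih u hu inferInstance (comp_connected hu)
        (induce_pos hℓ _) H' hH' hHl')
    have e : (96 * C + 112 + 2 * (k : ℝ)) + 2 = 96 * C + 112 + 2 * ((k + 1 : ℕ) : ℝ) := by
      push_cast; ring
    rwa [e] at this

/-- **`k` rounds of removing shortest paths, leaves of distortion `C`** -/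
theorem peel_embeds {C : ℝ} (hC : 0 < C) {k : ℕ} {V : Type} [Finite V] {G : SimpleGraph V}
    {ℓ : Sym2 V → ℝ} (hc : G.Connected) (hℓ : ∀ e ∈ G.edgeSet, 0 < ℓ e) (h : Peel C k G ℓ) :
    EmbedsL1 (pathDist G ℓ) (16000 * (96 * C + 112 + 2 * k)) := by
  have := Fintype.ofFinite V
  have hd := pathDist_isMet hc hℓ
  obtain ⟨R, hR0, hR⟩ : ∃ R : ℝ, 0 < R ∧ ∀ x y, pathDist G ℓ x y ≤ R := by
    refine ⟨∑ x, ∑ y, pathDist G ℓ x y + 1, ?_, ?_⟩
    · have : 0 ≤ ∑ x, ∑ y, pathDist G ℓ x y :=
        Finset.sum_nonneg fun x _ => Finset.sum_nonneg fun y _ => hd.nonneg x y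
      linarith
    intro x y
    have e1 : pathDist G ℓ x y ≤ ∑ y, pathDist G ℓ x y :=
      Finset.single_le_sum (f := fun y => pathDist G ℓ x y) (fun y _ => hd.nonneg x y)
        (Finset.mem_univ y)
    have e2 : ∑ y, pathDist G ℓ x y ≤ ∑ x, ∑ y, pathDist G ℓ x y :=
      Finset.single_le_sum (f := fun x => ∑ y, pathDist G ℓ x y)
        (fun x _ => Finset.sum_nonneg fun y _ => hd.nonneg x y) (Finset.mem_univ x)
    linarith
  obtain ⟨σ, h1, h2, -, -, h5⟩ := peel_pointed hC h inferInstance hc hℓ (fun _ => R)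
    (fun _ => hR0) (fun u v huv => by
      rw [sub_self, abs_zero]; exact (hℓ _ huv).le)
  have hK : 0 < 96 * C + 112 + 2 * (k : ℝ) := by positivity
  have hI := (h1.comap (some : V → Option V)).smul (by norm_num : (0 : ℝ) ≤ 16000)
  refine hI.embeds (fun x y => ?_) (fun x y => ?_)
  · have h6 := h5 x y (pathDist G ℓ x y / 8) (by linarith [hR x y, hd.nonneg x y])
      (by linarith [hR x y, hd.nonneg x y]) (by linarith)
    show pathDist G ℓ x y ≤ 16000 * σ (some x) (some y)
    linarith
  · have h6 := pathDist_semi (G := G) (ℓ := ℓ) (ρ := fun x y => σ (some x) (some y)) hc hK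
      (fun x => h1.self _) (fun x y z => h1.tri _ _ _) h2 x y
    show 16000 * σ (some x) (some y) ≤ _
    rw [mul_assoc]
    exact mul_le_mul_of_nonneg_left h6 (by norm_num)

end main

end Vale.Agent.P235
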