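import Vale.Agent.P235.Comp.PathSum

/-!
# Finite families of real functions in `ℓ₂` and random signs
-/

namespace Vale.Agent.P235

open Finset

/-- `N x y = ∑ w i (g i x - g i y)²` for finitely many real functions `g i` and weights `w i ≥ 0` -/
def IsSq {V : Type} (N : V → V → ℝ) : Prop :=
  ∃ (ι : Type) (_ : Fintype ι) (w : ι → ℝ) (g : ι → V → ℝ), (∀ i, 0 ≤ w i) ∧
    ∀ x y, N x y = ∑ i, w i * (g i x - g i y) ^ 2

namespace IsSq

variable {V : Type} {N M : V → V → ℝ}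

theorem self (h : IsSq N) (x : V) : N x x = 0 := by
  obtain ⟨ι, _, w, g, hw, h⟩ := h
  rw [h]; simp

theorem nonneg (h : IsSq N) (x y : V) : 0 ≤ N x y := by
  obtain ⟨ι, _, w, g, hw, h⟩ := h
  rw [h]; exact Finset.sum_nonneg fun i _ => mul_nonneg (hw i) (sq_nonneg _)

theorem symm (h : IsSq N) (x y : V) : N x y = N y x := by
  obtain ⟨ι, _, w, g, hw, h⟩ := h
  rw [h, h]
  refine Finset.sum_congr rfl fun i _ => ?_
  ring

theorem add (hN : IsSq N) (hM : IsSq M) : IsSq (fun x y => N x y + M x y) := by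
  obtain ⟨ι, _, w, g, hw, h⟩ := hN
  obtain ⟨κ, _, w', g', hw', h'⟩ := hM
  refine ⟨ι ⊕ κ, inferInstance, Sum.elim w w', Sum.elim g g', ?_, fun x y => ?_⟩
  · rintro (i | i)
    · exact hw i
    · exact hw' i
  · show N x y + M x y = _
    rw [Fintype.sum_sum_type, h, h']
    simp only [Sum.elim_inl, Sum.elim_inr]

theorem zero : IsSq (fun _ _ : V => (0 : ℝ)) :=
  ⟨Empty, inferInstance, fun _ => 0, fun _ _ => 0, fun _ => le_rfl, by simp⟩

theorem sum {κ : Type} (s : Finset κ) (F : κ → V → V → ℝ) (h : ∀ i ∈ s, IsSq (F i)) :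
    IsSq (fun x y => ∑ i ∈ s, F i x y) := by
  classical
  induction s using Finset.induction with
  | empty => simpa using (zero : IsSq (fun _ _ : V => (0 : ℝ)))
  | insert a s ha ih =>
    have h1 := h a (Finset.mem_insert_self a s)
    have h2 := ih fun i hi => h i (Finset.mem_insert_of_mem hi)
    have h3 := h1.add h2
    have e : (fun x y => ∑ i ∈ insert a s, F i x y) = fun x y => F a x y + ∑ i ∈ s, F i x y := by
      funext x y
      rw [Finset.sum_insert ha]
    rw [e]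
    exact h3

theorem comap (h : IsSq N) {W : Type} (φ : W → V) : IsSq (fun x y => N (φ x) (φ y)) := by
  obtain ⟨ι, _, w, g, hw, h⟩ := h
  exact ⟨ι, inferInstance, w, fun i x => g i (φ x), hw, fun x y => h _ _⟩

end IsSq

/-- sign -/
def sgn1 (b : Bool) : ℝ := if b then 1 else -1

theorem sgn1_not (b : Bool) : sgn1 (!b) = - sgn1 b := by cases b <;> simp [sgn1]

theorem sgn1_sq (b : Bool) : sgn1 b ^ 2 = 1 := by cases b <;> simp [sgn1]

section signs

variable {ι : Type} [Fintype ι] [DecidableEq ι]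

/-- flipping one sign -/
def flipS (i : ι) : (ι → Bool) ≃ (ι → Bool) where
  toFun ε := Function.update ε i (!ε i)
  invFun ε := Function.update ε i (!ε i)
  left_inv ε := by simp
  right_inv ε := by simp

theorem sum_flipS (i : ι) (f : (ι → Bool) → ℝ) :
    ∑ ε, f ε = 1 / 2 * ∑ ε, (f ε + f (flipS i ε)) := by
  rw [Finset.sum_add_distrib, Equiv.sum_comp (flipS i) f]
  ring

theorem moments (b : ι → ℝ) (s : Finset ι) :
    ∑ ε : ι → Bool, (∑ i ∈ s, sgn1 (ε i) * b i) ^ 2 = 2 ^ Fintype.card ι * ∑ i ∈ s, b i ^ 2 ∧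
    ∑ ε : ι → Bool, (∑ i ∈ s, sgn1 (ε i) * b i) ^ 4 ≤
      3 * (2 ^ Fintype.card ι * (∑ i ∈ s, b i ^ 2) ^ 2) := by
  induction s using Finset.induction with
  | empty => simp
  | insert a s ha ih =>
    obtain ⟨h2, h4⟩ := ih
    have hfix : ∀ ε : ι → Bool, ∑ i ∈ s, sgn1 (flipS a ε i) * b i = ∑ i ∈ s, sgn1 (ε i) * b i := by
      intro ε
      refine Finset.sum_congr rfl fun i hi => ?_
      have : i ≠ a := fun h => ha (h ▸ hi)
      have e : flipS a ε i = ε i := Function.update_of_ne this _ _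
      rw [e]
    have hflip : ∀ ε : ι → Bool, sgn1 (flipS a ε a) = - sgn1 (ε a) := by
      intro ε
      have e : flipS a ε a = !ε a := Function.update_self _ _ _
      rw [e, sgn1_not]
    have hcard : ∑ _ε : ι → Bool, (1 : ℝ) = 2 ^ Fintype.card ι := by
      simp
    constructor
    · rw [sum_flipS a]
      have e : ∀ ε : ι → Bool, (∑ i ∈ insert a s, sgn1 (ε i) * b i) ^ 2 +
          (∑ i ∈ insert a s, sgn1 (flipS a ε i) * b i) ^ 2 =
          2 * (∑ i ∈ s, sgn1 (ε i) * b i) ^ 2 + 2 * b a ^ 2 * 1 := by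
        intro ε
        rw [Finset.sum_insert ha, Finset.sum_insert ha, hfix, hflip]
        have := sgn1_sq (ε a)
        linear_combination (2 * b a ^ 2) * this
      rw [Finset.sum_congr rfl fun ε _ => e ε, Finset.sum_add_distrib, ← Finset.mul_sum,
        ← Finset.mul_sum, h2, hcard, Finset.sum_insert ha]
      ring
    · rw [sum_flipS a]
      have e : ∀ ε : ι → Bool, (∑ i ∈ insert a s, sgn1 (ε i) * b i) ^ 4 +
          (∑ i ∈ insert a s, sgn1 (flipS a ε i) * b i) ^ 4 =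
          2 * (∑ i ∈ s, sgn1 (ε i) * b i) ^ 4 + 12 * b a ^ 2 * (∑ i ∈ s, sgn1 (ε i) * b i) ^ 2 +
            2 * b a ^ 4 * 1 := by
        intro ε
        rw [Finset.sum_insert ha, Finset.sum_insert ha, hfix, hflip]
        have h := sgn1_sq (ε a)
        have h' : sgn1 (ε a) ^ 4 = 1 := by
          have : sgn1 (ε a) ^ 4 = (sgn1 (ε a) ^ 2) ^ 2 := by ring
          rw [this, h]; ring
        linear_combination (12 * b a ^ 2 * (∑ i ∈ s, sgn1 (ε i) * b i) ^ 2) * h + 2 * b a ^ 4 * h'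
      rw [Finset.sum_congr rfl fun ε _ => e ε, Finset.sum_add_distrib, Finset.sum_add_distrib,
        ← Finset.mul_sum, ← Finset.mul_sum, ← Finset.mul_sum, h2, hcard, Finset.sum_insert ha]
      have hp : (0 : ℝ) ≤ 2 ^ Fintype.card ι := by positivity
      have hb4 : 0 ≤ (2 : ℝ) ^ Fintype.card ι * b a ^ 4 := by positivity
      nlinarith [h4, hb4]

/-- **random signs**: the mean of `|∑ ± b i|` is comparable to the `ℓ₂` norm -/
theorem signs_bound (b : ι → ℝ) :
    (2 ^ Fintype.card ι : ℝ)⁻¹ * ∑ ε : ι → Bool, |∑ i, sgn1 (ε i) * b i| ≤ √(∑ i, b i ^ 2) ∧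
    √(∑ i, b i ^ 2) ≤
      2 * ((2 ^ Fintype.card ι : ℝ)⁻¹ * ∑ ε : ι → Bool, |∑ i, sgn1 (ε i) * b i|) := by
  obtain ⟨h2, h4⟩ := moments b Finset.univ
  set σ := √(∑ i, b i ^ 2) with hσ
  have hS0 : 0 ≤ ∑ i, b i ^ 2 := Finset.sum_nonneg fun i _ => sq_nonneg _
  have hσ2 : σ ^ 2 = ∑ i, b i ^ 2 := Real.sq_sqrt hS0
  have hσ0 : 0 ≤ σ := Real.sqrt_nonneg _
  have hp : (0 : ℝ) < 2 ^ Fintype.card ι := by positivity
  have hcard : ∑ _ε : ι → Bool, (1 : ℝ) = 2 ^ Fintype.card ι := by simp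
  rw [← hσ2] at h2 h4
  rcases hσ0.eq_or_lt with h0 | h0
  · have hb : ∀ i, b i = 0 := by
      intro i
      have h5 : ∑ i, b i ^ 2 = 0 := by rw [← hσ2, ← h0]; ring
      have h6 := (Finset.sum_eq_zero_iff_of_nonneg fun i _ => sq_nonneg (b i)).1 h5 i
        (Finset.mem_univ i)
      exact pow_eq_zero_iff (two_ne_zero) |>.1 h6
    have hz : ∑ ε : ι → Bool, |∑ i, sgn1 (ε i) * b i| = 0 := by
      refine Finset.sum_eq_zero fun ε _ => ?_
      simp [hb]
    rw [hz, ← h0]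
    simp
  · constructor
    · rw [inv_mul_le_iff₀ hp]
      have h5 : ∀ ε : ι → Bool, |∑ i, sgn1 (ε i) * b i| ≤
          1 / (2 * σ) * (∑ i, sgn1 (ε i) * b i) ^ 2 + σ / 2 * 1 := by
        intro ε
        set s := ∑ i, sgn1 (ε i) * b i
        have h6 : 0 ≤ (|s| - σ) ^ 2 := sq_nonneg _
        have h7 : |s| ^ 2 = s ^ 2 := sq_abs s
        rw [mul_one, div_mul_eq_mul_div, one_mul, div_add_div _ _ (by positivity) (by norm_num),
          le_div_iff₀ (by positivity)]
        nlinarith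
      refine (Finset.sum_le_sum fun ε _ => h5 ε).trans (le_of_eq ?_)
      rw [Finset.sum_add_distrib, ← Finset.mul_sum, ← Finset.mul_sum, h2, hcard]
      field_simp
      ring
    · have h5 : ∀ ε : ι → Bool, 12 * σ ^ 2 * (∑ i, sgn1 (ε i) * b i) ^ 2 -
          (∑ i, sgn1 (ε i) * b i) ^ 4 ≤ 16 * σ ^ 3 * |∑ i, sgn1 (ε i) * b i| := by
        intro ε
        set s := ∑ i, sgn1 (ε i) * b i
        have hu : 0 ≤ |s| := abs_nonneg s
        have h7 : s ^ 2 = |s| ^ 2 := (sq_abs s).symm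
        have h8 : s ^ 4 = |s| ^ 4 := by
          have : s ^ 4 = (s ^ 2) ^ 2 := by ring
          rw [this, h7]; ring
        rw [h7, h8]
        have h9 : 0 ≤ |s| * (|s| - 2 * σ) ^ 2 * (|s| + 4 * σ) := by positivity
        nlinarith
      have h6 := Finset.sum_le_sum fun ε (_ : ε ∈ Finset.univ) => h5 ε
      rw [Finset.sum_sub_distrib, ← Finset.mul_sum, ← Finset.mul_sum, h2] at h6
      set T := ∑ ε : ι → Bool, |∑ i, sgn1 (ε i) * b i| with hT
      have h7 : 9 * (2 ^ Fintype.card ι * σ ^ 4) ≤ 16 * σ ^ 3 * T := by nlinarith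
      have h8 : 9 * (2 ^ Fintype.card ι * σ) ≤ 16 * T := by
        have h3 : 0 < σ ^ 3 := by positivity
        refine le_of_mul_le_mul_left ?_ h3
        nlinarith
      rw [← mul_assoc, mul_comm 2, mul_assoc, ← div_eq_inv_mul, le_div_iff₀ hp]
      nlinarith [mul_pos hp h0]

end signs

/-- a finite `ℓ₂` family embeds into `L₁` with a constant loss -/
theorem IsSq.toL1 {V : Type} [Finite V] {N : V → V → ℝ} (h : IsSq N) :
    ∃ F : V → V → ℝ, IsL1 F ∧ ∀ x y, F x y ≤ √(N x y) ∧ √(N x y) ≤ 2 * F x y := by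
  classical
  obtain ⟨ι, _, w, g, hw, h⟩ := h
  refine ⟨fun x y => (2 ^ Fintype.card ι : ℝ)⁻¹ * ∑ ε : ι → Bool,
    |(∑ i, sgn1 (ε i) * (√(w i) * g i x)) - ∑ i, sgn1 (ε i) * (√(w i) * g i y)|, ?_, fun x y => ?_⟩
  · refine IsL1.smul (IsL1.sum Finset.univ (fun (ε : ι → Bool) x y =>
      |(∑ i, sgn1 (ε i) * (√(w i) * g i x)) - ∑ i, sgn1 (ε i) * (√(w i) * g i y)|) fun ε _ => ?_)
      (by positivity)
    exact isL1_line fun x => ∑ i, sgn1 (ε i) * (√(w i) * g i x)
  · have hb := signs_bound (fun i => √(w i) * (g i x - g i y))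
    have e1 : ∑ i, (√(w i) * (g i x - g i y)) ^ 2 = N x y := by
      rw [h]
      refine Finset.sum_congr rfl fun i _ => ?_
      rw [mul_pow, Real.sq_sqrt (hw i)]
    have e2 : ∀ ε : ι → Bool, ∑ i, sgn1 (ε i) * (√(w i) * (g i x - g i y)) =
        (∑ i, sgn1 (ε i) * (√(w i) * g i x)) - ∑ i, sgn1 (ε i) * (√(w i) * g i y) := by
      intro ε
      rw [← Finset.sum_sub_distrib]
      refine Finset.sum_congr rfl fun i _ => ?_
      ring
    rw [e1] at hb
    simp only [e2] at hb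
    exact hb

end Vale.Agent.P235
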