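import Vale.Agent.P235.H105.PeelSum
import Vale.Agent.P235.H105.Sq

/-!
# Removal of shortest paths in `k` rounds: the square root bound
-/

namespace Vale.Agent.P235

open Finset

/-- a pointed `ℓ₂` family `N` (squared distances) and a pointed `L₁` semimetric `σ` which are
bounded by the edge lengths and by `H`, and such that one of them separates `x`, `y` if they are at
distance at least `8 δ` and `H ≥ δ` at both -/
def Pointed2 {V : Type} (G : SimpleGraph V) (ℓ : Sym2 V → ℝ) (H : V → ℝ) (k K : ℝ) : Prop :=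
  ∃ N σ : Option V → Option V → ℝ, IsSq N ∧ IsL1 σ ∧
    (∀ u v, G.Adj u v → N (some u) (some v) ≤ k * ℓ s(u, v) ^ 2 ∧
      σ (some u) (some v) ≤ K * ℓ s(u, v)) ∧
    (∀ v, N (some v) none ≤ k * H v ^ 2 ∧ σ (some v) none ≤ K * H v) ∧
    (∀ v, H v ^ 2 ≤ 9000000 * N (some v) none ∨ H v ≤ 2000 * σ (some v) none) ∧
    ∀ x y δ, 0 < δ → δ ≤ H x → δ ≤ H y → 8 * δ ≤ pathDist G ℓ x y →
      δ ^ 2 ≤ 9000000 * N (some x) (some y) ∨ δ ≤ 2000 * σ (some x) (some y)

section step2

variable {V : Type} [Finite V] {G : SimpleGraph V} {ℓ : Sym2 V → ℝ}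

omit [Finite V] in
theorem pointed2_of_pointed {H : V → ℝ} {K : ℝ} (h : Pointed G ℓ H K) :
    Pointed2 G ℓ H 0 K := by
  obtain ⟨σ, h1, h2, h3, h4, h5⟩ := h
  refine ⟨fun _ _ => 0, σ, IsSq.zero, h1, fun u v huv => ⟨by simp, h2 u v huv⟩,
    fun v => ⟨by simp, h3 v⟩, fun v => Or.inr (h4 v), fun x y δ _ hx hy hxy =>
      Or.inr (h5 x y δ hx hy hxy)⟩

omit [Finite V] in
/-- weighted Cauchy–Schwarz for probability weights -/
theorem wsum_sq {ι : Type} [Fintype ι] {w a : ι → ℝ} (hw : ∀ i, 0 ≤ w i) (hs : ∑ i, w i = 1) :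
    (∑ i, w i * a i) ^ 2 ≤ ∑ i, w i * a i ^ 2 := by
  have h := Finset.sum_mul_sq_le_sq_mul_sq Finset.univ (fun i => √(w i)) (fun i => √(w i) * a i)
  have e1 : ∀ i, √(w i) * (√(w i) * a i) = w i * a i := fun i => by
    rw [← mul_assoc, Real.mul_self_sqrt (hw i)]
  have e2 : ∀ i, √(w i) ^ 2 = w i := fun i => Real.sq_sqrt (hw i)
  have e3 : ∀ i, (√(w i) * a i) ^ 2 = w i * a i ^ 2 := fun i => by
    rw [mul_pow, Real.sq_sqrt (hw i)]
  simp only [e1, e2, e3, hs, one_mul] at h
  exact h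

/-- one round -/
theorem pointed2_step (hc : G.Connected) (hℓ : ∀ e ∈ G.edgeSet, 0 < ℓ e) {H : V → ℝ}
    (hH : ∀ v, 0 < H v) (hHl : ∀ u v, G.Adj u v → |H u - H v| ≤ ℓ s(u, v)) {x0 y0 : V}
    (q : G.Walk x0 y0) (hq : (q.edges.map ℓ).sum = pathDist G ℓ x0 y0) {k K : ℝ} (hk : 0 ≤ k)
    (hK : 0 ≤ K)
    (ih : ∀ u ∉ q.support, ∀ H' : compSet G {v | v ∈ q.support} u → ℝ, (∀ v, 0 < H' v) →
      (∀ a b, (G.induce (compSet G {v | v ∈ q.support} u)).Adj a b →
        |H' a - H' b| ≤ ℓ s(a.1, b.1)) →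
      Pointed2 (G.induce (compSet G {v | v ∈ q.support} u)) (fun e => ℓ (e.map Subtype.val))
        H' k K) :
    Pointed2 G ℓ H (k + 2) K := by
  classical
  have := Fintype.ofFinite V
  have hd := pathDist_isMet hc hℓ
  set P : Set V := {v | v ∈ q.support} with hP
  obtain ⟨φ, hφ0, hφH, hφP, hφpos, hφl, hφn⟩ := exists_barrier hℓ hH hHl P
  obtain ⟨ν, hν⟩ := exists_near (X := P) hc hℓ ⟨x0, q.start_mem_support⟩
  have hH0 : ∀ v, 0 ≤ H v := fun v => (hH v).le
  obtain ⟨ι1, _, w1, g1, hw1, hs1, hb1, hm1, hl1, -, hn1⟩ := fan' fan (fun _ : V => ())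
    (fun v => pathDist G ℓ x0 v) H hH0
  obtain ⟨ι2, _, w2, g2, hw2, hs2, hb2, hm2, hl2, -, -⟩ := fan' fan (fun _ : V => ())
    (fun v => pathDist G ℓ v (ν v)) H hH0
  -- components
  let Q := Quotient (compSetoid G P)
  have : Fintype Q := Fintype.ofFinite Q
  have hQ : ∀ c : Q, Pointed2 (G.induce (compSet G P c.out.1)) (fun e => ℓ (e.map Subtype.val))
      (fun v => φ v.1) k K := fun c => ih c.out.1 c.out.2 (fun v => φ v.1)
      (fun v => hφpos v.1 (ReachOff.right v.2)) (fun a b hab => hφl a.1 b.1 hab)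
  choose M r hMI hrI hr1 hr2 hr3 hr4 using hQ
  have hmk : ∀ (v : V) (hv : v ∉ P), v ∈ compSet G P (⟦⟨v, hv⟩⟧ : Q).out.1 := by
    intro v hv
    exact Quotient.mk_out (s := compSetoid G P) ⟨v, hv⟩
  have huniq : ∀ (c : Q) (v : V) (hv : v ∉ P), v ∈ compSet G P c.out.1 → c = ⟦⟨v, hv⟩⟧ := by
    intro c v hv h
    have h1 : (⟦c.out⟧ : Q) = ⟦⟨v, hv⟩⟧ := Quotient.sound h
    rwa [Quotient.out_eq] at h1
  have hrX : ∀ (c : Q) (v : V), v ∈ P → v ∉ compSet G P c.out.1 := fun c v hv h =>
    ReachOff.right h hv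
  let e : ∀ c : Q, Option V → Option (compSet G P c.out.1) := fun c a =>
    a.elim none fun v => if h : v ∈ compSet G P c.out.1 then some ⟨v, h⟩ else none
  have he0 : ∀ c, e c none = none := fun c => rfl
  have he1 : ∀ c v (h : v ∈ compSet G P c.out.1), e c (some v) = some ⟨v, h⟩ := by
    intro c v h
    exact dif_pos h
  have he2 : ∀ c v, v ∉ compSet G P c.out.1 → e c (some v) = none := by
    intro c v h
    exact dif_neg h
  let N1 : Option V → Option V → ℝ := fun a b =>
    ∑ i, w1 i * (a.elim 0 (g1 i) - b.elim 0 (g1 i)) ^ 2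
  let N2 : Option V → Option V → ℝ := fun a b =>
    ∑ i, w2 i * (a.elim 0 (g2 i) - b.elim 0 (g2 i)) ^ 2
  let N3 : Option V → Option V → ℝ := fun a b => ∑ c : Q, M c (e c a) (e c b)
  let G3 : Option V → Option V → ℝ := fun a b => ∑ c : Q, r c (e c a) (e c b)
  have hN1 : IsSq N1 := ⟨ι1, inferInstance, w1, fun i a => a.elim 0 (g1 i), hw1, fun _ _ => rfl⟩
  have hN2 : IsSq N2 := ⟨ι2, inferInstance, w2, fun i a => a.elim 0 (g2 i), hw2, fun _ _ => rfl⟩
  have hN3 : IsSq N3 := IsSq.sum Finset.univ (fun c a b => M c (e c a) (e c b))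
    fun c _ => (hMI c).comap (e c)
  have hG3 : IsL1 G3 := IsL1.sum Finset.univ (fun c a b => r c (e c a) (e c b))
    fun c _ => (hrI c).comap (e c)
  have hn1' : ∀ a b, 0 ≤ N1 a b := hN1.nonneg
  have hn2' : ∀ a b, 0 ≤ N2 a b := hN2.nonneg
  have hn3' : ∀ a b, 0 ≤ N3 a b := hN3.nonneg
  have hn4' : ∀ a b, 0 ≤ G3 a b := hG3.nonneg
  have htermM : ∀ (c : Q) a b, 0 ≤ M c (e c a) (e c b) := fun c a b => (hMI c).nonneg _ _
  have hterm : ∀ (c : Q) a b, 0 ≤ r c (e c a) (e c b) := fun c a b => (hrI c).nonneg _ _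
  have hsingleM : ∀ (c : Q) a b, M c (e c a) (e c b) ≤ N3 a b := fun c a b =>
    Finset.single_le_sum (f := fun c => M c (e c a) (e c b)) (fun c _ => htermM c a b)
      (Finset.mem_univ c)
  have hsingle : ∀ (c : Q) a b, r c (e c a) (e c b) ≤ G3 a b := fun c a b =>
    Finset.single_le_sum (f := fun c => r c (e c a) (e c b)) (fun c _ => hterm c a b)
      (Finset.mem_univ c)
  refine ⟨fun a b => (N1 a b + N2 a b) + N3 a b, G3, (hN1.add hN2).add hN3, hG3, ?_, ?_, ?_, ?_⟩
  · -- edges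
    intro u v huv
    have hl0 : 0 < ℓ s(u, v) := hℓ _ huv
    have hadj := pathDist_adj hℓ huv
    have hsq : ∀ a : ℝ, |a| ≤ ℓ s(u, v) → a ^ 2 ≤ ℓ s(u, v) ^ 2 := fun a ha => by
      rw [← sq_abs a]
      exact pow_le_pow_left₀ (abs_nonneg a) ha 2
    have f1 : N1 (some u) (some v) ≤ ℓ s(u, v) ^ 2 := by
      have : ∀ i ∈ Finset.univ, w1 i * (g1 i u - g1 i v) ^ 2 ≤ w1 i * ℓ s(u, v) ^ 2 := by
        intro i _
        apply mul_le_mul_of_nonneg_left _ (hw1 i)
        apply hsq
        refine (hm1 i u v rfl).trans (max_le ?_ (hHl u v huv))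
        have a1 := hd.tri x0 u v
        have a2 := hd.tri x0 v u
        rw [hd.symm v u] at a2
        rw [abs_le]; constructor <;> linarith
      refine (Finset.sum_le_sum this).trans ?_
      rw [← Finset.sum_mul, hs1, one_mul]
    have f2 : N2 (some u) (some v) ≤ ℓ s(u, v) ^ 2 := by
      have : ∀ i ∈ Finset.univ, w2 i * (g2 i u - g2 i v) ^ 2 ≤ w2 i * ℓ s(u, v) ^ 2 := by
        intro i _
        apply mul_le_mul_of_nonneg_left _ (hw2 i)
        apply hsq
        refine (hm2 i u v rfl).trans (max_le ?_ (hHl u v huv))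
        have a1 := hν.lip hc hℓ u v
        have a2 := hν.lip hc hℓ v u
        rw [hd.symm v u] at a2
        rw [abs_le]; constructor <;> linarith
      refine (Finset.sum_le_sum this).trans ?_
      rw [← Finset.sum_mul, hs2, one_mul]
    have hone : ∀ u v, u ∉ P → G.Adj u v → N3 (some u) (some v) ≤ k * ℓ s(u, v) ^ 2 ∧
        G3 (some u) (some v) ≤ K * ℓ s(u, v) := by
      intro u v hu huv
      have hz : ∀ c ∈ Finset.univ, c ≠ (⟦⟨u, hu⟩⟧ : Q) →
          e c (some u) = none ∧ e c (some v) = none := by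
        intro c _ hc
        have h1 : u ∉ compSet G P c.out.1 := fun h => hc (huniq c u hu h)
        have h2 : v ∉ compSet G P c.out.1 := fun h =>
          h1 (ReachOff.trans h (ReachOff.adj (ReachOff.right h) hu huv.symm))
        exact ⟨he2 c u h1, he2 c v h2⟩
      have hsumM : N3 (some u) (some v) = M ⟦⟨u, hu⟩⟧ (e _ (some u)) (e _ (some v)) := by
        refine Finset.sum_eq_single _ (fun c hc1 hc => ?_) (fun h => absurd (Finset.mem_univ _) h)
        rw [(hz c hc1 hc).1, (hz c hc1 hc).2]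
        exact (hMI c).self _
      have hsum : G3 (some u) (some v) = r ⟦⟨u, hu⟩⟧ (e _ (some u)) (e _ (some v)) := by
        refine Finset.sum_eq_single _ (fun c hc1 hc => ?_) (fun h => absurd (Finset.mem_univ _) h)
        rw [(hz c hc1 hc).1, (hz c hc1 hc).2]
        exact (hrI c).self _
      rw [hsum, hsumM, he1 _ u (hmk u hu)]
      by_cases hv : v ∈ P
      · rw [he2 _ v (hrX _ v hv)]
        have h1 := hφl u v huv
        rw [hφP v hv, sub_zero] at h1
        have h2 := (le_abs_self _).trans h1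
        have h3 := hr2 (⟦⟨u, hu⟩⟧ : Q) ⟨u, hmk u hu⟩
        refine ⟨h3.1.trans (mul_le_mul_of_nonneg_left ?_ hk),
          h3.2.trans (mul_le_mul_of_nonneg_left h2 hK)⟩
        exact pow_le_pow_left₀ (hφ0 u) h2 2
      · have hvK : v ∈ compSet G P (⟦⟨u, hu⟩⟧ : Q).out.1 :=
          ReachOff.trans (hmk u hu) (ReachOff.adj hu hv huv)
        rw [he1 _ v hvK]
        exact hr1 _ _ _ huv
    have f3 : N3 (some u) (some v) ≤ k * ℓ s(u, v) ^ 2 ∧
        G3 (some u) (some v) ≤ K * ℓ s(u, v) := by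
      by_cases hu : u ∈ P
      · by_cases hv : v ∈ P
        · have hzM : N3 (some u) (some v) = 0 := Finset.sum_eq_zero fun c _ => by
            rw [he2 c u (hrX c u hu), he2 c v (hrX c v hv)]
            exact (hMI c).self _
          have hz : G3 (some u) (some v) = 0 := Finset.sum_eq_zero fun c _ => by
            rw [he2 c u (hrX c u hu), he2 c v (hrX c v hv)]
            exact (hrI c).self _
          rw [hz, hzM]
          constructor <;> positivity
        · rw [hG3.symm, hN3.symm, Sym2.eq_swap]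
          exact hone v u hv huv.symm
      · exact hone u v hu huv
    refine ⟨?_, f3.2⟩
    show N1 (some u) (some v) + N2 (some u) (some v) + N3 (some u) (some v) ≤ _
    have := f3.1
    linarith
  · -- upper bound at the base point
    intro v
    have hsq : ∀ a : ℝ, |a| ≤ H v → a ^ 2 ≤ H v ^ 2 := fun a ha => by
      rw [← sq_abs a]
      exact pow_le_pow_left₀ (abs_nonneg a) ha 2
    have f1 : N1 (some v) none ≤ H v ^ 2 := by
      have : ∀ i ∈ Finset.univ, w1 i * (g1 i v - 0) ^ 2 ≤ w1 i * H v ^ 2 := by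
        intro i _
        apply mul_le_mul_of_nonneg_left _ (hw1 i)
        rw [sub_zero]; exact hsq _ (hb1 i v)
      refine (Finset.sum_le_sum this).trans ?_
      rw [← Finset.sum_mul, hs1, one_mul]
    have f2 : N2 (some v) none ≤ H v ^ 2 := by
      have : ∀ i ∈ Finset.univ, w2 i * (g2 i v - 0) ^ 2 ≤ w2 i * H v ^ 2 := by
        intro i _
        apply mul_le_mul_of_nonneg_left _ (hw2 i)
        rw [sub_zero]; exact hsq _ (hb2 i v)
      refine (Finset.sum_le_sum this).trans ?_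
      rw [← Finset.sum_mul, hs2, one_mul]
    have f3 : N3 (some v) none ≤ k * H v ^ 2 ∧ G3 (some v) none ≤ K * H v := by
      by_cases hv : v ∈ P
      · have hzM : N3 (some v) none = 0 := Finset.sum_eq_zero fun c _ => by
          rw [he2 c v (hrX c v hv), he0]
          exact (hMI c).self _
        have hz : G3 (some v) none = 0 := Finset.sum_eq_zero fun c _ => by
          rw [he2 c v (hrX c v hv), he0]
          exact (hrI c).self _
        rw [hz, hzM]
        exact ⟨mul_nonneg hk (sq_nonneg _), mul_nonneg hK (hH0 v)⟩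
      · have hz0 : ∀ c ∈ Finset.univ, c ≠ (⟦⟨v, hv⟩⟧ : Q) → e c (some v) = none := by
          intro c _ hc
          exact he2 c v fun h => hc (huniq c v hv h)
        have hsumM : N3 (some v) none = M ⟦⟨v, hv⟩⟧ (e _ (some v)) (e _ none) := by
          refine Finset.sum_eq_single _ (fun c hc1 hc => ?_)
            (fun h => absurd (Finset.mem_univ _) h)
          rw [hz0 c hc1 hc, he0]
          exact (hMI c).self _
        have hsum : G3 (some v) none = r ⟦⟨v, hv⟩⟧ (e _ (some v)) (e _ none) := by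
          refine Finset.sum_eq_single _ (fun c hc1 hc => ?_)
            (fun h => absurd (Finset.mem_univ _) h)
          rw [hz0 c hc1 hc, he0]
          exact (hrI c).self _
        rw [hsum, hsumM, he1 _ v (hmk v hv), he0]
        have h3 := hr2 (⟦⟨v, hv⟩⟧ : Q) ⟨v, hmk v hv⟩
        exact ⟨h3.1.trans (mul_le_mul_of_nonneg_left (pow_le_pow_left₀ (hφ0 v) (hφH v) 2) hk),
          h3.2.trans (mul_le_mul_of_nonneg_left (hφH v) hK)⟩
    refine ⟨?_, f3.2⟩
    show N1 (some v) none + N2 (some v) none + N3 (some v) none ≤ _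
    have := f3.1
    linarith
  · -- lower bound at the base point
    intro v
    left
    have f1 : 1 / 2000 * H v ≤ ∑ i, w1 i * |g1 i v - 0| := by
      refine (hn1 v).trans (le_of_eq ?_)
      refine Finset.sum_congr rfl fun i _ => ?_
      rw [sub_zero]
    have f2 := wsum_sq (a := fun i => |g1 i v - 0|) hw1 hs1
    have f3 : (1 / 2000 * H v) ^ 2 ≤ (∑ i, w1 i * |g1 i v - 0|) ^ 2 :=
      pow_le_pow_left₀ (mul_nonneg (by norm_num) (hH0 v)) f1 2
    have f4 : ∑ i, w1 i * |g1 i v - 0| ^ 2 = N1 (some v) none := by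
      refine Finset.sum_congr rfl fun i _ => ?_
      rw [sq_abs]
      rfl
    have := hn2' (some v) none
    have := hn3' (some v) none
    show H v ^ 2 ≤ 9000000 * (N1 (some v) none + N2 (some v) none + N3 (some v) none)
    have f5 := f3.trans (f2.trans (le_of_eq f4))
    have f6 : (1 / 2000 * H v) ^ 2 = H v ^ 2 / 4000000 := by ring
    rw [f6] at f5
    have := hn1' (some v) none
    linarith
  · -- separation
    intro x y δ hδ hx hy hxy
    show δ ^ 2 ≤ 9000000 * (N1 (some x) (some y) + N2 (some x) (some y) + N3 (some x) (some y)) ∨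
      δ ≤ 2000 * G3 (some x) (some y)
    have p1 := hn1' (some x) (some y)
    have p2 := hn2' (some x) (some y)
    have p3 := hn3' (some x) (some y)
    have p4 := hn4' (some x) (some y)
    have key : ∀ a b, δ ≤ H a → δ ≤ H b → 8 * δ ≤ pathDist G ℓ a b → φ a < δ →
        δ ^ 2 ≤ 9000000 * (N1 (some a) (some b) + N2 (some a) (some b)) := by
      intro a b ha hb hab hφa
      obtain ⟨z, hz, hzf⟩ := hφn a (hφa.trans_le ha)
      have haz : pathDist G ℓ a z < δ := by
        have h1 := hzf (fun v => pathDist G ℓ v z) (fun u v huv => by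
          have a1 := hd.tri u v z
          have a2 := hd.tri v u z
          rw [hd.symm v u] at a2
          have a3 := pathDist_adj hℓ huv
          rw [abs_le]; constructor <;> linarith)
        rw [hd.self, sub_zero] at h1
        exact ((le_abs_self _).trans h1).trans_lt hφa
      have s1 : 0 ≤ ∑ i, w1 i * |g1 i a - g1 i b| :=
        Finset.sum_nonneg fun i _ => mul_nonneg (hw1 i) (abs_nonneg _)
      have s2 : 0 ≤ ∑ i, w2 i * |g2 i a - g2 i b| :=
        Finset.sum_nonneg fun i _ => mul_nonneg (hw2 i) (abs_nonneg _)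
      have h1 := fans_separate hc hℓ q hq hν hδ ha hb hab hz haz (hl1 a b rfl) (hl2 a b rfl) s1 s2
      have c1 := wsum_sq (a := fun i => |g1 i a - g1 i b|) hw1 hs1
      have c2 := wsum_sq (a := fun i => |g2 i a - g2 i b|) hw2 hs2
      have d1 : ∑ i, w1 i * |g1 i a - g1 i b| ^ 2 = N1 (some a) (some b) := by
        refine Finset.sum_congr rfl fun i _ => ?_
        rw [sq_abs]
        rfl
      have d2 : ∑ i, w2 i * |g2 i a - g2 i b| ^ 2 = N2 (some a) (some b) := by
        refine Finset.sum_congr rfl fun i _ => ?_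
        rw [sq_abs]
        rfl
      rw [d1] at c1
      rw [d2] at c2
      set S1 := ∑ i, w1 i * |g1 i a - g1 i b|
      set S2 := ∑ i, w2 i * |g2 i a - g2 i b|
      have h2 : δ ^ 2 ≤ (2000 * (S1 + S2)) ^ 2 := pow_le_pow_left₀ hδ.le h1 2
      nlinarith [sq_nonneg (S1 - S2)]
    by_cases hφx : δ ≤ φ x
    · by_cases hφy : δ ≤ φ y
      · have hxP : x ∉ P := fun h => by rw [hφP x h] at hφx; linarith
        have hyP : y ∉ P := fun h => by rw [hφP y h] at hφy; linarith
        have h3 := hsingle ⟦⟨x, hxP⟩⟧ (some x) (some y)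
        have h3' := hsingleM ⟦⟨x, hxP⟩⟧ (some x) (some y)
        rw [he1 _ x (hmk x hxP)] at h3 h3'
        by_cases hyK : y ∈ compSet G P (⟦⟨x, hxP⟩⟧ : Q).out.1
        · rw [he1 _ y hyK] at h3 h3'
          rcases hr4 ⟦⟨x, hxP⟩⟧ ⟨x, hmk x hxP⟩ ⟨y, hyK⟩ δ hδ hφx hφy
            (hxy.trans (pathDist_comp_ge hc hℓ (comp_connected (⟦⟨x, hxP⟩⟧ : Q).out.2)
              ⟨x, hmk x hxP⟩ ⟨y, hyK⟩)) with h4 | h4
          · left; linarith
          · right; linarith
        · rw [he2 _ y hyK] at h3 h3'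
          rcases hr3 ⟦⟨x, hxP⟩⟧ ⟨x, hmk x hxP⟩ with h4 | h4
          · left
            have h5 : φ x ^ 2 ≤ 9000000 * M ⟦⟨x, hxP⟩⟧ (some ⟨x, hmk x hxP⟩) none := h4
            have h6 : δ ^ 2 ≤ φ x ^ 2 := pow_le_pow_left₀ hδ.le hφx 2
            linarith
          · right
            have h5 : φ x ≤ 2000 * r ⟦⟨x, hxP⟩⟧ (some ⟨x, hmk x hxP⟩) none := h4
            linarith
      · push Not at hφy
        left
        have h1 := key y x hy hx (by rw [hd.symm]; exact hxy) hφy
        rw [hN1.symm, hN2.symm] at h1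
        linarith
    · push Not at hφx
      left
      have h1 := key x y hx hy hxy hφx
      linarith

end step2

section main2

theorem peel_pointed2 {C : ℝ} (hC : 0 < C) {k : ℕ} {V : Type} {G : SimpleGraph V}
    {ℓ : Sym2 V → ℝ} (h : Peel C k G ℓ) : Finite V → G.Connected →
      (∀ e ∈ G.edgeSet, 0 < ℓ e) → ∀ H : V → ℝ,
      (∀ v, 0 < H v) → (∀ u v, G.Adj u v → |H u - H v| ≤ ℓ s(u, v)) →
      Pointed2 G ℓ H (2 * k) (96 * C + 112) := by
  induction h with
  | leaf hD =>
    intro _ hc hℓ H hH hHl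
    have := pointed2_of_pointed (pointed_leaf hC hc hℓ hH hHl hD)
    simpa using this
  | @lift k V G ℓ _ ih =>
    intro hfin hc hℓ H hH hHl
    obtain ⟨N, σ, h0, h1, h2, h3, h4, h5⟩ := ih hfin hc hℓ H hH hHl
    refine ⟨N, σ, h0, h1, ?_, ?_, h4, h5⟩
    · intro u v huv
      refine ⟨(h2 u v huv).1.trans (mul_le_mul_of_nonneg_right ?_ (sq_nonneg _)), (h2 u v huv).2⟩
      push_cast
      linarith
    · intro v
      refine ⟨(h3 v).1.trans (mul_le_mul_of_nonneg_right ?_ (sq_nonneg _)), (h3 v).2⟩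
      push_cast
      linarith
  | @path k V G ℓ x y q hq _ ih =>
    intro hfin hc hℓ H hH hHl
    have := pointed2_step hc hℓ hH hHl q hq (k := 2 * k) (K := 96 * C + 112) (by positivity)
      (by positivity)
      (fun u hu H' hH' hHl' => ih u hu inferInstance (comp_connected hu)
        (induce_pos hℓ _) H' hH' hHl')
    have e : 2 * (k : ℝ) + 2 = 2 * ((k + 1 : ℕ) : ℝ) := by
      push_cast; ring
    rwa [e] at this

/-- **`k` rounds of removing shortest paths, leaves of distortion `C`: distortion `O(√k + C)`** -/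
theorem peel_embeds2 {C : ℝ} (hC : 0 < C) {k : ℕ} {V : Type} [Finite V] {G : SimpleGraph V}
    {ℓ : Sym2 V → ℝ} (hc : G.Connected) (hℓ : ∀ e ∈ G.edgeSet, 0 < ℓ e) (h : Peel C k G ℓ) :
    EmbedsL1 (pathDist G ℓ) (48000 * √(2 * k) + 16000 * (96 * C + 112)) := by
  have := Fintype.ofFinite V
  have hd := pathDist_isMet hc hℓ
  obtain ⟨R, hR0, hR⟩ : ∃ R : ℝ, 0 < R ∧ ∀ x y, pathDist G ℓ x y ≤ R := by
    refine ⟨∑ x, ∑ y, pathDist G ℓ x y + 1, ?_, ?_⟩
    · have : 0 ≤ ∑ x, ∑ y, pathDist G ℓ x y :=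
        Finset.sum_nonneg fun x _ => Finset.sum_nonneg fun y _ => hd.nonneg x y
      linarith
    intro x y
    have e1 : pathDist G ℓ x y ≤ ∑ y, pathDist G ℓ x y :=
      Finset.single_le_sum (f := fun y => pathDist G ℓ x y) (fun y _ => hd.nonneg x y)
        (Finset.mem_univ y)
    have e2 : ∑ y, pathDist G ℓ x y ≤ ∑ x, ∑ y, pathDist G ℓ x y :=
      Finset.single_le_sum (f := fun x => ∑ y, pathDist G ℓ x y)
        (fun x _ => Finset.sum_nonneg fun y _ => hd.nonneg x y) (Finset.mem_univ x)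
    linarith
  obtain ⟨N, σ, hN, h1, h2, -, -, h5⟩ := peel_pointed2 hC h inferInstance hc hℓ (fun _ => R)
    (fun _ => hR0) (fun u v huv => by
      rw [sub_self, abs_zero]; exact (hℓ _ huv).le)
  obtain ⟨F, hF, hFN⟩ := hN.toL1
  have hK : 0 < 48000 * √(2 * (k : ℝ)) + 16000 * (96 * C + 112) := by positivity
  have hI := ((hF.comap (some : V → Option V)).smul (by norm_num : (0 : ℝ) ≤ 48000)).add
    ((h1.comap (some : V → Option V)).smul (by norm_num : (0 : ℝ) ≤ 16000))
  refine hI.embeds (fun x y => ?_) (pathDist_semi hc hK (fun x => hI.self x)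
    (fun x y z => hI.tri x y z) fun u v huv => ?_)
  · show pathDist G ℓ x y ≤ 48000 * F (some x) (some y) + 16000 * σ (some x) (some y)
    have nF := hF.nonneg (some x) (some y)
    have nσ := h1.nonneg (some x) (some y)
    rcases (hd.nonneg x y).eq_or_lt with h0 | h0
    · linarith
    rcases h5 x y (pathDist G ℓ x y / 8) (by linarith) (by linarith [hR x y])
      (by linarith [hR x y]) (by linarith) with h6 | h6
    · have h7 := (hFN (some x) (some y)).2
      have h8 : pathDist G ℓ x y / 8 ≤ 3000 * √(N (some x) (some y)) := by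
        have e : 3000 * √(N (some x) (some y)) = √(9000000 * N (some x) (some y)) := by
          rw [Real.sqrt_mul (by norm_num), show (9000000 : ℝ) = 3000 ^ 2 by norm_num,
            Real.sqrt_sq (by norm_num)]
        rw [e]
        exact Real.le_sqrt_of_sq_le h6
      linarith
    · linarith
  · have hl0 := hℓ s(u, v) huv
    have h6 := h2 u v huv
    have h7 := (hFN (some u) (some v)).1
    have h8 : √(N (some u) (some v)) ≤ √(2 * (k : ℝ)) * ℓ s(u, v) := by
      refine (Real.sqrt_le_sqrt h6.1).trans (le_of_eq ?_)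
      rw [Real.sqrt_mul (by positivity), Real.sqrt_sq hl0.le]
    show 48000 * F (some u) (some v) + 16000 * σ (some u) (some v) ≤ _
    have h9 := h6.2
    nlinarith

/-- the constant -/
theorem peel_const2 {C : ℝ} (hC : 1 ≤ C) (k : ℕ) :
    48000 * √(2 * k) + 16000 * (96 * C + 112) ≤ 3328000 * (√k + C) := by
  have h1 : √(2 * (k : ℝ)) ≤ 2 * √k := by
    rw [Real.sqrt_mul (by norm_num)]
    have h2 : √(2 : ℝ) ≤ 2 := by
      rw [Real.sqrt_le_left (by norm_num)]
      norm_num
    exact mul_le_mul_of_nonneg_right h2 (Real.sqrt_nonneg _)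
  have h3 := Real.sqrt_nonneg (k : ℝ)
  linarith

/-- **`k` rounds of removing shortest paths** -/
theorem peel_distortion2 (k : ℕ) {C : ℝ} (hC : 1 ≤ C) (V : Type) [Finite V] (G : SimpleGraph V)
    (hc : G.Connected) (h : ∀ ℓ : Sym2 V → ℝ, (∀ e ∈ G.edgeSet, 0 < ℓ e) → Peel C k G ℓ) :
    DistortionLE G (3328000 * (√k + C)) := by
  intro ℓ hℓ
  have hd := pathDist_isMet hc hℓ
  obtain ⟨Ω, m, μ, f, hf⟩ := peel_embeds2 (one_pos.trans_le hC) hc hℓ (h ℓ hℓ)
  exact ⟨Ω, m, μ, f, fun x y => ⟨(hf x y).1, (hf x y).2.trans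
    (mul_le_mul_of_nonneg_right (peel_const2 hC k) (hd.nonneg x y))⟩⟩

/-- **Path decompositions with bags of any size, adhesion at most `w`, and bags whose components
satisfy `c₁ ≤ C`: `c₁(G) ≤ A (√w + C)`.** -/
theorem pathSum_sqrt (w : ℕ) {C : ℝ} (hC : 1 ≤ C) (V : Type) [Finite V] (G : SimpleGraph V)
    (hc : G.Connected) (n : ℕ) (B : Fin n → Set V) (hB : PathDec G w B)
    (hD : ∀ i, ∀ u ∈ B i, DistortionLE (G.induce (compSet G (B i)ᶜ u)) C) :
    DistortionLE G (3328000 * (√w + C)) :=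
  peel_distortion2 w hC V G hc fun ℓ hℓ =>
    peel_of_pathSum w V G hc n B ⟨hB.cover, hB.edge, hB.conv⟩ hB.adh hD ℓ hℓ

end main2

end Vale.Agent.P235
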