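import Vale.Agent.P235.H105.Peel

/-!
# Path decompositions with large bags: distortion additive in the adhesion
-/

namespace Vale.Agent.P235

open SimpleGraph

/-- the adhesion sets of a path decomposition are emptied in `p` rounds -/
theorem peel_of_pathSum {C : ℝ} (p : ℕ) : ∀ (V : Type) [Finite V]
    (G : SimpleGraph V), G.Connected → ∀ (n : ℕ) (B : Fin n → Set V), PDec G B →
    (∀ i j : Fin n, j.val = i.val + 1 → (B i ∩ B j).ncard ≤ p) →
    (∀ i, ∀ u ∈ B i, DistortionLE (G.induce (compSet G (B i)ᶜ u)) C) →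
    ∀ ℓ : Sym2 V → ℝ, (∀ e ∈ G.edgeSet, 0 < ℓ e) → Peel C p G ℓ := by
  classical
  induction p with
  | zero =>
    intro V _ G hc n B hB hw hD ℓ hℓ
    obtain ⟨i, hi⟩ := hB.one hc fun i j hij => by
      have := hw i j hij
      rw [Nat.le_zero, Set.ncard_eq_zero (Set.toFinite _)] at this
      exact this
    obtain ⟨x⟩ := hc.nonempty
    have hx : x ∈ B i := by rw [hi]; trivial
    have hmem : ∀ v, v ∈ compSet G (B i)ᶜ x := by
      intro v
      obtain ⟨q⟩ := hc x v
      exact ⟨q, fun a _ => by rw [hi]; simp⟩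
    exact Peel.leaf ((hD i x hx).emb (fun v => ⟨v, hmem v⟩) (fun a b h => congrArg Subtype.val h)
      (fun a b h => h) (comp_connected (by simpa using hx)) hc)
  | succ p ih =>
    intro V _ G hc n B hB hw hD ℓ hℓ
    obtain ⟨v0⟩ := hc.nonempty
    obtain ⟨m0, hm0⟩ := hB.cover v0
    obtain ⟨⟨⟨x, i0⟩, hx⟩, hxmin⟩ : ∃ a : {a : V × Fin n // a.1 ∈ B a.2},
        ∀ b : {a : V × Fin n // a.1 ∈ B a.2}, a.1.2 ≤ b.1.2 := by
      have : Nonempty {a : V × Fin n // a.1 ∈ B a.2} := ⟨⟨(v0, m0), hm0⟩⟩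
      exact Finite.exists_min fun a : {a : V × Fin n // a.1 ∈ B a.2} => a.1.2
    obtain ⟨⟨⟨y, j0⟩, hy⟩, hymax⟩ : ∃ a : {a : V × Fin n // a.1 ∈ B a.2},
        ∀ b : {a : V × Fin n // a.1 ∈ B a.2}, b.1.2 ≤ a.1.2 := by
      have : Nonempty {a : V × Fin n // a.1 ∈ B a.2} := ⟨⟨(v0, m0), hm0⟩⟩
      exact Finite.exists_max fun a : {a : V × Fin n // a.1 ∈ B a.2} => a.1.2
    obtain ⟨q, hq⟩ := exists_geodesic hc hℓ x y
    refine Peel.path q hq fun u hu => ?_
    set X : Set V := {v | v ∈ q.support} with hX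
    have huX : u ∉ X := hu
    set A := compSet G X u with hA
    have hAc : (G.induce A).Connected := comp_connected huX
    refine ih A (G.induce A) hAc n _ (hB.comap A) (fun i j hij => ?_) (fun i a ha => ?_) _
      (induce_pos hℓ _)
    · by_cases hne : (B i ∩ B j).Nonempty
      · obtain ⟨z, hzi, hzj⟩ := hne
        have hle : i ≤ j := Fin.le_def.mpr (by omega)
        have h1 : i0 ≤ i := hxmin ⟨(z, i), hzi⟩
        have h2 : j ≤ j0 := hymax ⟨(z, j), hzj⟩
        obtain ⟨t, ht, htB⟩ := hB.hits hle q hy h2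
          (fun m => by
            rcases Nat.lt_or_ge i.val m.val with h | h
            · exact Or.inr (Fin.le_def.mpr (by omega))
            · exact Or.inl (Fin.le_def.mpr h)) i0 hx h1
        have hsub : Subtype.val '' ({v : A | v.1 ∈ B i} ∩ {v : A | v.1 ∈ B j}) ⊆
            (B i ∩ B j) \ {t} := by
          rintro _ ⟨v, ⟨hv1, hv2⟩, rfl⟩
          refine ⟨⟨hv1, hv2⟩, fun h => ?_⟩
          have h3 : v.1 = t := h
          exact ReachOff.right (show ReachOff G X u v.1 from v.2) (by rw [h3]; exact ht)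
        have h4 := Set.ncard_le_ncard hsub (Set.toFinite _)
        rw [Set.ncard_image_of_injective _ Subtype.val_injective] at h4
        have h5 := Set.ncard_sdiff_singleton_add_one htB (Set.toFinite _)
        have h6 := hw i j hij
        omega
      · rw [Set.not_nonempty_iff_eq_empty] at hne
        have : ({v : A | v.1 ∈ B i} ∩ {v : A | v.1 ∈ B j}) = ∅ := by
          ext v
          constructor
          · rintro ⟨h1, h2⟩
            have : v.1 ∈ B i ∩ B j := ⟨h1, h2⟩
            rw [hne] at this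
            exact this
          · intro h; exact h.elim
        rw [this, Set.ncard_empty]
        exact Nat.zero_le _
    · have ha' : a.1 ∈ B i := ha
      refine (hD i a.1 ha').emb (fun v => ⟨v.1.1, reachOff_map v.2⟩)
        (fun v w h => Subtype.ext (Subtype.ext
          (congrArg (fun z : compSet G (B i)ᶜ a.1 => z.1) h))) (fun v w h => h)
        (comp_connected (by simpa using ha')) (comp_connected (by simpa using ha))

/-- the constant -/
theorem peel_const {C : ℝ} (hC : 1 ≤ C) (k : ℕ) :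
    16000 * (96 * C + 112 + 2 * k) ≤ 3328000 * (k + C) := by
  have : (0 : ℝ) ≤ k := Nat.cast_nonneg k
  linarith

/-- **`k` rounds of removing shortest paths** -/
theorem peel_distortion (k : ℕ) {C : ℝ} (hC : 1 ≤ C) (V : Type) [Finite V] (G : SimpleGraph V)
    (hc : G.Connected) (h : ∀ ℓ : Sym2 V → ℝ, (∀ e ∈ G.edgeSet, 0 < ℓ e) → Peel C k G ℓ) :
    DistortionLE G (3328000 * (k + C)) := by
  intro ℓ hℓ
  have hd := pathDist_isMet hc hℓ
  obtain ⟨Ω, m, μ, f, hf⟩ := peel_embeds (one_pos.trans_le hC) hc hℓ (h ℓ hℓ)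
  exact ⟨Ω, m, μ, f, fun x y => ⟨(hf x y).1, (hf x y).2.trans
    (mul_le_mul_of_nonneg_right (peel_const hC k) (hd.nonneg x y))⟩⟩

/-- **Path decompositions with bags of any size, adhesion at most `w`, and bags whose components
satisfy `c₁ ≤ C`: `c₁(G) ≤ A (w + C)`.** -/
theorem pathSum_additive (w : ℕ) {C : ℝ} (hC : 1 ≤ C) (V : Type) [Finite V] (G : SimpleGraph V)
    (hc : G.Connected) (n : ℕ) (B : Fin n → Set V) (hB : PathDec G w B)
    (hD : ∀ i, ∀ u ∈ B i, DistortionLE (G.induce (compSet G (B i)ᶜ u)) C) :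
    DistortionLE G (3328000 * (w + C)) :=
  peel_distortion w hC V G hc fun ℓ hℓ =>
    peel_of_pathSum w V G hc n B ⟨hB.cover, hB.edge, hB.conv⟩ hB.adh hD ℓ hℓ

end Vale.Agent.P235
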