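import Vale.Agent.P235.H536.PlaneDefs
import Mathlib.LinearAlgebra.Dimension.Finrank
import Mathlib.LinearAlgebra.FiniteDimensional.Lemmas
import Mathlib.Data.ZMod.Basic

/-!
# Cycles modulo two of a plane map are sums of face boundaries
-/

set_option linter.unusedSectionVars false

namespace Vale.Agent.P235

open Finset SimpleGraph Module

variable {V : Type} {G : SimpleGraph V}

/-- functions on the darts which agree on the two orientations of every edge -/
def symSub (G : SimpleGraph V) : Submodule (ZMod 2) (G.Dart → ZMod 2) where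
  carrier := {z | ∀ d : G.Dart, z d.symm = z d}
  add_mem' := by
    intro a b ha hb d
    show a d.symm + b d.symm = a d + b d
    rw [ha d, hb d]
  zero_mem' := fun _ => rfl
  smul_mem' := by
    intro c a ha d
    show c • a d.symm = c • a d
    rw [ha d]

theorem exists_dart (e : G.edgeSet) : ∃ d : G.Dart, d.edge = e.1 := by
  obtain ⟨e, he⟩ := e
  induction e using Sym2.ind with
  | _ a b => exact ⟨⟨(a, b), he⟩, rfl⟩

theorem finrank_symSub [Finite V] : finrank (ZMod 2) (symSub G) ≤ Nat.card G.edgeSet := by
  classical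
  have := Fintype.ofFinite V
  choose c hc using exists_dart (G := G)
  let L : symSub G →ₗ[ZMod 2] (G.edgeSet → ZMod 2) :=
    { toFun := fun z e => z.1 (c e)
      map_add' := fun _ _ => rfl
      map_smul' := fun _ _ => rfl }
  have hL : Function.Injective L := by
    rw [← LinearMap.ker_eq_bot, LinearMap.ker_eq_bot']
    intro z hz
    ext d
    have h1 : z.1 (c ⟨d.edge, d.edge_mem⟩) = 0 := congrFun hz ⟨d.edge, d.edge_mem⟩
    have h2 := hc ⟨d.edge, d.edge_mem⟩
    rcases dart_edge_eq_iff _ _ |>.1 h2 with h3 | h3
    · rw [h3] at h1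
      exact h1
    · rw [h3, z.2 d] at h1
      exact h1
  have h := LinearMap.finrank_le_finrank_of_injective hL
  rwa [finrank_fintype_fun_eq_card, ← Nat.card_eq_fintype_card] at h

section maps

variable [Fintype V] [DecidableEq V] [Fintype G.Dart]

/-- the boundary of a symmetric function -/
def bdV (G : SimpleGraph V) [Fintype G.Dart] : symSub G →ₗ[ZMod 2] (V → ZMod 2) where
  toFun z v := ∑ d with d.fst = v, z.1 d
  map_add' a b := by
    ext v
    exact Finset.sum_add_distrib
  map_smul' c a := by
    ext v
    exact (Finset.mul_sum _ _ _).symm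

theorem single_mem [DecidableEq G.Dart] {u v : V} (h : G.Adj u v) :
    (Pi.single u 1 + Pi.single v 1 : V → ZMod 2) ∈ LinearMap.range (bdV G) := by
  set a : G.Dart := ⟨(u, v), h⟩
  have hs : ∀ d : G.Dart, (d.symm = a ↔ d = a.symm) := fun d => by
    constructor
    · intro h1; rw [← h1, Dart.symm_symm]
    · intro h1; rw [h1, Dart.symm_symm]
  have hs' : ∀ d : G.Dart, (d.symm = a.symm ↔ d = a) := fun d => by
    rw [← hs, Dart.symm_symm]
  refine ⟨⟨fun d => (if d = a then 1 else 0) + (if d = a.symm then 1 else 0), ?_⟩, ?_⟩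
  · intro d
    show (if d.symm = a then (1 : ZMod 2) else 0) + (if d.symm = a.symm then 1 else 0) =
      (if d = a then 1 else 0) + (if d = a.symm then 1 else 0)
    simp only [hs, hs']
    rw [add_comm]
  · ext w
    show ∑ d with d.fst = w, ((if d = a then (1 : ZMod 2) else 0) +
      (if d = a.symm then 1 else 0)) = _
    rw [Finset.sum_add_distrib, Finset.sum_ite_eq', Finset.sum_ite_eq']
    simp only [Finset.mem_filter, Finset.mem_univ, true_and, Pi.add_apply, Pi.single_apply]
    have e1 : (a.fst = w) = (w = u) := propext ⟨fun h => h.symm, fun h => h.symm⟩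
    have e2 : (a.symm.fst = w) = (w = v) := propext ⟨fun h => h.symm, fun h => h.symm⟩
    simp only [e1, e2]

theorem card_le_range [DecidableEq G.Dart] (hc : G.Connected) :
    Fintype.card V ≤ finrank (ZMod 2) (LinearMap.range (bdV G)) + 1 := by
  obtain ⟨v0⟩ := hc.nonempty
  set R := LinearMap.range (bdV G) ⊔ Submodule.span (ZMod 2) {(Pi.single v0 1 : V → ZMod 2)}
  have h1 : ∀ v, (Pi.single v 1 : V → ZMod 2) ∈ R := by
    intro v
    obtain ⟨p⟩ := hc.preconnected v v0
    induction p with
    | nil => exact Submodule.mem_sup_right (Submodule.mem_span_singleton_self _)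
    | @cons a b c hab _ ih =>
      have h2 : (Pi.single a 1 + Pi.single b 1 : V → ZMod 2) ∈ R :=
        Submodule.mem_sup_left (single_mem hab)
      have h3 := R.add_mem h2 ih
      have h4 : (Pi.single a 1 + Pi.single b 1 + Pi.single b 1 : V → ZMod 2) = Pi.single a 1 := by
        ext w
        show (Pi.single a 1 : V → ZMod 2) w + (Pi.single b 1 : V → ZMod 2) w +
          (Pi.single b 1 : V → ZMod 2) w = _
        rw [add_assoc, CharTwo.add_self_eq_zero, add_zero]
      rwa [h4] at h3
  have h2 : R = ⊤ := by
    rw [Submodule.eq_top_iff']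
    intro f
    have h3 : f = ∑ v, f v • (Pi.single v 1 : V → ZMod 2) := by
      ext w
      simp [Finset.sum_apply, Pi.single_apply]
    rw [h3]
    exact R.sum_mem fun v _ => R.smul_mem _ (h1 v)
  have h3 : finrank (ZMod 2) R ≤ finrank (ZMod 2) (LinearMap.range (bdV G)) +
      finrank (ZMod 2) (Submodule.span (ZMod 2) {(Pi.single v0 1 : V → ZMod 2)}) :=
    Submodule.finrank_add_le_finrank_add_finrank _ _
  have h4 : finrank (ZMod 2) (Submodule.span (ZMod 2) {(Pi.single v0 1 : V → ZMod 2)}) ≤ 1 := by
    refine (finrank_span_le_card _).trans ?_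
    simp
  rw [h2, finrank_top, finrank_fintype_fun_eq_card] at h3
  omega

end maps

theorem faceNext_apply (σ : Equiv.Perm G.Dart) (d : G.Dart) : faceNext σ d = σ d.symm := rfl

/-- a function on the darts which is invariant under `faceNext` and under reversal is constant -/
theorem const_of_inv (hc : G.Connected) {σ : Equiv.Perm G.Dart}
    (hcyc : ∀ d d' : G.Dart, d.fst = d'.fst → σ.SameCycle d d') {K : Type} (h : G.Dart → K)
    (h1 : ∀ d, h (faceNext σ d) = h d) (h2 : ∀ d : G.Dart, h d.symm = h d) (d e : G.Dart) :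
    h d = h e := by
  have hσ : ∀ d, h (σ d) = h d := fun d => by
    have := h1 d.symm
    rw [faceNext_apply, Dart.symm_symm, h2] at this
    exact this
  have hz : ∀ (n : ℤ) (d : G.Dart), h ((σ ^ n) d) = h d := by
    intro n
    induction n using Int.induction_on with
    | zero => intro d; rfl
    | succ n ih =>
      intro d
      rw [zpow_add_one, Equiv.Perm.mul_apply, ih, hσ]
    | pred n ih =>
      intro d
      have h3 := hσ (σ⁻¹ d)
      rw [show σ (σ⁻¹ d) = d from Equiv.apply_symm_apply _ _] at h3
      rw [zpow_sub_one, Equiv.Perm.mul_apply, ih, ← h3]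
  have hv : ∀ d e : G.Dart, d.fst = e.fst → h d = h e := fun d e hde => by
    obtain ⟨n, hn⟩ := hcyc d e hde
    rw [← hn, hz]
  have key : ∀ (u v : V) (_ : G.Walk u v) (d e : G.Dart), d.fst = u → e.fst = v → h d = h e := by
    intro u v p
    induction p with
    | nil => intro d e hd he; exact hv d e (hd.trans he.symm)
    | @cons a b c hab _ ih =>
      intro d e hd he
      have h3 : h d = h (⟨(a, b), hab⟩ : G.Dart) := hv _ _ hd
      rw [h3, ← h2]
      exact ih _ e rfl he
  obtain ⟨p⟩ := hc.preconnected d.fst e.fst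
  exact key _ _ p d e rfl rfl

/-- **Cycles modulo two of a plane map are sums of face boundaries**, with finite sums. -/
theorem plane_cycle' [Fintype V] [DecidableEq V] [Fintype G.Dart] [DecidableEq G.Dart]
    (hc : G.Connected) {σ : Equiv.Perm G.Dart} (hσ : PlaneMap G σ) (z : G.Dart → ZMod 2)
    (hz : ∀ d : G.Dart, z d.symm = z d) (hv : ∀ v, ∑ d with d.fst = v, z d = 0) :
    ∃ u : G.Dart → ZMod 2, (∀ d, u (faceNext σ d) = u d) ∧ ∀ d, z d = u d + u d.symm := by
  classical
  set F := Quotient (Equiv.Perm.SameCycle.setoid (faceNext σ))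
  have : Fintype F := Fintype.ofFinite F
  have hmk : ∀ d, (Quotient.mk _ (faceNext σ d) : F) = Quotient.mk _ d := fun d =>
    Quotient.sound (Equiv.Perm.sameCycle_apply_left.2 (Equiv.Perm.SameCycle.refl _ _))
  let D : (F → ZMod 2) →ₗ[ZMod 2] symSub G :=
    { toFun := fun u => ⟨fun d => u (Quotient.mk _ d) + u (Quotient.mk _ d.symm), fun d => by
        show u (Quotient.mk _ d.symm) + u (Quotient.mk _ d.symm.symm) = _
        rw [Dart.symm_symm, add_comm]⟩
      map_add' := fun u v => by
        ext d
        show (u _ + v _) + (u _ + v _) = (u _ + u _) + (v _ + v _)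
        ring
      map_smul' := fun c u => by
        ext d
        show c * u _ + c * u _ = c * (u _ + u _)
        ring }
  have hDB : LinearMap.range D ≤ LinearMap.ker (bdV G) := by
    rintro _ ⟨u, rfl⟩
    rw [LinearMap.mem_ker]
    ext v
    show ∑ d : G.Dart with d.fst = v, (u (Quotient.mk _ d) + u (Quotient.mk _ d.symm)) = 0
    rw [Finset.sum_add_distrib]
    have e1 : (∑ d : G.Dart with d.fst = v, u (Quotient.mk _ d.symm)) =
        ∑ d : G.Dart with d.fst = v, u (Quotient.mk _ d) := by
      refine Finset.sum_bij (fun (d : G.Dart) _ => σ d) ?_ ?_ ?_ ?_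
      · intro d hd
        rw [Finset.mem_filter] at hd ⊢
        exact ⟨Finset.mem_univ _, (hσ.fst d).trans hd.2⟩
      · intro a _ b _ hab
        exact σ.injective hab
      · intro b hb
        rw [Finset.mem_filter] at hb
        refine ⟨σ⁻¹ b, ?_, Equiv.apply_symm_apply _ _⟩
        rw [Finset.mem_filter]
        refine ⟨Finset.mem_univ _, ?_⟩
        rw [← hσ.fst, show σ (σ⁻¹ b) = b from Equiv.apply_symm_apply _ _]
        exact hb.2
      · intro d _
        have h1 := hmk d.symm
        rw [faceNext_apply, Dart.symm_symm] at h1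
        rw [h1]
    rw [e1, CharTwo.add_self_eq_zero]
  have hker : finrank (ZMod 2) (LinearMap.ker D) ≤ 1 := by
    have h1 : LinearMap.ker D ≤ Submodule.span (ZMod 2) {(fun _ => 1 : F → ZMod 2)} := by
      intro u hu
      rw [LinearMap.mem_ker] at hu
      have h2 : ∀ d : G.Dart, u (Quotient.mk _ d.symm) = u (Quotient.mk _ d) := fun d => by
        have h3 : u (Quotient.mk _ d) + u (Quotient.mk _ d.symm) = 0 :=
          congrFun (congrArg Subtype.val hu) d
        have h4 := CharTwo.add_eq_zero.1 h3
        exact h4.symm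
      have h3 := const_of_inv hc hσ.cyc (fun d => u (Quotient.mk _ d : F))
        (fun d => by rw [hmk]) h2
      rw [Submodule.mem_span_singleton]
      by_cases hF : Nonempty F
      · obtain ⟨f0⟩ := hF
        refine ⟨u f0, ?_⟩
        ext f
        induction f using Quotient.ind with
        | _ d =>
          induction f0 using Quotient.ind with
          | _ d0 =>
            show u _ * 1 = u _
            rw [mul_one]
            exact h3 d0 d
      · refine ⟨0, ?_⟩
        ext f
        exact absurd ⟨f⟩ hF
    refine (Submodule.finrank_mono h1).trans ((finrank_span_le_card _).trans ?_)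
    simp
  have r1 := LinearMap.finrank_range_add_finrank_ker (bdV G)
  have r2 := finrank_symSub (G := G)
  have r3 := card_le_range hc
  have r4 := LinearMap.finrank_range_add_finrank_ker D
  have r5 := hσ.euler
  rw [finrank_fintype_fun_eq_card] at r4
  rw [Nat.card_eq_fintype_card, Nat.card_eq_fintype_card (α := F)] at r5
  have hfin : finrank (ZMod 2) (LinearMap.ker (bdV G)) ≤ finrank (ZMod 2) (LinearMap.range D) := by
    omega
  have heq := Submodule.eq_of_le_of_finrank_le hDB hfin
  have hzm : (⟨z, hz⟩ : symSub G) ∈ LinearMap.ker (bdV G) := by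
    rw [LinearMap.mem_ker]
    ext v
    exact hv v
  rw [← heq] at hzm
  obtain ⟨u, hu⟩ := hzm
  refine ⟨fun d => u (Quotient.mk _ d), fun d => congrArg u (hmk d), fun d => ?_⟩
  exact (congrFun (congrArg Subtype.val hu) d).symm

/-- **Cycles modulo two of a plane map are sums of face boundaries.** -/
theorem plane_cycle [Finite V] (hc : G.Connected) {σ : Equiv.Perm G.Dart} (hσ : PlaneMap G σ)
    (z : G.Dart → ZMod 2) (hz : ∀ d : G.Dart, z d.symm = z d)
    (hv : ∀ v, ∑ᶠ (d : G.Dart) (_ : d.fst = v), z d = 0) :
    ∃ u : G.Dart → ZMod 2, (∀ d, u (faceNext σ d) = u d) ∧ ∀ d, z d = u d + u d.symm := by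
  classical
  have := Fintype.ofFinite V
  refine plane_cycle' hc hσ z hz fun v => ?_
  rw [← hv v]
  symm
  exact finsum_cond_eq_sum_of_cond_iff _ fun {d} _ => by simp

end Vale.Agent.P235
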