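import Vale.Agent.P235.H105.Tw

/-!
# Rounds of composition over an arbitrary class of graphs with bounded `c₁`
-/

namespace Vale.Agent.P235

/-- `BuiltOf P w j G`: round `0` consists of the graphs of the class `P`; every round is closed
under gluing two graphs at one vertex; and `G` is allowed in round `j + 1` if there is a nonempty
vertex set `X` such that every component of `G - X` has at most `w` neighbours in `X`, the torso of
`X` is allowed in round `j`, and all components of `G - X` are allowed in round `j`; or if `G` has a
path decomposition, of any length and with bags of any size, in which consecutive bags share at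
most `w` vertices and, for every bag, all components of the subgraph induced on that bag are
allowed in round `j`. -/
inductive BuiltOf (P : ∀ (V : Type), SimpleGraph V → Prop) (w : ℕ) :
    ℕ → ∀ {V : Type}, SimpleGraph V → Prop
  | base {V : Type} {G : SimpleGraph V} : P V G → BuiltOf P w 0 G
  | lift {j : ℕ} {V : Type} {G : SimpleGraph V} : BuiltOf P w j G → BuiltOf P w (j + 1) G
  | vertexSum {j : ℕ} {V : Type} {G : SimpleGraph V} {A B : Set V} {v : V} :
      A ∪ B = Set.univ → A ∩ B = {v} → (∀ a b, a ∉ B → b ∉ A → ¬ G.Adj a b) →
      BuiltOf P w j (G.induce A) → BuiltOf P w j (G.induce B) → BuiltOf P w j G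
  | compose {j : ℕ} {V : Type} {G : SimpleGraph V} {X : Set V} : X.Nonempty →
      (∀ u ∉ X, (attach G X u).ncard ≤ w) → BuiltOf P w j (torso G X) →
      (∀ u ∉ X, BuiltOf P w j (G.induce (compSet G X u))) → BuiltOf P w (j + 1) G
  | pathSum {j n : ℕ} {V : Type} {G : SimpleGraph V} {B : Fin n → Set V} : PathDec G w B →
      (∀ i, ∀ u ∈ B i, BuiltOf P w j (G.induce (compSet G (B i)ᶜ u))) → BuiltOf P w (j + 1) G

theorem builtOf_bounded {P : ∀ (V : Type), SimpleGraph V → Prop} {C0 : ℝ}
    (hP : ∀ (V : Type) [Finite V] (G : SimpleGraph V), G.Connected → P V G → DistortionLE G C0)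
    (w j : ℕ) :
    ∃ C : ℝ, ∀ (V : Type) [Finite V] (G : SimpleGraph V), G.Connected →
      BuiltOf P w j G → DistortionLE G C := by
  let c : ℕ → ℝ := fun j => Nat.rec (max 1 C0) (fun _ C => max (compK w C) (psK w C)) j
  have hc0 : c 0 = max 1 C0 := rfl
  have hcs : ∀ j, c (j + 1) = max (compK w (c j)) (psK w (c j)) := fun j => rfl
  have hc1 : ∀ j, 1 ≤ c j := by
    intro j
    induction j with
    | zero => exact le_max_left _ _
    | succ j ih => exact ih.trans (by rw [hcs]; exact (le_compK w ih).trans (le_max_left _ _))
  refine ⟨c j, fun V _ G hconn hG => ?_⟩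
  revert hconn
  have key : ∀ {j : ℕ} {V : Type} {G : SimpleGraph V}, BuiltOf P w j G → Finite V →
      G.Connected → DistortionLE G (c j) := by
    intro j V G hG
    induction hG with
    | base hG =>
      intro _ hconn
      exact (hP _ _ hconn hG).mono (le_max_right _ _)
    | @lift j V G hG ih =>
      intro hfin hconn
      exact (ih hfin hconn).mono ((le_compK w (hc1 j)).trans (le_max_left _ _))
    | @vertexSum j V G A B v hU hI hn hA hB ihA ihB =>
      intro hfin hconn
      have hcA := side_connected hconn hU hI hn
      have hcB : (G.induce B).Connected := side_connected hconn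
        (by rw [Set.union_comm]; exact hU) (by rw [Set.inter_comm]; exact hI)
        (fun a b ha hb h => hn b a hb ha h.symm)
      exact distortion_vertexSum (one_pos.trans_le (hc1 j)) hconn hU hI hn
        (ihA inferInstance hcA) (ihB inferInstance hcB)
    | @compose j V G X hX hw ht hk iht ihk =>
      intro hfin hconn
      exact (distortion_compose2 (hc1 j) hconn hX hw (iht inferInstance (torso_connected hconn hX))
        fun u hu => ihk u hu inferInstance (comp_connected hu)).mono (le_max_left _ _)
    | @pathSum j n V G B hB hk ihk =>
      intro hfin hconn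
      exact (distortion_pathSum (hc1 j) w V G hconn n B ⟨hB.cover, hB.edge, hB.conv⟩ hB.adh
        fun i u hu => ihk i u hu inferInstance (comp_connected (by simpa using hu))).mono
        (le_max_right _ _)
  exact key hG inferInstance

end Vale.Agent.P235
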