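import Vale.Agent.P235.H105.Tw

/-!
# Shortest path structures give rich families of functions to the line
-/

namespace Vale.Agent.P235

open Finset

/-- `PathStr G ρ k W`: the graph induced on `W` can be emptied in `k` rounds, each of which removes
a set `P` which is isometric to a subset of the line in every component. -/
def PathStr {V : Type} (G : SimpleGraph V) (ρ : V → V → ℝ) : ℕ → Set V → Prop
  | 0, W => W = ∅
  | k + 1, W => ∃ (κ : Type) (C : V → κ) (t : V → ℝ) (P : Set V), P ⊆ W ∧
      (∀ u v, G.Adj u v → u ∈ W → v ∈ W → C u = C v ∧ |t u - t v| ≤ ρ u v) ∧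
      (∀ z ∈ P, ∀ z2 ∈ P, C z = C z2 → ∀ f : V → ℝ,
        (∀ u v, G.Adj u v → u ∈ W → v ∈ W → |f u - f v| ≤ ρ u v) → |f z - f z2| ≤ |t z - t z2|) ∧
      PathStr G ρ k (W \ P)

/-- one induction step -/
theorem fam_step2 {cF ck : ℝ} (hcF : 0 < cF) (hcF1 : cF ≤ 1) (hck : 0 < ck)
    (hF : FanStatement cF) (hBar : BarrierStatement) {k : ℕ}
    (ih : ∀ {V : Type} [Finite V] (G : SimpleGraph V) (ρ : V → V → ℝ), (∀ u v, ρ u v = ρ v u) →
      (∀ u v, G.Adj u v → 0 < ρ u v) → ∀ W : Set V, PathStr G ρ k W →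
      ∀ H : V → ℝ, (∀ x, 0 ≤ H x) → (∀ u v, G.Adj u v → |H u - H v| ≤ ρ u v) →
      (∀ v, 0 < H v ↔ v ∈ W) → Fam G ρ H ck)
    {V : Type} [Finite V] (G : SimpleGraph V) (ρ : V → V → ℝ) (hs : ∀ u v, ρ u v = ρ v u)
    (hp : ∀ u v, G.Adj u v → 0 < ρ u v) (W : Set V) (hSP : PathStr G ρ (k + 1) W)
    (H : V → ℝ) (hH : ∀ x, 0 ≤ H x) (hHl : ∀ u v, G.Adj u v → |H u - H v| ≤ ρ u v)
    (hHW : ∀ v, 0 < H v ↔ v ∈ W) :
    Fam G ρ H ((1 / 2) * min (ck * (cF / 4)) (cF / 2)) := by
  classical
  obtain ⟨κ, C, t, P, hPW', hC', htight', hrec⟩ := hSP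
  have hPW : P ⊆ {v | 0 < H v} := fun v hv => (hHW v).2 (hPW' hv)
  have hC : ∀ u v, G.Adj u v → u ∈ {v | 0 < H v} → v ∈ {v | 0 < H v} →
      C u = C v ∧ |t u - t v| ≤ ρ u v :=
    fun u v huv hu hv => hC' u v huv ((hHW u).1 hu) ((hHW v).1 hv)
  have htight : ∀ z ∈ P, ∀ z2 ∈ P, C z = C z2 → ∀ f : V → ℝ,
      (∀ u v, G.Adj u v → u ∈ {v | 0 < H v} → v ∈ {v | 0 < H v} → |f u - f v| ≤ ρ u v) →
      |f z - f z2| ≤ |t z - t z2| :=
    fun z hz z2 hz2 hCC f hf => htight' z hz z2 hz2 hCC f
      (fun u v huv hu hv => hf u v huv ((hHW u).2 hu) ((hHW v).2 hv))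
  obtain ⟨φ, hφb, hφl, hφt⟩ := hBar G ρ hs hp (fun v => if v ∈ P then 0 else H v)
  have hb0 : ∀ v, 0 ≤ (if v ∈ P then (0 : ℝ) else H v) := by
    intro v; split_ifs
    · exact le_rfl
    · exact hH v
  have hφ0 : ∀ x, 0 ≤ φ x := by
    intro x
    obtain ⟨z, hz, hf⟩ := hφt x
    have := hf (fun _ => 0) (by intro u v huv; simpa only [sub_self, abs_zero] using (hp u v huv).le)
    rw [sub_self, abs_zero] at this
    have h5 := hb0 z
    rw [← hz] at h5
    linarith only [this, h5]
  have hφH : ∀ x, φ x ≤ H x := by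
    intro x
    refine (hφb x).trans ?_
    split_ifs
    · exact hH x
    · exact le_rfl
  have hφP : ∀ x ∈ P, φ x = 0 := by
    intro x hx
    apply le_antisymm _ (hφ0 x)
    have := hφb x
    rwa [if_pos hx] at this
  have hnear : ∀ x, (∀ f, Adm G ρ H f → |f x| ≤ φ x) ∨
      (∃ z ∈ P, ∀ f, Adm G ρ H f → |f x - f z| ≤ φ x) := by
    intro x
    obtain ⟨z, hz, hf⟩ := hφt x
    by_cases hzP : z ∈ P
    · right
      refine ⟨z, hzP, fun f hfa => ?_⟩
      have := hf f hfa.2
      rw [hφP z hzP] at this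
      linarith only [this]
    · left
      intro f hfa
      have h5 := hf f hfa.2
      rw [hz, if_neg hzP] at h5
      have h6 := hfa.1 z
      have h7 := abs_add_le (f x - f z) (f z)
      rw [sub_add_cancel] at h7
      linarith
  have hφW : ∀ v, 0 < φ v ↔ v ∈ W \ P := by
    intro v
    constructor
    · intro hv
      refine ⟨(hHW v).1 (hv.trans_le (hφH v)), fun hvP => ?_⟩
      rw [hφP v hvP] at hv
      exact lt_irrefl _ hv
    · rintro ⟨hvW, hvP⟩
      have hHv := (hHW v).2 hvW
      obtain ⟨z, hz, hf⟩ := hφt v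
      rcases (hb0 z).lt_or_eq with hbz | hbz
      · have h5 := hf (fun _ => 0) (by
          intro u v huv; simpa only [sub_self, abs_zero] using (hp u v huv).le)
        rw [sub_self, abs_zero, hz] at h5
        linarith
      · have hvz : v ≠ z := by
          rintro rfl
          rw [if_neg hvP] at hbz
          linarith
        obtain ⟨ε, hε, hεl⟩ : ∃ ε : ℝ, 0 < ε ∧ ∀ u v, G.Adj u v → ε ≤ ρ u v := by
          have hfin : (Set.univ : Set (V × V)).Finite := Set.toFinite _
          rcases Set.eq_empty_or_nonempty {q : V × V | G.Adj q.1 q.2} with h | h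
          · refine ⟨1, one_pos, fun u v huv => ?_⟩
            have : (u, v) ∈ {q : V × V | G.Adj q.1 q.2} := huv
            rw [h] at this
            exact absurd this (Set.notMem_empty _)
          · obtain ⟨q, hq, hmin⟩ := Set.exists_min_image _ (fun q : V × V => ρ q.1 q.2)
              (Set.toFinite _) h
            exact ⟨ρ q.1 q.2, hp _ _ hq, fun u v huv => hmin (u, v) huv⟩
        have h5 := hf (fun x => if x = v then ε else 0) (by
          intro a b hab
          have h6 := hεl a b hab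
          by_cases h1 : a = v <;> by_cases h2 : b = v <;> simp only [h1, h2, if_true, if_false]
          · rw [sub_self, abs_zero]; rw [h1, h2] at hab; exact absurd hab (G.loopless.irrefl v)
          · rw [sub_zero, abs_of_pos hε]; rw [h1] at h6; exact h6
          · rw [zero_sub, abs_neg, abs_of_pos hε]; rw [h2] at h6; exact h6
          · rw [sub_self, abs_zero]; exact hε.le.trans h6)
        simp only [if_true] at h5
        rw [if_neg (Ne.symm hvz), sub_zero, abs_of_pos hε, hz, ← hbz] at h5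
        linarith
  obtain ⟨ι1, _, w1, g1, hw1, hs1, ha1, hl1⟩ := ih G ρ hs hp (W \ P) hrec φ hφ0 hφl hφW
  obtain ⟨ι2, _, w2, g2, hw2, hs2, hb2, hm2, hl2, hl2', hl2''⟩ := fan' hF C t H hH
  have ha2 : ∀ i, Adm G ρ H (g2 i) := by
    intro i
    refine ⟨hb2 i, ?_⟩
    intro u v huv
    by_cases hu : 0 < H u
    · by_cases hv : 0 < H v
      · obtain ⟨hCe, hte⟩ := hC u v huv hu hv
        exact (hm2 i u v hCe).trans (max_le hte (hHl u v huv))
      · have hv0 : H v = 0 := le_antisymm (not_lt.mp hv) (hH v)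
        have h5 := hb2 i v
        rw [hv0] at h5
        have h6 : g2 i v = 0 := by simpa only [abs_nonpos_iff] using h5
        have h7 := hHl u v huv
        rw [hv0, sub_zero, abs_of_pos hu] at h7
        rw [h6, sub_zero]
        exact (hb2 i u).trans h7
    · have hu0 : H u = 0 := le_antisymm (not_lt.mp hu) (hH u)
      have h5 := hb2 i u
      rw [hu0] at h5
      have h6 : g2 i u = 0 := by simpa using h5
      have h7 := hHl u v huv
      rw [hu0, zero_sub, abs_neg, abs_of_nonneg (hH v)] at h7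
      rw [h6, zero_sub, abs_neg]
      exact (hb2 i v).trans h7
  refine ⟨ι1 ⊕ ι2, inferInstance, Sum.elim (fun i => (1 / 2) * w1 i) (fun i => (1 / 2) * w2 i),
    Sum.elim g1 g2, ?_, ?_, ?_, ?_⟩
  · rintro (i | i)
    · have := hw1 i
      show 0 ≤ (1 / 2) * w1 i
      linarith only [this]
    · have := hw2 i
      show 0 ≤ (1 / 2) * w2 i
      linarith
  · rw [Fintype.sum_sum_type]
    simp only [Sum.elim_inl, Sum.elim_inr]
    rw [← Finset.mul_sum, ← Finset.mul_sum, hs1, hs2]
    norm_num
  · rintro (i | i)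
    · exact ⟨fun v => ((ha1 i).1 v).trans (hφH v), (ha1 i).2⟩
    · exact ha2 i
  · -- the main estimate
    have hsum : ∀ x y, ∑ i, (Sum.elim (fun i => (1 / 2) * w1 i) (fun i => (1 / 2) * w2 i) : ι1 ⊕ ι2 → ℝ) i *
        |(Sum.elim g1 g2 : ι1 ⊕ ι2 → V → ℝ) i x - (Sum.elim g1 g2 : ι1 ⊕ ι2 → V → ℝ) i y| =
        (1 / 2) * (∑ i, w1 i * |g1 i x - g1 i y|) + (1 / 2) * (∑ i, w2 i * |g2 i x - g2 i y|) := by
      intro x y
      rw [Fintype.sum_sum_type, Finset.mul_sum, Finset.mul_sum]
      simp only [Sum.elim_inl, Sum.elim_inr, mul_assoc]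
    have key : ∀ f, Adm G ρ H f → ∀ x y, 0 ≤ f x - f y →
        min (ck * (cF / 4)) (cF / 2) * (f x - f y) ≤
        (∑ i, w1 i * |g1 i x - g1 i y|) + (∑ i, w2 i * |g2 i x - g2 i y|) := by
      intro f hf x y hM
      set M := f x - f y with hMdef
      have n1 : 0 ≤ ∑ i, w1 i * |g1 i x - g1 i y| :=
        Finset.sum_nonneg fun i _ => mul_nonneg (hw1 i) (abs_nonneg _)
      have n2 : 0 ≤ ∑ i, w2 i * |g2 i x - g2 i y| :=
        Finset.sum_nonneg fun i _ => mul_nonneg (hw2 i) (abs_nonneg _)
      by_cases hcase : cF / 4 * M ≤ φ x + φ y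
      · have h5 := hl1 _ (adm_clamp hφ0 hφl hf.2 (f y + min M (φ y))) x y
        rw [clamp_diff hM (hφ0 x) (hφ0 y) hMdef.symm rfl] at h5
        have h6 : cF / 4 * M ≤ min M (φ x + φ y) := by
          apply le_min _ hcase
          nlinarith only [hM, hcF1]
        have h7 : 0 ≤ min M (φ x + φ y) := le_min hM (add_nonneg (hφ0 x) (hφ0 y))
        rw [abs_of_nonneg h7] at h5
        have h8 : ck * (cF / 4 * M) ≤ ck * min M (φ x + φ y) :=
          mul_le_mul_of_nonneg_left h6 hck.le
        have h9 : min (ck * (cF / 4)) (cF / 2) * M ≤ ck * (cF / 4) * M :=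
          mul_le_mul_of_nonneg_right (min_le_left _ _) hM
        linarith only [n2, h5, h8, h9]
      · push Not at hcase
        -- nearest points
        have hst : ∃ S : Option V, (∀ z, S = some z → z ∈ P) ∧
            ∀ f, Adm G ρ H f → |f x - S.elim 0 f| ≤ φ x := by
          rcases hnear x with h | ⟨z, hz, h⟩
          · exact ⟨none, by simp, fun f hf => by simpa using h f hf⟩
          · exact ⟨some z, by simpa using hz, fun f hf => h f hf⟩
        have htt : ∃ S : Option V, (∀ z, S = some z → z ∈ P) ∧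
            ∀ f, Adm G ρ H f → |f y - S.elim 0 f| ≤ φ y := by
          rcases hnear y with h | ⟨z, hz, h⟩
          · exact ⟨none, by simp, fun f hf => by simpa using h f hf⟩
          · exact ⟨some z, by simpa using hz, fun f hf => h f hf⟩
        obtain ⟨S, hSP, hS⟩ := hst
        obtain ⟨T, hTP, hT⟩ := htt
        have hfan : cF * |S.elim 0 f - T.elim 0 f| ≤
            ∑ i, w2 i * |S.elim 0 (g2 i) - T.elim 0 (g2 i)| := by
          cases S with
          | none =>
            cases T with
            | none => simp only [Option.elim_none, sub_self, abs_zero, mul_zero, sum_const_zero, Std.le_refl]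
            | some z =>
              simp only [Option.elim, zero_sub, abs_neg]
              exact (mul_le_mul_of_nonneg_left (hf.1 z) hcF.le).trans (hl2'' z)
          | some z =>
            cases T with
            | none =>
              simp only [Option.elim, sub_zero]
              exact (mul_le_mul_of_nonneg_left (hf.1 z) hcF.le).trans (hl2'' z)
            | some z' =>
              simp only [Option.elim]
              have hz := hSP z rfl
              have hz' := hTP z' rfl
              have hle : |f z - f z'| ≤ H z + H z' :=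
                (abs_sub _ _).trans (add_le_add (hf.1 z) (hf.1 z'))
              by_cases hCz : C z = C z'
              · refine le_trans ?_ (hl2 z z' hCz)
                apply mul_le_mul_of_nonneg_left _ hcF.le
                apply le_min _ hle
                exact htight z hz z' hz' hCz f (fun u v huv _ _ => hf.2 u v huv)
              · exact (mul_le_mul_of_nonneg_left hle hcF.le).trans (hl2' z z' hCz)
        have h5 : M ≤ |S.elim 0 f - T.elim 0 f| + φ x + φ y := by
          have e1 := hS f hf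
          have e2 := hT f hf
          have e3 := abs_le.mp e1
          have e4 := abs_le.mp e2
          have e5 := le_abs_self (S.elim 0 f - T.elim 0 f)
          rw [hMdef]
          linarith only [e3, e4, e5]
        have h6 : ∑ i, w2 i * |S.elim 0 (g2 i) - T.elim 0 (g2 i)| ≤
            (∑ i, w2 i * |g2 i x - g2 i y|) + φ x + φ y := by
          have e1 : ∀ i, w2 i * |S.elim 0 (g2 i) - T.elim 0 (g2 i)| ≤
              w2 i * |g2 i x - g2 i y| + w2 i * (φ x + φ y) := by
            intro i
            rw [← mul_add]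
            apply mul_le_mul_of_nonneg_left _ (hw2 i)
            have e2 := hS (g2 i) (ha2 i)
            have e3 := hT (g2 i) (ha2 i)
            have e4 : S.elim 0 (g2 i) - T.elim 0 (g2 i) = (S.elim 0 (g2 i) - g2 i x) +
                (g2 i x - g2 i y) + (g2 i y - T.elim 0 (g2 i)) := by ring
            rw [e4]
            refine (abs_add_three _ _ _).trans ?_
            rw [abs_sub_comm (S.elim 0 (g2 i))]
            linarith only [e2, e3]
          refine (Finset.sum_le_sum fun i _ => e1 i).trans ?_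
          rw [Finset.sum_add_distrib, ← Finset.sum_mul, hs2, one_mul, add_assoc]
        have h7 : cF * (M - (φ x + φ y)) ≤ cF * |S.elim 0 f - T.elim 0 f| :=
          mul_le_mul_of_nonneg_left (by linarith only [h5]) hcF.le
        have h8 : cF / 2 * M ≤ ∑ i, w2 i * |g2 i x - g2 i y| := by
          have e1 : (φ x + φ y) ≤ cF / 4 * M := hcase.le
          have e2 : cF * (φ x + φ y) ≤ 1 * (φ x + φ y) :=
            mul_le_mul_of_nonneg_right hcF1 (add_nonneg (hφ0 x) (hφ0 y))
          linarith
        have h9 : min (ck * (cF / 4)) (cF / 2) * M ≤ cF / 2 * M :=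
          mul_le_mul_of_nonneg_right (min_le_right _ _) hM
        linarith only [n1, h8, h9]
    intro f hf x y
    rw [hsum]
    rcases le_total 0 (f x - f y) with h | h
    · have := key f hf x y h
      rw [abs_of_nonneg h]
      linarith
    · have h' : 0 ≤ f y - f x := by linarith
      have := key f hf y x h'
      have e1 : ∑ i, w1 i * |g1 i x - g1 i y| = ∑ i, w1 i * |g1 i y - g1 i x| := by
        simp only [abs_sub_comm]
      have e2 : ∑ i, w2 i * |g2 i x - g2 i y| = ∑ i, w2 i * |g2 i y - g2 i x| := by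
        simp only [abs_sub_comm]
      rw [abs_sub_comm, abs_of_nonneg h', e1, e2]
      linarith

theorem fam_path (k : ℕ) :
    ∃ c : ℝ, 0 < c ∧ ∀ {V : Type} [Finite V] (G : SimpleGraph V) (ρ : V → V → ℝ),
      (∀ u v, ρ u v = ρ v u) → (∀ u v, G.Adj u v → 0 < ρ u v) → ∀ W : Set V, PathStr G ρ k W →
      ∀ H : V → ℝ, (∀ x, 0 ≤ H x) → (∀ u v, G.Adj u v → |H u - H v| ≤ ρ u v) →
      (∀ v, 0 < H v ↔ v ∈ W) → Fam G ρ H c := by
  obtain ⟨cF, hcF, hcF1, hF⟩ : ∃ cF : ℝ, 0 < cF ∧ cF ≤ 1 ∧ FanStatement cF :=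
    ⟨_, by norm_num, by norm_num, fan⟩
  induction k with
  | zero =>
    refine ⟨1, one_pos, ?_⟩
    intro V _ G ρ hs hp W hW H hH hHl hHW
    have hW' : W = ∅ := hW
    have hH0 : ∀ v, H v = 0 := by
      intro v
      by_contra hne
      have hpos : 0 < H v := lt_of_le_of_ne (hH v) (Ne.symm hne)
      have h5 := (hHW v).1 hpos
      rw [hW'] at h5
      exact h5
    refine ⟨Unit, inferInstance, fun _ => 1, fun _ _ => 0, fun _ => zero_le_one, by simp, ?_, ?_⟩
    · intro _
      refine ⟨fun v => by simpa only [abs_zero] using hH v,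
        fun u v huv => by simpa only [sub_self, abs_zero] using (hp u v huv).le⟩
    · intro f hf x y
      have e1 : f x = 0 := by
        have := hf.1 x; rw [hH0] at this; simpa only [abs_nonpos_iff] using this
      have e2 : f y = 0 := by
        have := hf.1 y; rw [hH0] at this; simpa using this
      rw [e1, e2]; simp
  | succ k ih =>
    obtain ⟨ck, hck, hih⟩ := ih
    refine ⟨(1 / 2) * min (ck * (cF / 4)) (cF / 2), by positivity, ?_⟩
    intro V _ G ρ hs hp W hW H hH hHl hHW
    exact fam_step2 hcF hcF1 hck hF barrier hih G ρ hs hp W hW H hH hHl hHW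

/-- random nonexpansive maps to the line from a shortest path structure -/
theorem lineMaps_of_path (k : ℕ) :
    ∃ c : ℝ, 0 < c ∧ ∀ {V : Type} [Finite V] (G : SimpleGraph V) (ρ : V → V → ℝ), IsMet ρ →
      Gen G ρ → PathStr G ρ k Set.univ →
      ∃ (ι : Type) (_ : Fintype ι) (w : ι → ℝ) (g : ι → V → ℝ),
        (∀ i, 0 ≤ w i) ∧ ∑ i, w i = 1 ∧ (∀ i x y, |g i x - g i y| ≤ ρ x y) ∧
        ∀ x y, c * ρ x y ≤ ∑ i, w i * |g i x - g i y| := by
  classical
  obtain ⟨c, hc, hall⟩ := fam_path k
  refine ⟨c, hc, ?_⟩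
  intro V _ G ρ hρ hG hP
  have := Fintype.ofFinite V
  have hn : ∀ x y, 0 ≤ ρ x y := hρ.nonneg
  obtain ⟨R, hR0, hR⟩ : ∃ R : ℝ, 0 < R ∧ ∀ x y, ρ x y ≤ R := by
    refine ⟨∑ x, ∑ y, ρ x y + 1, ?_, ?_⟩
    · have : 0 ≤ ∑ x, ∑ y, ρ x y :=
        Finset.sum_nonneg fun x _ => Finset.sum_nonneg fun y _ => hn x y
      linarith
    intro x y
    have e1 : ρ x y ≤ ∑ y, ρ x y :=
      Finset.single_le_sum (f := fun y => ρ x y) (fun y _ => hn x y) (Finset.mem_univ y)
    have e2 : ∑ y, ρ x y ≤ ∑ x, ∑ y, ρ x y :=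
      Finset.single_le_sum (f := fun x => ∑ y, ρ x y)
        (fun x _ => Finset.sum_nonneg fun y _ => hn x y) (Finset.mem_univ x)
    linarith [e1.trans e2]
  have hp : ∀ u v, G.Adj u v → 0 < ρ u v := fun u v huv => hρ.pos u v huv.ne
  obtain ⟨ι, hι, w, g, hw, hw1, ha, hl⟩ := hall G ρ hρ.symm hp Set.univ hP (fun _ => R)
    (fun _ => hR0.le) (fun u v huv => by simpa only [sub_self, abs_zero] using (hp u v huv).le)
    (fun v => ⟨fun _ => trivial, fun _ => hR0⟩)
  refine ⟨ι, hι, w, g, hw, hw1, fun i => hG (g i) (ha i).2, ?_⟩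
  intro x y
  have hf : Adm G ρ (fun _ => R) (fun v => ρ v y) := by
    constructor
    · intro v
      rw [abs_of_nonneg (hn v y)]
      exact hR v y
    · intro u v _
      rw [abs_le]
      constructor
      · linarith [hρ.tri v u y, hρ.symm u v]
      · linarith [hρ.tri u v y]
  have := hl _ hf x y
  rw [hρ.self, sub_zero, abs_of_nonneg (hn x y)] at this
  exact this

end Vale.Agent.P235
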