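import Vale.Agent.P235.H105.Glue

/-!
# Edge sums of a class of graphs
-/

namespace Vale.Agent.P235

/-- The closure of the class `P` of graphs under gluing two graphs along an edge and under
deleting edges. -/
inductive EdgeSumOf (P : ∀ (V : Type), SimpleGraph V → Prop) : ∀ {V : Type}, SimpleGraph V → Prop
  | base {V : Type} {G : SimpleGraph V} : P V G → EdgeSumOf P G
  | del {V : Type} {G G' : SimpleGraph V} : EdgeSumOf P G → G' ≤ G → EdgeSumOf P G'
  | glue {V : Type} {G : SimpleGraph V} {A B : Set V} {s t : V} :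
      G.Adj s t → A ∪ B = Set.univ → A ∩ B = {s, t} →
      (∀ a b, a ∉ B → b ∉ A → ¬ G.Adj a b) →
      EdgeSumOf P (G.induce A) → EdgeSumOf P (G.induce B) → EdgeSumOf P G

theorem main_induct2 {P : ∀ (V : Type), SimpleGraph V → Prop} {c c0 K1 : ℝ} (hc : 0 < c)
    (hc1 : c ≤ 1) (hc0 : c0 = c / 120)
    (hK : K1 = 4 / c0)
    (hLL : ∀ (V : Type) [Finite V] (G : SimpleGraph V), P V G → EdgeExact G c)
    {V : Type} {G : SimpleGraph V} (hE : EdgeSumOf P G) :
    Finite V → ∀ d : V → V → ℝ, IsMet d → Gen G d → ∀ s t : V, G.Adj s t → ∀ D : ℝ,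
      c0 * d s t ≤ D → D ≤ d s t →
      ∃ F : V → V → ℝ, IsL1 F ∧ F s t = D ∧ EmbOn Set.univ G d c0 K1 s t F := by
  have hc0' : 0 < c0 := by rw [hc0]; positivity
  have hK1 : 0 < K1 := by rw [hK]; positivity
  induction hE with
  | base hp =>
    intro hfin d hd hG s t hst D hD1 hD2
    exact base_step2 hc hc1 hc0 hK (hLL _ _ hp) hd hG hst hD1 hD2
  | @del V G G' _ hle ih =>
    intro hfin d hd hG s t hst D hD1 hD2
    have hG2 : Gen G d := fun f hf => hG f (fun u v huv => hf u v (hle huv))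
    obtain ⟨F, h1, h2, h3⟩ := ih hfin d hd hG2 s t (hle hst) D hD1 hD2
    refine ⟨F, h1, h2, ?_⟩
    constructor
    · intro u hu v hv huv; exact h3.low u hu v hv (hle huv)
    · intro u hu v hv huv; exact h3.up u hu v hv (hle huv)
    · intro K hK a b τa τb hg u hu v hv huv
      exact h3.chain K hK a b τa τb hg u hu v hv (hle huv)
    · exact h3.chain'
    · intro p hp q hq hpq hp' hq' δp δq hT hR u hu v hv huv
      exact h3.up3 p hp q hq (hle hpq) hp' hq' δp δq hT hR u hu v hv (hle huv)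
    · intro x hx u hu v hv huv
      exact h3.sp x hx u hu v hv (hle huv)
    · exact h3.sp'
  | @glue V G A B s t hst hAB hI hno _ _ ihA ihB =>
    intro hfin d hd hG s0 t0 hst0 D0 hD1 hD2
    have hsAB : s ∈ A ∩ B := by rw [hI]; exact Or.inl rfl
    have htAB : t ∈ A ∩ B := by rw [hI]; exact Or.inr rfl
    obtain ⟨hsA, hsB⟩ := hsAB
    obtain ⟨htA, htB⟩ := htAB
    have hmem : ∀ u, u ∈ A ∨ u ∈ B := by
      intro u
      have : u ∈ A ∪ B := by rw [hAB]; trivial
      exact this
    have hedge : ∀ u v, G.Adj u v → (u ∈ A ∧ v ∈ A) ∨ (u ∈ B ∧ v ∈ B) := by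
      intro u v huv
      by_cases hu : u ∈ A
      · by_cases hv : v ∈ A
        · exact Or.inl ⟨hu, hv⟩
        · have hvB := (hmem v).resolve_left hv
          by_cases huB : u ∈ B
          · exact Or.inr ⟨huB, hvB⟩
          · exact absurd huv (hno u v huB hv)
      · have huB := (hmem u).resolve_left hu
        by_cases hvB : v ∈ B
        · exact Or.inr ⟨huB, hvB⟩
        · exact absurd huv.symm (hno v u hvB hu)
    have hAB' : B ∪ A = Set.univ := by rw [Set.union_comm]; exact hAB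
    have hI' : B ∩ A = {s, t} := by rw [Set.inter_comm]; exact hI
    have hno' : ∀ a b, a ∉ A → b ∉ B → ¬ G.Adj a b := fun a b ha hb h => hno b a hb ha h.symm
    have gA := gen_induce hd hG hAB hI hsA htA hst hno
    have gB := gen_induce hd hG hAB' hI' hsB htB hst hno'
    have mA : IsMet (fun x y : A => d x y) := isMet_induce hd
    have mB : IsMet (fun x y : B => d x y) := isMet_induce hd
    rcases hedge s0 t0 hst0 with ⟨hs0, ht0⟩ | ⟨hs0, ht0⟩
    · obtain ⟨FA, lA, eA, EA⟩ := ihA inferInstance _ mA gA ⟨s0, hs0⟩ ⟨t0, ht0⟩ hst0 D0 hD1 hD2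
      have low := EA.low ⟨s, hsA⟩ trivial ⟨t, htA⟩ trivial hst
      have up := EA.up ⟨s, hsA⟩ trivial ⟨t, htA⟩ trivial hst
      obtain ⟨FB, lB, eB, EB⟩ := ihB inferInstance _ mB gB ⟨s, hsB⟩ ⟨t, htB⟩ hst
        (FA ⟨s, hsA⟩ ⟨t, htA⟩) low up
      have hDpos : 0 < FA ⟨s, hsA⟩ ⟨t, htA⟩ := (mul_pos hc0' (hd.pos s t hst.ne)).trans_le low
      obtain ⟨F, hF, hFA, hFB, hFAB⟩ := glue A B s t hAB hI FA FB lA lB hsA htA hsB htB _ hDpos
        rfl eB
      have EA' := EA.transfer hFA
      have EB' := EB.transfer hFB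
      refine ⟨F, hF, ?_, ?_⟩
      · have := hFA ⟨s0, hs0⟩ ⟨t0, ht0⟩
        rw [eA] at this
        exact this
      · refine glue_step hd hc0' hK1.le hF hAB hsA htA hst hno hs0 ht0 hst0 EA' EB' ?_
        intro x hx z hz
        have e1 := hFAB ⟨x, hx⟩ ⟨z, hz⟩
        rw [← hFA, ← hFA, ← hFB, ← hFB, ← hFA] at e1
        exact e1
    · obtain ⟨FB, lB, eB, EB⟩ := ihB inferInstance _ mB gB ⟨s0, hs0⟩ ⟨t0, ht0⟩ hst0 D0 hD1 hD2
      have low := EB.low ⟨s, hsB⟩ trivial ⟨t, htB⟩ trivial hst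
      have up := EB.up ⟨s, hsB⟩ trivial ⟨t, htB⟩ trivial hst
      obtain ⟨FA, lA, eA, EA⟩ := ihA inferInstance _ mA gA ⟨s, hsA⟩ ⟨t, htA⟩ hst
        (FB ⟨s, hsB⟩ ⟨t, htB⟩) low up
      have hDpos : 0 < FB ⟨s, hsB⟩ ⟨t, htB⟩ := (mul_pos hc0' (hd.pos s t hst.ne)).trans_le low
      obtain ⟨F, hF, hFB, hFA, hFAB⟩ := glue B A s t hAB' hI' FB FA lB lA hsB htB hsA htA _ hDpos
        rfl eA
      have EA' := EA.transfer hFA
      have EB' := EB.transfer hFB
      refine ⟨F, hF, ?_, ?_⟩
      · have := hFB ⟨s0, hs0⟩ ⟨t0, ht0⟩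
        rw [eB] at this
        exact this
      · refine glue_step hd hc0' hK1.le hF hAB' hsB htB hst hno' hs0 ht0 hst0 EB' EA' ?_
        intro x hx z hz
        have e1 := hFAB ⟨x, hx⟩ ⟨z, hz⟩
        rw [← hFA, ← hFA, ← hFB, ← hFB, ← hFB] at e1
        exact e1

/-- nonexpansive on edges implies nonexpansive -/
theorem IsL1.le_of_gen {V : Type} {G : SimpleGraph V} {d F : V → V → ℝ} (hd : Gen G d)
    (hF : IsL1 F) (h : ∀ u v, G.Adj u v → F u v ≤ d u v) (x y : V) : F x y ≤ d x y := by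
  have h1 : ∀ u v, G.Adj u v → |F x u - F x v| ≤ d u v := by
    intro u v huv
    rw [hF.symm x u, hF.symm x v]
    exact (hF.abs_sub_le u v x).trans (h u v huv)
  have h2 := hd (fun u => F x u) h1 x y
  rw [hF.self, zero_sub, abs_neg, abs_of_nonneg (hF.nonneg x y)] at h2
  exact h2

/-- The edge-exact property passes to edge sums, with one constant for all numbers of summands. -/
theorem EdgeSumOf.edgeExact {P : ∀ (V : Type), SimpleGraph V → Prop} {c : ℝ} (hc : 0 < c)
    (hc1 : c ≤ 1) (hP : ∀ (V : Type) [Finite V] (G : SimpleGraph V), P V G → EdgeExact G c)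
    {V : Type} [Finite V] {G : SimpleGraph V} (hE : EdgeSumOf P G) :
    EdgeExact G (c / 12000) := by
  intro d hd hG s t hst
  have hle : c / 120 * d s t ≤ d s t := by
    have h0 := hd.nonneg s t
    have : c / 120 ≤ 1 := by linarith only [hc1]
    calc c / 120 * d s t ≤ 1 * d s t := mul_le_mul_of_nonneg_right this h0
      _ = _ := one_mul _
  obtain ⟨F, hF, hFst, hEmb⟩ := main_induct2 hc hc1 rfl rfl hP hE inferInstance d hd hG s t hst
    (d s t) hle le_rfl
  refine ⟨F, hF, hFst, ?_, hF.le_of_gen hG fun u v huv => hEmb.up u trivial v trivial huv⟩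
  intro x y
  have h1 := hEmb.sp' x trivial y trivial
  have h2 : 5 * (5 * (4 / (c / 120))) * F x y = (12000 / c) * F x y := by field_simp; ring
  rw [h2] at h1
  have h3 : c / 12000 * d x y ≤ c / 12000 * ((12000 / c) * F x y) :=
    mul_le_mul_of_nonneg_left h1 (by positivity)
  have h4 : c / 12000 * ((12000 / c) * F x y) = F x y := by field_simp
  rw [h4] at h3
  exact h3

/-- edge-exact graphs have bounded distortion -/
theorem EdgeExact.distortion {V : Type} [Finite V] {G : SimpleGraph V} {c : ℝ} (hc : 0 < c)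
    (h : EdgeExact G c) (hconn : G.Connected) : DistortionLE G (1 / c) := by
  intro ℓ hℓ
  have hd := pathDist_isMet hconn hℓ
  by_cases hV : ∃ s t : V, G.Adj s t
  · obtain ⟨s, t, hst⟩ := hV
    have hgen : Gen G (pathDist G ℓ) := by
      intro f hf x y
      exact pathDist_gen hconn (fun u v huv => (hf u v huv).trans (pathDist_adj hℓ huv)) x y
    obtain ⟨F, hF, _, hlow, hup⟩ := h _ hd hgen s t hst
    refine (hF.smul (by positivity : (0 : ℝ) ≤ 1 / c)).embeds (fun x y => ?_) (fun x y => ?_)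
    · have h1 := mul_le_mul_of_nonneg_left (hlow x y) (by positivity : (0 : ℝ) ≤ 1 / c)
      have h2 : 1 / c * (c * pathDist G ℓ x y) = pathDist G ℓ x y := by field_simp
      rw [h2] at h1
      exact h1
    · exact mul_le_mul_of_nonneg_left (hup x y) (by positivity)
  · have hsub : ∀ x y : V, x = y := by
      intro x y
      by_contra hxy
      obtain ⟨w⟩ := hconn x y
      cases w with
      | nil => exact hxy rfl
      | cons h p => exact hV ⟨_, _, h⟩
    refine (IsL1.zero : IsL1 (fun _ _ : V => (0 : ℝ))).embeds (fun x y => ?_) (fun x y => ?_)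
    · rw [hsub x y, hd.self]
    · rw [hsub x y, hd.self, mul_zero]

/-- Edge sums of edge-exact graphs have bounded `c₁`. -/
theorem EdgeSumOf.distortion {P : ∀ (V : Type), SimpleGraph V → Prop} {c : ℝ} (hc : 0 < c)
    (hP : ∀ (V : Type) [Finite V] (G : SimpleGraph V), P V G → EdgeExact G c)
    {V : Type} [Finite V] {G : SimpleGraph V} (hE : EdgeSumOf P G) (hconn : G.Connected) :
    DistortionLE G (12000 / min c 1) := by
  have hc' : 0 < min c 1 := lt_min hc one_pos
  have h := (EdgeSumOf.edgeExact hc' (min_le_right _ _)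
    (fun V _ G hG => (hP V G hG).mono (min_le_left _ _)) hE).distortion (by positivity) hconn
  have e : 1 / (min c 1 / 12000) = 12000 / min c 1 := by field_simp
  rw [e] at h
  exact h

end Vale.Agent.P235
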