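import Vale.Agent.P235.H105.Sum

/-!
# Treewidth at most 3: embeddings which are exact on one prescribed edge
-/

namespace Vale.Agent.P235T3

open Vale.Agent.P235 (IsL1 IsMet Gen)

/-- cut functionals give `L₁` semimetrics -/
theorem CF.isL1 {V : Type} [Finite V] (μ : CF V) : IsL1 μ.F := by
  classical
  have := Fintype.ofFinite V
  refine ⟨V → Bool, inferInstance, fun χ => μ.L (fun χ' => if χ = χ' then 1 else 0),
    fun χ v => χ v, fun χ => μ.nn _ (by intro χ'; split_ifs <;> norm_num), ?_⟩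
  intro x y
  unfold CF.F
  rw [LinearMap.pi_apply_eq_sum_univ μ.L]
  apply Finset.sum_congr rfl
  intro χ _
  simp only [smul_eq_mul, n2]
  ring

/-- the root triple can be chosen to contain a prescribed edge -/
theorem exists_structure_edge {V : Type} [DecidableEq V] {G : SimpleGraph V} {ℓ : Sym2 V → ℝ}
    (hc : G.Connected) (hℓ : ∀ e ∈ G.edgeSet, 0 < ℓ e) (hG : TreewidthLE G 3) {s t : V}
    (hst : G.Adj s t) :
    ∃ tr : Tr V, Ok (pathDist G ℓ) ![s, t, t] tr ∧
      (∀ j, (![s, t, t] : Fin 3 → V) j ∉ tr.verts) ∧ ∀ x, All ![s, t, t] tr x := by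
  classical
  obtain ⟨ι, hfin, H, B, hH, hV, hE, hI, hB4⟩ := hG
  have := Fintype.ofFinite ι
  obtain ⟨r, hrs, hrt⟩ := hE s t hst
  have hd := pathDist_PM hc hℓ
  set T : Fin 3 → V := ![s, t, t] with hT
  have hTj : ∀ j, T j = s ∨ T j = t := by
    intro j
    fin_cases j
    · exact Or.inl rfl
    · exact Or.inr rfl
    · exact Or.inr rfl
  -- the base
  have hbase : ∃ tr, Ok (pathDist G ℓ) T tr ∧ (∀ j, T j ∉ tr.verts) ∧
      (∀ x, All T tr x ↔ ∃ a ∈ ({r} : Finset ι), x ∈ B a) ∧
      ∀ a ∈ ({r} : Finset ι), InBag (B a) T tr := by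
    have hBr : ({s, t} : Finset V) ∪ (B r \ {s, t}) = B r := by
      ext x
      simp only [Finset.mem_union, Finset.mem_insert, Finset.mem_singleton, Finset.mem_sdiff]
      constructor
      · rintro ((h | h) | h)
        · rw [h]; exact hrs
        · rw [h]; exact hrt
        · exact h.1
      · intro h
        by_cases hx : x = s ∨ x = t
        · exact Or.inl hx
        · exact Or.inr ⟨h, hx⟩
    obtain ⟨tr', g1, g2, g3, g4, g5⟩ := insert_many hd (T := T) (t := .nil) (S := {s, t}) trivial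
      (by simp [Tr.verts]) (fun x hx => by
        simp only [Finset.mem_insert, Finset.mem_singleton] at hx
        rcases hx with h | h
        · exact ⟨0, h⟩
        · exact ⟨1, h⟩) (B r \ {s, t})
      (by rw [hBr]; exact hB4 r)
      (by
        rw [Finset.disjoint_left]
        intro x hx hx'
        exact (Finset.mem_sdiff.mp hx').2 hx)
      (by
        intro z hz hzall
        rcases hzall with ⟨j, h⟩ | h
        · apply (Finset.mem_sdiff.mp hz).2
          simp only [Finset.mem_insert, Finset.mem_singleton]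
          rw [h]
          exact hTj j
        · simp [Tr.verts] at h)
      (by
        intro z _ y hy
        rcases hy with ⟨j, h⟩ | h
        · refine ⟨y, ?_, ?_⟩
          · simp only [Finset.mem_insert, Finset.mem_singleton]
            rw [h]
            exact hTj j
          · rw [hd.self]
            linarith only []
        · simp [Tr.verts] at h)
    rw [hBr] at g4
    refine ⟨tr', g1, g2, ?_, ?_⟩
    · intro x
      constructor
      · rintro (⟨j, h⟩ | h)
        · refine ⟨r, by simp, ?_⟩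
          rw [h]
          rcases hTj j with h' | h' <;> rw [h']
          · exact hrs
          · exact hrt
        · rw [g3, Finset.mem_union] at h
          rcases h with h | h
          · exact ⟨r, by simp, (Finset.mem_sdiff.mp h).1⟩
          · simp [Tr.verts] at h
      · rintro ⟨a, ha, hx⟩
        rw [Finset.mem_singleton] at ha
        subst ha
        by_cases hxs : x = s
        · exact Or.inl ⟨0, hxs⟩
        · by_cases hxt : x = t
          · exact Or.inl ⟨1, hxt⟩
          · right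
            rw [g3, Finset.mem_union]
            exact Or.inl (Finset.mem_sdiff.mpr ⟨hx, by simp [hxs, hxt]⟩)
    · intro a ha
      rw [Finset.mem_singleton] at ha
      subst ha
      exact g4
  have hgrow : ∀ n : ℕ, ∀ A : Finset ι, Fintype.card ι - A.card ≤ n → r ∈ A →
      (∀ a ∈ A, ∃ p : H.Walk r a, ∀ x ∈ p.support, x ∈ A) →
      (∃ tr, Ok (pathDist G ℓ) T tr ∧ (∀ j, T j ∉ tr.verts) ∧
        (∀ x, All T tr x ↔ ∃ a ∈ A, x ∈ B a) ∧ ∀ a ∈ A, InBag (B a) T tr) →
      ∃ tr, Ok (pathDist G ℓ) T tr ∧ (∀ j, T j ∉ tr.verts) ∧ ∀ x, All T tr x := by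
    intro n
    induction n with
    | zero =>
      rintro A hcard _ _ ⟨tr, h1, h2, h3, _⟩
      have hA : A = Finset.univ := by
        apply Finset.eq_univ_of_card
        have := Finset.card_le_univ A
        omega
      refine ⟨tr, h1, h2, ?_⟩
      intro x
      rw [h3 x, hA]
      obtain ⟨a, ha⟩ := hV x
      exact ⟨a, Finset.mem_univ a, ha⟩
    | succ n ih =>
      rintro A hcard hrA hA ⟨tr, h1, h2, h3, h4⟩
      by_cases hAu : A = Finset.univ
      · refine ⟨tr, h1, h2, ?_⟩
        intro x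
        rw [h3 x, hAu]
        obtain ⟨a, ha⟩ := hV x
        exact ⟨a, Finset.mem_univ a, ha⟩
      · have hex : ∃ a, a ∉ A := by
          by_contra hcon
          push Not at hcon
          exact hAu (Finset.eq_univ_iff_forall.mpr hcon)
        obtain ⟨a, ha⟩ := hex
        obtain ⟨p⟩ := hH.connected r a
        obtain ⟨dd, _, hd1, hd2⟩ := p.exists_boundary_dart (A : Set ι)
          (Finset.mem_coe.mpr hrA) (fun h => ha (Finset.mem_coe.mp h))
        have hs : dd.fst ∈ A := Finset.mem_coe.mp hd1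
        have ht : dd.snd ∉ A := fun h => hd2 (Finset.mem_coe.mpr h)
        have hst' : H.Adj dd.fst dd.snd := dd.adj
        have hnew := grow hc hℓ hH hE hI hB4 hA hs ht hst' h1 h2 h3 h4
        apply ih (insert dd.snd A) _ (Finset.mem_insert_of_mem hrA) _ hnew
        · rw [Finset.card_insert_of_notMem ht]
          omega
        · intro b hb
          rcases Finset.mem_insert.mp hb with rfl | hb
          · obtain ⟨q, hq⟩ := hA _ hs
            refine ⟨q.concat hst', ?_⟩
            intro x hx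
            rw [SimpleGraph.Walk.support_concat, List.mem_append,
              List.mem_singleton] at hx
            rcases hx with hx | hx
            · exact Finset.mem_insert_of_mem (hq x hx)
            · rw [hx]
              exact Finset.mem_insert_self _ _
          · obtain ⟨q, hq⟩ := hA b hb
            exact ⟨q, fun x hx => Finset.mem_insert_of_mem (hq x hx)⟩
  obtain ⟨tr, h1, h2, h3⟩ := hgrow (Fintype.card ι) {r} (by omega) (by simp) (by
    intro a ha
    rw [Finset.mem_singleton] at ha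
    subst ha
    exact ⟨SimpleGraph.Walk.nil, by simp⟩) hbase
  exact ⟨tr, h1, h2, h3⟩

/-- embedding of a compatible structure with a prescribed law at the root triple -/
theorem embed_structure_root {V : Type} [DecidableEq V] {d : V → V → ℝ} (hd : PM d) (M : Loc)
    {T : Fin 3 → V} {t : Tr V} (hOk : Ok d T t) (hT : ∀ j, T j ∉ t.verts)
    (hall : ∀ x, All T t x) {w : Fin 3 → ℝ} (hw : ∀ k, 0 ≤ w k) (hg : M.Good w (lg d T)) :
    ∃ μ : CF V, μ.wt T = w ∧ ∀ x y, μ.F x y ≤ M.cu * d x y ∧ d x y ≤ K3 M * μ.F x y := by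
  have hwt := root_wt hd hw hg
  have hg' : M.Good ((root T w hw).wt T) (lg d T) := by rw [hwt]; exact hg
  obtain ⟨ν, hA, hR⟩ := claim hd M t T (root T w hw) hOk hT hg'
  have hc0 := M.c0_pos
  have hC := M.C_nonneg
  have hcu := M.cu_nonneg
  have h2 := K2_nonneg M
  have hinv : 1 / M.c0 ≤ K2 M := by
    unfold K2
    have : 1 / M.c0 ≤ (1 + M.cu * M.C) / M.c0 := by
      apply div_le_div_of_nonneg_right _ hc0.le
      nlinarith only [hcu, hC]
    linarith only [hC, this]
  have hK23 : K2 M ≤ K3 M := by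
    have h3 := mul_nonneg (mul_nonneg hcu hC) h2
    unfold K3
    linarith
  have hTT : ∀ i j, ν.F (T i) (T j) ≤ M.cu * d (T i) (T j) ∧
      M.c0 * d (T i) (T j) ≤ ν.F (T i) (T j) := by
    intro i j
    rw [hA.F (hT i) (hT j)]
    exact good_pair hd hg' i j
  have hTT' : ∀ i j, d (T i) (T j) ≤ (1 / M.c0) * ν.F (T i) (T j) := by
    intro i j
    rw [div_mul_eq_mul_div, one_mul, le_div_iff₀ hc0]
    have := (hTT i j).2
    linarith
  have hxT : ∀ x ∈ t.verts, ∀ j, d x (T j) ≤ K2 M * ν.F x (T j) := by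
    intro x hx j
    have h3 := hR.di hd hg' (hT j) hx
    obtain ⟨i, hi⟩ := di_ex (d := d) T x
    rw [hi, ν.F_symm] at h3
    have h4 := portal hd (M := M) (K' := 1 / M.c0) (by positivity) (hR.ub1 x hx i) (hTT' i j) h3
    have h5 : M.C + (1 + M.cu * M.C) * (1 / M.c0) = K2 M := by
      unfold K2
      ring
    rwa [h5] at h4
  refine ⟨ν, ?_, ?_⟩
  · rw [hA.wt hT, hwt]
  intro x y
  rcases hall x with ⟨i, rfl⟩ | hx
  · rcases hall y with ⟨j, rfl⟩ | hy
    · refine ⟨(hTT i j).1, (hTT' i j).trans ?_⟩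
      exact mul_le_mul_of_nonneg_right (hinv.trans hK23) (ν.F_nonneg _ _)
    · rw [hd.symm, ν.F_symm]
      exact ⟨hR.ub1 y hy i, (hxT y hy i).trans (mul_le_mul_of_nonneg_right hK23 (ν.F_nonneg _ _))⟩
  · rcases hall y with ⟨j, rfl⟩ | hy
    · exact ⟨hR.ub1 x hx j, (hxT x hx j).trans (mul_le_mul_of_nonneg_right hK23 (ν.F_nonneg _ _))⟩
    · exact ⟨hR.ub2 x hx y hy, hR.pb x hx y hy⟩

/-- the local theory with the upper constant `33/32` -/
theorem exists_loc' : ∃ M : Loc, M.cu = 33 / 32 ∧ ∀ w om, M.Good w om ↔ GoodT w om := by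
  obtain ⟨M, hM⟩ := exists_loc (by norm_num) (by norm_num) (by norm_num)
    Vale.Agent.P235.Tri.oneStep
  refine ⟨{ M with cu := 33 / 32, cu_nonneg := by norm_num, hi := ?_ }, rfl, hM⟩
  intro w om hg k
  have hg' : GoodT w om := (hM w om).1 hg
  have h1 : (w (k + 1) - om (k + 1)/32) + (w (k + 2) - om (k + 2)/32) ≤
      om (k + 1) + om (k + 2) := by
    fin_cases k
    · exact hg'.dbc
    · exact hg'.dca
    · exact hg'.dab
  linarith

theorem exact_edge : ∃ c : ℝ, 0 < c ∧ c ≤ 1 ∧ ∀ {V : Type} [Finite V] {G : SimpleGraph V}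
    {ℓ : Sym2 V → ℝ}, G.Connected → (∀ e ∈ G.edgeSet, 0 < ℓ e) → TreewidthLE G 3 → ∀ {s t : V},
    G.Adj s t → ∃ F : V → V → ℝ, IsL1 F ∧ F s t = pathDist G ℓ s t ∧
      (∀ x y, c * pathDist G ℓ x y ≤ F x y) ∧ ∀ x y, F x y ≤ pathDist G ℓ x y := by
  obtain ⟨M, hcu, hM⟩ := exists_loc'
  have hK3 : 0 ≤ K3 M := by
    have h1 := M.C_nonneg
    have h2 := K2_nonneg M
    have h3 := M.cu_nonneg
    unfold K3
    positivity
  have hK : 0 < K3 M + 1 := by linarith
  refine ⟨min 1 (32 / 33 / (K3 M + 1)), lt_min one_pos (by positivity), min_le_left _ _, ?_⟩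
  intro V _ G ℓ hc hℓ hG s t hst
  classical
  have hd := pathDist_PM hc hℓ
  obtain ⟨tr, h1, h2, h3⟩ := exists_structure_edge hc hℓ hG hst
  set T : Fin 3 → V := ![s, t, t] with hT
  set D := pathDist G ℓ s t with hD
  have hD0 : 0 ≤ D := hd.nonneg s t
  have l0 : lg (pathDist G ℓ) T 0 = D := by
    show (pathDist G ℓ s t + pathDist G ℓ s t - pathDist G ℓ t t) / 2 = D
    rw [hd.self]; ring
  have l1 : lg (pathDist G ℓ) T 1 = 0 := by
    show (pathDist G ℓ t t + pathDist G ℓ t s - pathDist G ℓ t s) / 2 = 0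
    rw [hd.self]; ring
  have l2 : lg (pathDist G ℓ) T 2 = 0 := by
    show (pathDist G ℓ t s + pathDist G ℓ t t - pathDist G ℓ s t) / 2 = 0
    rw [hd.self, hd.symm t s]; ring
  have hw : ∀ k, 0 ≤ (![33 / 32 * D, 0, 0] : Fin 3 → ℝ) k := by
    intro k
    fin_cases k
    · show 0 ≤ 33 / 32 * D
      positivity
    · exact le_rfl
    · exact le_rfl
  have hg : M.Good ![33 / 32 * D, 0, 0] (lg (pathDist G ℓ) T) := by
    rw [hM]
    unfold GoodT
    rw [l0, l1, l2]
    have e0 : (![33 / 32 * D, 0, 0] : Fin 3 → ℝ) 0 - D / 32 = D := by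
      show 33 / 32 * D - D / 32 = D
      ring
    have e1 : (![33 / 32 * D, 0, 0] : Fin 3 → ℝ) 1 - 0 / 32 = 0 := by
      show (0 : ℝ) - 0 / 32 = 0
      ring
    have e2 : (![33 / 32 * D, 0, 0] : Fin 3 → ℝ) 2 - 0 / 32 = 0 := by
      show (0 : ℝ) - 0 / 32 = 0
      ring
    rw [e0, e1, e2]
    refine ⟨hD0, le_rfl, le_rfl, hD0, le_rfl, le_rfl, ?_, ?_, ?_, ?_⟩ <;> simp
  obtain ⟨μ, hwt, hμ⟩ := embed_structure_root hd M h1 h2 h3 hw hg
  rw [hcu] at hμ
  have hFst : μ.F s t = 33 / 32 * D := by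
    have h4 := μ.F_pair T 2
    rw [hwt] at h4
    have h5 : μ.F (T 0) (T 1) = (![33 / 32 * D, 0, 0] : Fin 3 → ℝ) 0 +
        (![33 / 32 * D, 0, 0] : Fin 3 → ℝ) 1 := h4
    have h6 : μ.F (T 0) (T 1) = 33 / 32 * D + 0 := h5
    rw [add_zero] at h6
    exact h6
  refine ⟨fun x y => 32 / 33 * μ.F x y, μ.isL1.smul (by norm_num), ?_, ?_, ?_⟩
  · show 32 / 33 * μ.F s t = D
    rw [hFst]; ring
  · intro x y
    show _ ≤ 32 / 33 * μ.F x y
    have h4 := (hμ x y).2
    have h5 := μ.F_nonneg x y
    have h6 := hd.nonneg x y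
    have h7 : pathDist G ℓ x y ≤ (K3 M + 1) * μ.F x y := by linarith
    calc min 1 (32 / 33 / (K3 M + 1)) * pathDist G ℓ x y
        ≤ 32 / 33 / (K3 M + 1) * pathDist G ℓ x y :=
          mul_le_mul_of_nonneg_right (min_le_right _ _) h6
      _ ≤ 32 / 33 / (K3 M + 1) * ((K3 M + 1) * μ.F x y) :=
          mul_le_mul_of_nonneg_left h7 (by positivity)
      _ = 32 / 33 * μ.F x y := by field_simp
  · intro x y
    show 32 / 33 * μ.F x y ≤ _
    have h4 := (hμ x y).1
    linarith

end Vale.Agent.P235T3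

namespace Vale.Agent.P235

/-- a graph that generates a (finite) metric is connected -/
theorem Gen.preconnected {V : Type} {G : SimpleGraph V} {ρ : V → V → ℝ} (hρ : IsMet ρ)
    (hG : Gen G ρ) : G.Preconnected := by
  classical
  intro x y
  by_contra hxy
  have h := hG (fun v => if G.Reachable x v then 0 else ρ x y + 1) (by
    intro u v huv
    have e : G.Reachable x u ↔ G.Reachable x v :=
      ⟨fun h => h.trans huv.reachable, fun h => h.trans huv.symm.reachable⟩
    by_cases hu : G.Reachable x u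
    · rw [if_pos hu, if_pos (e.1 hu), sub_self, abs_zero]; exact hρ.nonneg u v
    · rw [if_neg hu, if_neg (fun h => hu (e.2 h)), sub_self, abs_zero]; exact hρ.nonneg u v) x y
  rw [if_pos (SimpleGraph.Reachable.refl x), if_neg hxy, zero_sub, abs_neg,
    abs_of_nonneg (by have := hρ.nonneg x y; linarith)] at h
  linarith

/-- the edge lengths of a metric -/
noncomputable def lenOf {V : Type} (ρ : V → V → ℝ) (hs : ∀ x y, ρ x y = ρ y x) : Sym2 V → ℝ :=
  Sym2.lift ⟨ρ, hs⟩

theorem Gen.eq_pathDist {V : Type} [Finite V] {G : SimpleGraph V} {ρ : V → V → ℝ} (hρ : IsMet ρ)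
    (hG : Gen G ρ) (hc : G.Connected) : pathDist G (lenOf ρ hρ.symm) = ρ := by
  have hℓ : ∀ e ∈ G.edgeSet, 0 < lenOf ρ hρ.symm e := by
    intro e
    induction e using Sym2.ind with
    | _ u v =>
      intro he
      exact hρ.pos u v (SimpleGraph.Adj.ne he)
  have hd := pathDist_isMet hc hℓ
  funext x y
  apply le_antisymm
  · have h := hG (fun v => pathDist G (lenOf ρ hρ.symm) v y) (by
      intro u v huv
      exact (abs_dist_sub hd u v y).trans (pathDist_adj hℓ huv)) x y
    rw [hd.self, sub_zero, abs_of_nonneg (hd.nonneg x y)] at h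
    exact h
  · have : Nonempty (G.Walk x y) := hc x y
    refine le_ciInf fun w => ?_
    induction w with
    | nil => simp [hρ.self]
    | cons h p ih =>
      rw [SimpleGraph.Walk.edges_cons, List.map_cons, List.sum_cons]
      exact (hρ.tri _ _ _).trans (add_le_add (le_of_eq rfl) (ih ⟨p⟩))

/-- graphs of treewidth at most `3` are edge-exact -/
theorem edgeExact_treewidth : ∃ c : ℝ, 0 < c ∧ c ≤ 1 ∧ ∀ (V : Type) [Finite V]
    (G : SimpleGraph V), TreewidthLE G 3 → EdgeExact G c := by
  obtain ⟨c, hc, hc1, h⟩ := P235T3.exact_edge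
  refine ⟨c, hc, hc1, ?_⟩
  intro V _ G hG ρ hρ hgen s t hst
  have hconn : G.Connected := by
    have : Nonempty V := ⟨s⟩
    exact ⟨hgen.preconnected hρ⟩
  have hℓ : ∀ e ∈ G.edgeSet, 0 < lenOf ρ hρ.symm e := by
    intro e
    induction e using Sym2.ind with
    | _ u v =>
      intro he
      exact hρ.pos u v (SimpleGraph.Adj.ne he)
  have e := hgen.eq_pathDist hρ hconn
  obtain ⟨F, h1, h2, h3, h4⟩ := h hconn hℓ hG hst
  have e' : P235T3.pathDist G (lenOf ρ hρ.symm) = ρ := e
  rw [e'] at h2 h3 h4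
  exact ⟨F, h1, h2, h3, h4⟩

end Vale.Agent.P235
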